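import Vale.Agent.P290Z.Orb.Spec

/-! # P290Z, orbit closures of periods: isometries, transvections, projections -/

set_option linter.all false
set_option linter.unusedSectionVars false

open Set Filter Topology Matrix

noncomputable section

namespace Vale.Agent.P290Z.Orb

open Vale.Agent.P290.H726

variable {ι : Type} [Fintype ι] [DecidableEq ι] {G g g' : Matrix ι ι ℤ}

section ring

variable {R : Type} [CommRing R]

theorem bil_eq_dot (G : Matrix ι ι ℤ) (x y : ι → R) :
    bil G x y = x ⬝ᵥ G.map (Int.cast : ℤ → R) *ᵥ y := by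
  simp only [bil, dotProduct, mulVec, Finset.mul_sum, map_apply]
  exact Finset.sum_congr rfl fun i _ => Finset.sum_congr rfl fun j _ => by ring

theorem bil_sum_left {κ : Type} (J : Finset κ) (x : κ → ι → R) (y : ι → R) :
    bil G (∑ j ∈ J, x j) y = ∑ j ∈ J, bil G (x j) y := by
  simp only [bil_eq_dot, sum_dotProduct]

theorem bil_sum_right {κ : Type} (J : Finset κ) (x : ι → R) (y : κ → ι → R) :
    bil G x (∑ j ∈ J, y j) = ∑ j ∈ J, bil G x (y j) := by
  simp only [bil_eq_dot, mulVec_sum, dotProduct_sum]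

theorem bil_cast (x y : ι → ℤ) :
    bil G (fun i => (x i : R)) (fun i => (y i : R)) = ((bil G x y : ℤ) : R) :=
  bil_map G (Int.castRingHom R) x y

theorem map_cast_int (A : Matrix ι ι ℤ) : A.map (Int.cast : ℤ → ℤ) = A := rfl

theorem map_cast_mul (A B : Matrix ι ι ℤ) : (A * B).map (Int.cast : ℤ → R) =
    A.map (Int.cast : ℤ → R) * B.map (Int.cast : ℤ → R) :=
  Matrix.map_mul (f := Int.castRingHom R)

theorem gram_of (h : ∀ x y : ι → ℤ, bil G (g *ᵥ x) (g *ᵥ y) = bil G x y) : gᵀ * G * g = G := by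
  ext i j
  have := h (Pi.single i 1) (Pi.single j 1)
  rw [bil_eq_dot, bil_eq_dot, map_cast_int, mulVec_mulVec, ← vecMul_transpose,
    ← dotProduct_mulVec, mulVec_mulVec, ← Matrix.mul_assoc] at this
  simpa using this

theorem Isom.gram (h : Isom G g) : gᵀ * G * g = G := gram_of h.2

theorem Isom.bil_map (h : Isom G g) (s t : ι → R) : bil G (g.map (Int.cast : ℤ → R) *ᵥ s)
    (g.map (Int.cast : ℤ → R) *ᵥ t) = bil G s t := by
  have h1 : (gᵀ * G * g).map (Int.cast : ℤ → R) = G.map Int.cast := by rw [h.gram]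
  rw [map_cast_mul, map_cast_mul, transpose_map] at h1
  rw [bil_eq_dot, bil_eq_dot, mulVec_mulVec, ← vecMul_transpose, ← dotProduct_mulVec,
    mulVec_mulVec, ← Matrix.mul_assoc, h1]

theorem bil_eich (e x : ι → R) (k : R) (t y : ι → R) : bil G (eich G e x k t) y =
    bil G t y - bil G t x * bil G e y + bil G t e * bil G x y - k * bil G t e * bil G e y := by
  rw [eich, bil_sub_left, bil_add_left, bil_sub_left, bil_smul_left, bil_smul_left, bil_smul_left]

theorem bil_refl (d t y : ι → R) : bil G (refl G d t) y = bil G t y + bil G t d * bil G d y := by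
  rw [refl, bil_add_left, bil_smul_left]

theorem bil_eich_eich (hs : ∀ i j, G i j = G j i) {e x : ι → R} {k : R} (he : bil G e e = 0)
    (hx : bil G x e = 0) (hk : bil G x x = 2 * k) (s t : ι → R) :
    bil G (eich G e x k s) (eich G e x k t) = bil G s t := by
  have h1 : ∀ y, bil G y (eich G e x k t) = _ := fun y => (bil_symm G hs _ _).trans
    (bil_eich e x k t y)
  rw [bil_eich, h1, h1, h1, he, hx, hk, bil_symm G hs e x, hx, bil_symm G hs t s,
    bil_symm G hs e s, bil_symm G hs x s]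
  ring

theorem bil_refl_refl (hs : ∀ i j, G i j = G j i) {d : ι → R} (hd : bil G d d = -2)
    (s t : ι → R) : bil G (refl G d s) (refl G d t) = bil G s t := by
  have h1 : ∀ y, bil G y (refl G d t) = _ := fun y => (bil_symm G hs _ _).trans (bil_refl d t y)
  rw [bil_refl, h1, h1, hd, bil_symm G hs t s, bil_symm G hs d s]
  ring

/-- the matrix of `t ↦ (t.q) p` -/
def rk (G : Matrix ι ι ℤ) (p q : ι → ℤ) : Matrix ι ι ℤ := vecMulVec p (G *ᵥ q)

theorem rk_mulVec (p q : ι → ℤ) (t : ι → R) : (rk G p q).map (Int.cast : ℤ → R) *ᵥ t =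
    bil G t (fun i => (q i : R)) • fun i => (p i : R) := by
  funext i
  simp only [rk, mulVec, dotProduct, map_apply, vecMulVec_apply, bil, Pi.smul_apply, smul_eq_mul,
    Int.cast_mul, Int.cast_sum, Finset.sum_mul, Finset.mul_sum]
  exact Finset.sum_congr rfl fun a _ => Finset.sum_congr rfl fun b _ => by ring

variable {e f : Fin 3 → ι → ℤ} {J : Finset (Fin 3)}

theorem decomp (G : Matrix ι ι ℤ) (e f : Fin 3 → ι → ℤ) (J : Finset (Fin 3)) (t : ι → R) :
    t = prj G e f J t + ∑ j ∈ J, (bil G t (fun i => (f j i : R)) • (fun i => (e j i : R)) +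
      bil G t (fun i => (e j i : R)) • fun i => (f j i : R)) := by
  rw [prj, sub_add_cancel]

theorem bil_prj (t y : ι → R) : bil G (prj G e f J t) y = bil G t y -
    ∑ j ∈ J, (bil G t (fun i => (f j i : R)) * bil G (fun i => (e j i : R)) y +
      bil G t (fun i => (e j i : R)) * bil G (fun i => (f j i : R)) y) := by
  simp only [prj, bil_sub_left, bil_sum_left, bil_add_left, bil_smul_left]

theorem bil_prj_e (hs : ∀ i j, G i j = G j i) (F : Frame G e f) (t : ι → R) (j : Fin 3) :
    bil G (prj G e f J t) (fun i => (e j i : R)) =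
      if j ∈ J then 0 else bil G t fun i => (e j i : R) := by
  have h1 : ∀ a, bil G (f a) (e j) = if a = j then 1 else 0 := fun a => by
    rw [bil_symm G hs, F.ef]; simp only [eq_comm]
  simp only [bil_prj, bil_cast, F.ee, h1]
  split_ifs with h <;> simp [h]

theorem bil_prj_f (F : Frame G e f) (t : ι → R) (j : Fin 3) :
    bil G (prj G e f J t) (fun i => (f j i : R)) =
      if j ∈ J then 0 else bil G t fun i => (f j i : R) := by
  simp only [bil_prj, bil_cast, F.ff, F.ef]
  split_ifs with h <;> simp [h]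

theorem bil_prj_ort (hs : ∀ i j, G i j = G j i) (t : ι → R) {x : ι → ℤ} (hx : Ort G e f J x) :
    bil G (prj G e f J t) (fun i => (x i : R)) = bil G t fun i => (x i : R) := by
  rw [bil_prj, Finset.sum_eq_zero fun j hj => ?_, sub_zero]
  rw [bil_cast, bil_cast, bil_symm G hs (e j), bil_symm G hs (f j), (hx j hj).1, (hx j hj).2]
  simp

theorem prj_add (s t : ι → R) : prj G e f J (s + t) = prj G e f J s + prj G e f J t := by
  simp only [prj, bil_add_left, add_smul, Finset.sum_add_distrib]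
  abel

theorem prj_smul (c : R) (t : ι → R) : prj G e f J (c • t) = c • prj G e f J t := by
  simp only [prj, bil_smul_left, smul_sub, Finset.smul_sum, smul_add, mul_smul]

theorem prj_sub (s t : ι → R) : prj G e f J (s - t) = prj G e f J s - prj G e f J t := by
  rw [eq_sub_iff_add_eq, ← prj_add, sub_add_cancel]

theorem prj_of_ort {t : ι → R} (h : ∀ j ∈ J, bil G t (fun i => (e j i : R)) = 0 ∧
    bil G t (fun i => (f j i : R)) = 0) : prj G e f J t = t := by
  rw [prj, Finset.sum_eq_zero fun j hj => by rw [(h j hj).1, (h j hj).2]; simp, sub_zero]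

theorem prj_cast_ort {x : ι → ℤ} (hx : Ort G e f J x) :
    prj G e f J (fun i => (x i : R)) = fun i => (x i : R) :=
  prj_of_ort fun j hj => by simp [bil_cast, (hx j hj).1, (hx j hj).2]

theorem prj_e (F : Frame G e f) {j : Fin 3} (hj : j ∈ J) :
    prj G e f J (fun i => (e j i : R)) = 0 := by
  simp [prj, bil_cast, F.ee, F.ef, hj]

theorem prj_f (hs : ∀ i j, G i j = G j i) (F : Frame G e f) {j : Fin 3} (hj : j ∈ J) :
    prj G e f J (fun i => (f j i : R)) = 0 := by
  have h1 : ∀ a, bil G (f j) (e a) = if j = a then 1 else 0 := fun a => by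
    rw [bil_symm G hs, F.ef]; simp only [eq_comm]
  simp [prj, bil_cast, F.ff, h1, hj]

theorem prj_map {S : Type} [CommRing S] (φ : R →+* S) (t : ι → R) :
    prj G e f J (fun i => φ (t i)) = fun i => φ (prj G e f J t i) := by
  have h : ∀ x : ι → ℤ, bil G (fun i => φ (t i)) (fun i => (x i : S)) =
      φ (bil G t fun i => (x i : R)) := fun x => by
    rw [← Vale.Agent.P290.H726.bil_map]
    simp only [map_intCast]
  funext i
  simp [prj, h, Finset.sum_apply]

theorem ort_prj (hs : ∀ i j, G i j = G j i) (F : Frame G e f) (x : ι → ℤ) :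
    Ort G e f J (prj G e f J x) := fun j hj =>
  ⟨(bil_prj_e hs F x j).trans (if_pos hj), (bil_prj_f F x j).trans (if_pos hj)⟩

theorem prj_ic (x : ι → ℤ) : prj G e f J (ic x) = ic (prj G e f J x) :=
  prj_map (Int.castRingHom ℂ) x

theorem prj_ir (x : ι → ℤ) : prj G e f J (ir x) = ir (prj G e f J x) :=
  prj_map (Int.castRingHom ℝ) x

theorem prj_rc (x : ι → ℝ) : prj G e f J (rc x) = rc (prj G e f J x) :=
  prj_map Complex.ofRealHom x

theorem continuous_bil [TopologicalSpace R] [IsTopologicalRing R] {Z : Type} [TopologicalSpace Z]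
    {p q : Z → ι → R} (hp : Continuous p) (hq : Continuous q) :
    Continuous fun z => bil G (p z) (q z) := by
  unfold bil
  fun_prop

theorem continuous_prj [TopologicalSpace R] [IsTopologicalRing R] :
    Continuous (prj G e f J : (ι → R) → ι → R) :=
  continuous_id.sub (continuous_finsetSum _ fun _ _ =>
    ((continuous_bil continuous_id continuous_const).smul continuous_const).add
      ((continuous_bil continuous_id continuous_const).smul continuous_const))

/-- the form is nondegenerate over every ring -/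
theorem nondeg (hG : IsUnit G.det) {x : ι → R} (h : ∀ y : ι → ℤ, bil G x (fun i => (y i : R)) = 0) :
    x = 0 := by
  have h1 : x ᵥ* G.map (Int.cast : ℤ → R) = 0 := funext fun j => by
    have := h (Pi.single j 1)
    rw [bil_eq_dot, dotProduct_mulVec] at this
    simpa [Pi.single_apply, dotProduct] using this
  have h2 := map_cast_mul (R := R) G G⁻¹
  rw [mul_nonsing_inv G hG, Matrix.map_one _ Int.cast_zero Int.cast_one] at h2
  rw [← vecMul_one x, h2, ← vecMul_vecMul, h1, zero_vecMul]

end ring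

theorem bil_ic (x y : ι → ℤ) : bil G (ic x) (ic y) = ((bil G x y : ℤ) : ℂ) := bil_cast x y

theorem bil_ir (x y : ι → ℤ) : bil G (ir x) (ir y) = ((bil G x y : ℤ) : ℝ) := bil_cast x y

theorem bil_rc (x y : ι → ℝ) : bil G (rc x) (rc y) = ((bil G x y : ℝ) : ℂ) := bil_ofReal G x y

theorem rc_ir (x : ι → ℤ) : rc (ir x) = ic x := funext fun i => Complex.ofReal_intCast (x i)

theorem ic_add (x y : ι → ℤ) : ic (x + y) = ic x + ic y := funext fun i => Int.cast_add _ _

theorem ic_sub (x y : ι → ℤ) : ic (x - y) = ic x - ic y := funext fun i => Int.cast_sub _ _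

theorem ic_neg (x : ι → ℤ) : ic (-x) = -ic x := funext fun i => Int.cast_neg _

theorem ic_smul (k : ℤ) (x : ι → ℤ) : ic (k • x) = (k : ℂ) • ic x :=
  funext fun i => Int.cast_mul _ _

theorem ir_add (x y : ι → ℤ) : ir (x + y) = ir x + ir y := funext fun i => Int.cast_add _ _

theorem ir_sub (x y : ι → ℤ) : ir (x - y) = ir x - ir y := funext fun i => Int.cast_sub _ _

theorem ir_neg (x : ι → ℤ) : ir (-x) = -ir x := funext fun i => Int.cast_neg _

theorem ir_smul (k : ℤ) (x : ι → ℤ) : ir (k • x) = (k : ℝ) • ir x :=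
  funext fun i => Int.cast_mul _ _

theorem rc_add (x y : ι → ℝ) : rc (x + y) = rc x + rc y := funext fun i => Complex.ofReal_add _ _

theorem rc_sub (x y : ι → ℝ) : rc (x - y) = rc x - rc y := funext fun i => Complex.ofReal_sub _ _

theorem rc_smul (k : ℝ) (x : ι → ℝ) : rc (k • x) = (k : ℂ) • rc x :=
  funext fun i => Complex.ofReal_mul _ _

theorem continuous_rc : Continuous (rc : (ι → ℝ) → ι → ℂ) := by
  unfold rc
  fun_prop

theorem re_add_im (s : ι → ℂ) : rc (fun i => (s i).re) + Complex.I • rc (fun i => (s i).im) = s :=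
  funext fun i => by
    simp only [rc, Pi.add_apply, Pi.smul_apply, smul_eq_mul]
    rw [mul_comm, Complex.re_add_im]

theorem bil_re_im (a b y : ι → ℝ) : bil G (rc a + Complex.I • rc b) (rc y) =
    (bil G a y : ℝ) + Complex.I * (bil G b y : ℝ) := by
  rw [bil_add_left, bil_smul_left, bil_rc, bil_rc]

theorem bil_re (s : ι → ℂ) (y : ι → ℝ) : (bil G s (rc y)).re = bil G (fun i => (s i).re) y := by
  conv_lhs => rw [← re_add_im s, bil_re_im]
  simp

theorem bil_im (s : ι → ℂ) (y : ι → ℝ) : (bil G s (rc y)).im = bil G (fun i => (s i).im) y := by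
  conv_lhs => rw [← re_add_im s, bil_re_im]
  simp

theorem star_re_im (a b : ι → ℝ) :
    star (rc a + Complex.I • rc b) = rc a - Complex.I • rc b := funext fun i => by
  simp [rc, sub_eq_add_neg]

theorem per_iff (hs : ∀ i j, G i j = G j i) (a b : ι → ℝ) : Per G (rc a + Complex.I • rc b) ↔
    bil G a a = bil G b b ∧ bil G a b = 0 ∧ 0 < bil G a a := by
  rw [Per, star_re_im]
  simp only [bil_add_left, bil_add_right, bil_sub_right, bil_smul_left, bil_smul_right, bil_rc,
    bil_symm G hs b a, Complex.ext_iff]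
  simp
  constructor
  · rintro ⟨⟨h1, h2⟩, h3⟩
    exact ⟨by linarith, h2, by linarith⟩
  · rintro ⟨h1, h2, h3⟩
    exact ⟨⟨by linarith, h2⟩, by linarith⟩

theorem Per.smul {s : ι → ℂ} (h : Per G s) {z : ℂ} (hz : z ≠ 0) : Per G (z • s) := by
  refine ⟨by rw [bil_smul_left, bil_smul_right, h.1, mul_zero, mul_zero], ?_⟩
  rw [star_smul, bil_smul_left, bil_smul_right, ← mul_assoc, Complex.star_def, Complex.mul_conj,
    Complex.re_ofReal_mul]
  exact mul_pos (Complex.normSq_pos.2 hz) h.2

/-! ### isometries -/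

theorem isom_of (hG : IsUnit G.det) (h : ∀ x y : ι → ℤ, bil G (g *ᵥ x) (g *ᵥ y) = bil G x y) :
    Isom G g := by
  refine ⟨?_, h⟩
  rw [← gram_of h, det_mul] at hG
  exact isUnit_of_mul_isUnit_right hG

theorem isom_one : Isom G 1 := ⟨by simp, fun x y => by rw [one_mulVec, one_mulVec]⟩

theorem isom_neg : Isom G (-1) := ⟨by
  rw [det_neg, det_one, mul_one]
  exact isUnit_one.neg.pow _, fun x y => by
  rw [neg_mulVec, neg_mulVec, one_mulVec, one_mulVec, bil_neg_left, bil_neg_right, neg_neg]⟩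

theorem Isom.mul (h : Isom G g) (h' : Isom G g') : Isom G (g * g') :=
  ⟨by rw [det_mul]; exact h.1.mul h'.1, fun x y => by
    rw [← mulVec_mulVec, ← mulVec_mulVec, h.2, h'.2]⟩

theorem Isom.inv (h : Isom G g) : ∃ g', Isom G g' ∧ g' * g = 1 ∧ g * g' = 1 :=
  ⟨g⁻¹, ⟨isUnit_nonsing_inv_det g h.1, fun x y => by
    rw [← h.2, mulVec_mulVec, mulVec_mulVec, mul_nonsing_inv g h.1, one_mulVec, one_mulVec]⟩,
    nonsing_inv_mul g h.1, mul_nonsing_inv g h.1⟩

theorem act_mul (g g' : Matrix ι ι ℤ) (s : ι → ℂ) : act (g * g') s = act g (act g' s) := by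
  rw [act, act, act, mulVec_mulVec]
  exact congrArg (· *ᵥ s) (Matrix.map_mul (f := Int.castRingHom ℂ))

theorem act_one (s : ι → ℂ) : act (1 : Matrix ι ι ℤ) s = s := by
  rw [act, Matrix.map_one _ Int.cast_zero Int.cast_one, one_mulVec]

theorem act_smul (g : Matrix ι ι ℤ) (z : ℂ) (s : ι → ℂ) : act g (z • s) = z • act g s :=
  mulVec_smul _ _ _

theorem act_add (g : Matrix ι ι ℤ) (s t : ι → ℂ) : act g (s + t) = act g s + act g t :=
  mulVec_add _ _ _

theorem act_ic (g : Matrix ι ι ℤ) (x : ι → ℤ) : act g (ic x) = ic (g *ᵥ x) :=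
  funext fun i => ((Int.castRingHom ℂ).map_mulVec g x i).symm

theorem act_rc (g : Matrix ι ι ℤ) (x : ι → ℝ) :
    act g (rc x) = rc (g.map (Int.cast : ℤ → ℝ) *ᵥ x) := funext fun i => by
  simp [act, rc, mulVec, dotProduct]

theorem act_star (g : Matrix ι ι ℤ) (s : ι → ℂ) : star (act g s) = act g (star s) :=
  funext fun i => by simp [act, mulVec, dotProduct]

theorem continuous_act (g : Matrix ι ι ℤ) : Continuous (act g) :=
  continuous_const.matrix_mulVec continuous_id

theorem bil_act (h : Isom G g) (s t : ι → ℂ) : bil G (act g s) (act g t) = bil G s t :=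
  h.bil_map s t

theorem Per.act {s : ι → ℂ} (hs : Per G s) (h : Isom G g) : Per G (act g s) :=
  ⟨by rw [bil_act h, hs.1], by rw [act_star, bil_act h]; exact hs.2⟩

theorem exists_eich (hG : Lat G) {e x : ι → ℤ} {k : ℤ} (he : bil G e e = 0) (hx : bil G x e = 0)
    (hk : bil G x x = 2 * k) : ∃ g, Isom G g ∧ (∀ t, act g t = eich G (ic e) (ic x) k t) ∧
      ∀ y, g *ᵥ y = eich G e x k y := by
  have key : ∀ (R : Type) [CommRing R] (t : ι → R),
      (1 - rk G e x + rk G x e - rk G (k • e) e).map (Int.cast : ℤ → R) *ᵥ t =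
        eich G (fun i => (e i : R)) (fun i => (x i : R)) k t := by
    intro R _ t
    rw [Matrix.map_sub _ Int.cast_sub, Matrix.map_add _ Int.cast_add, Matrix.map_sub _ Int.cast_sub,
      Matrix.map_one _ Int.cast_zero Int.cast_one, sub_mulVec, add_mulVec, sub_mulVec, one_mulVec,
      rk_mulVec, rk_mulVec, rk_mulVec, eich]
    congr 1
    funext i
    simp only [Pi.smul_apply, smul_eq_mul, Int.cast_mul]
    ring
  have h1 : ∀ y, (1 - rk G e x + rk G x e - rk G (k • e) e) *ᵥ y = eich G e x k y := key ℤ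
  exact ⟨_, isom_of hG.unit fun y y' => by rw [h1, h1, bil_eich_eich hG.symm he hx hk], key ℂ, h1⟩

theorem exists_refl (hG : Lat G) {d : ι → ℤ} (hd : bil G d d = -2) :
    ∃ g, Isom G g ∧ (∀ t, act g t = refl G (ic d) t) ∧ ∀ y, g *ᵥ y = refl G d y := by
  have key : ∀ (R : Type) [CommRing R] (t : ι → R), (1 + rk G d d).map (Int.cast : ℤ → R) *ᵥ t =
      refl G (fun i => (d i : R)) t := by
    intro R _ t
    rw [Matrix.map_add _ Int.cast_add, Matrix.map_one _ Int.cast_zero Int.cast_one, add_mulVec,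
      one_mulVec, rk_mulVec, refl]
  have h1 : ∀ y, (1 + rk G d d) *ᵥ y = refl G d y := key ℤ
  exact ⟨_, isom_of hG.unit fun y y' => by rw [h1, h1, bil_refl_refl hG.symm hd], key ℂ, h1⟩

/-! ### orbit closures -/

variable {s t : ι → ℂ}

theorem isClosed_orb : IsClosed (Orb G s) := isClosed_closure

theorem mem_orb_self : s ∈ Orb G s :=
  subset_closure ⟨1, 1, isom_one, by rw [act_one, one_smul]⟩

theorem orb_smul (ht : t ∈ Orb G s) (z : ℂ) : z • t ∈ Orb G s :=
  map_mem_closure (continuous_const_smul z) ht (by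
    rintro _ ⟨w, g, hg, rfl⟩
    exact ⟨z * w, g, hg, smul_smul _ _ _⟩)

theorem orb_act (ht : t ∈ Orb G s) (h : Isom G g) : act g t ∈ Orb G s :=
  map_mem_closure (continuous_act g) ht (by
    rintro _ ⟨w, g', hg, rfl⟩
    exact ⟨w, g * g', h.mul hg, by rw [act_smul, act_mul]⟩)

theorem orb_trans (ht : t ∈ Orb G s) : Orb G t ⊆ Orb G s :=
  closure_minimal (by
    rintro _ ⟨w, g, hg, rfl⟩
    exact orb_smul (orb_act ht hg) w) isClosed_orb

theorem orb_eich (hG : Lat G) {e x : ι → ℤ} {k : ℤ} (he : bil G e e = 0) (hx : bil G x e = 0)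
    (hk : bil G x x = 2 * k) (ht : t ∈ Orb G s) : eich G (ic e) (ic x) k t ∈ Orb G s := by
  obtain ⟨g, h1, h2, -⟩ := exists_eich hG he hx hk
  exact h2 t ▸ orb_act ht h1

theorem orb_refl (hG : Lat G) {d : ι → ℤ} (hd : bil G d d = -2) (ht : t ∈ Orb G s) :
    refl G (ic d) t ∈ Orb G s := by
  obtain ⟨g, h1, h2, -⟩ := exists_refl hG hd
  exact h2 t ▸ orb_act ht h1

/-- a transvection which fixes the imaginary part -/
theorem eich_re_im {e x : ι → ℤ} (k : ℤ) (a : ι → ℝ) {b : ι → ℝ} (he : bil G b (ir e) = 0)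
    (hx : bil G b (ir x) = 0) : eich G (ic e) (ic x) k (rc a + Complex.I • rc b) =
      rc (eich G (ir e) (ir x) k a) + Complex.I • rc b := by
  rw [eich, eich, ← rc_ir, ← rc_ir, bil_re_im, bil_re_im, he, hx, rc_sub, rc_add, rc_sub, rc_smul,
    rc_smul, rc_smul]
  simp only [Complex.ofReal_zero, mul_zero, add_zero, Complex.ofReal_mul, Complex.ofReal_intCast]
  abel

theorem refl_re_im {d : ι → ℤ} (a : ι → ℝ) {b : ι → ℝ} (hd : bil G b (ir d) = 0) :
    refl G (ic d) (rc a + Complex.I • rc b) = rc (refl G (ir d) a) + Complex.I • rc b := by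
  rw [refl, refl, ← rc_ir, bil_re_im, hd, rc_add, rc_smul]
  simp only [Complex.ofReal_zero, mul_zero, add_zero]
  abel

variable {u w e f : Fin 3 → ι → ℤ}

theorem Good.of_orb (h : Good G u w t) (ht : t ∈ Orb G s) : Good G u w s :=
  h.imp fun _ h => ⟨orb_trans ht h.1, h.2⟩

theorem Frame.fe (hs : ∀ i j, G i j = G j i) (F : Frame G e f) (i j : Fin 3) :
    bil G (f i) (e j) = if i = j then 1 else 0 := by
  rw [bil_symm G hs, F.ef]
  simp only [eq_comm]

theorem Frame.perm (F : Frame G e f) (σ : Equiv.Perm (Fin 3)) : Frame G (e ∘ σ) (f ∘ σ) :=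
  ⟨fun _ _ => F.ee _ _, fun _ _ => F.ff _ _, fun i j => (F.ef _ _).trans (by simp)⟩

theorem Frame.sq_sub (hs : ∀ i j, G i j = G j i) (F : Frame G e f) (j : Fin 3) :
    bil G (e j - f j) (e j - f j) = -2 := by
  simp [bil_sub_left, bil_sub_right, F.ee, F.ff, F.ef, F.fe hs]

theorem Dns.of_subset {c c' : Fin 3 → ℂ} (h : Dns c)
    (hc : ∀ j, ∃ m : Fin 3 → ℤ, c j = ∑ i, (m i : ℂ) * c' i) : Dns c' := by
  choose m hm using hc
  refine Dense.mono ?_ h
  rintro _ ⟨k, rfl⟩
  refine ⟨fun i => ∑ j, k j * m j i, ?_⟩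
  simp only [hm, Int.cast_sum, Int.cast_mul, Finset.sum_mul, Finset.mul_sum, mul_assoc]
  exact Finset.sum_comm

/-- a frame which spans the same isotropic lattice -/
theorem Adm.of_span (h : Adm G u w e) {e' : Fin 3 → ι → ℤ}
    (he : ∀ j, ∃ m : Fin 3 → ℤ, e' j = ∑ i, m i • e i) : Adm G u w e' := fun s hs hd =>
  h s hs (hd.of_subset fun j => (he j).imp fun m hm => by
    rw [hm]
    have : ic (∑ i, m i • e i) = ∑ i, (m i : ℂ) • ic (e i) := funext fun a => by
      simp [ic, Finset.sum_apply]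
    simp only [this, bil_sum_right, bil_smul_right])

theorem Adm.perm (h : Adm G u w e) (σ : Equiv.Perm (Fin 3)) : Adm G u w (e ∘ σ) :=
  h.of_span fun j => ⟨Pi.single (σ j) 1, by simp [Pi.single_apply]⟩

/-- the move `e a ↦ f a + x - k e a` -/
theorem Adm.swap (hG : Lat G) (F : Frame G e f) (h : Adm G u w e) (a : Fin 3) {x : ι → ℤ} {k : ℤ}
    (hx : Ort G e f Finset.univ x) (hk : bil G x x = 2 * k) :
    Adm G u w (Function.update e a (f a + x - k • e a)) := by
  intro s hs hd
  have h1 : bil G (-x) (e a) = 0 := by rw [bil_neg_left, (hx a (Finset.mem_univ _)).1, neg_zero]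
  have h2 : bil G (-x) (-x) = 2 * k := by rw [bil_neg_left, bil_neg_right, neg_neg, hk]
  obtain ⟨g, g1, g2, -⟩ := exists_eich hG (F.ee a a) h1 h2
  obtain ⟨r, r1, r2, -⟩ := exists_refl hG (F.sq_sub hG.symm a)
  refine (h _ ((hs.act g1).act r1) ?_).of_orb (orb_act (orb_act mem_orb_self g1) r1)
  convert hd using 2 with j
  have h3 : ∀ j, bil G x (e j) = 0 := fun j => (hx j (Finset.mem_univ _)).1
  have h4 : ∀ j, bil G x (f j) = 0 := fun j => (hx j (Finset.mem_univ _)).2
  rw [r2, g2, bil_refl, bil_eich, bil_eich]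
  simp only [bil_ic, bil_sub_left, bil_sub_right, bil_neg_left, F.ee, F.ef, F.fe hG.symm, h3, h4]
  rcases eq_or_ne j a with rfl | hj
  · simp only [Function.update_self, ic_sub, ic_add, ic_smul, ic_neg, bil_sub_right, bil_add_right,
      bil_smul_right, bil_neg_right]
    simp
    ring
  · simp [hj, hj.symm]

theorem Frame.swap (hs : ∀ i j, G i j = G j i) (F : Frame G e f) (a : Fin 3) {x : ι → ℤ} {k : ℤ}
    (hx : Ort G e f Finset.univ x) (hk : bil G x x = 2 * k) :
    Frame G (Function.update e a (f a + x - k • e a)) (Function.update f a (e a)) := by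
  have h3 : ∀ j, bil G x (e j) = 0 := fun j => (hx j (Finset.mem_univ _)).1
  have h4 : ∀ j, bil G x (f j) = 0 := fun j => (hx j (Finset.mem_univ _)).2
  have h5 : ∀ j, bil G (e j) x = 0 := fun j => (bil_symm G hs _ _).trans (h3 j)
  have h6 : ∀ j, bil G (f j) x = 0 := fun j => (bil_symm G hs _ _).trans (h4 j)
  refine ⟨fun i j => ?_, fun i j => ?_, fun i j => ?_⟩ <;>
    by_cases hi : i = a <;> by_cases hj : j = a <;>
    simp only [Function.update_apply, hi, hj, if_true, if_false, bil_sub_left, bil_sub_right,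
      bil_add_left, bil_add_right, bil_smul_left, bil_smul_right, F.ee, F.ff, F.ef, F.fe hs,
      h3, h4, h5, h6, hk, eq_comm (a := a)] <;> ring

end Vale.Agent.P290Z.Orb
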