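import Vale.Agent.P290Z.Orb.Basic

/-!
# P290Z, block (BASE): the frame of the Kummer lattice is admissible
-/

set_option linter.all false

open Set Filter Topology Matrix

noncomputable section

namespace Vale.Agent.P290Z.Orb

open Vale.Agent.P290.H726

theorem Dns.span {c : Fin 3 → ℂ} (h : Dns c) : ∃ i j, (c i * star (c j)).im ≠ 0 := by
  by_contra h0
  push Not at h0
  have h1 : ∀ j (y : ℂ), (y * star (c j)).im = 0 := fun j y =>
    DenseRange.induction_on h y (isClosed_eq (by fun_prop) continuous_const) fun m => by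
      simp only [Finset.sum_mul, Complex.im_sum, mul_assoc]
      refine Finset.sum_eq_zero fun i _ => ?_
      rw [← Complex.ofReal_intCast, Complex.im_ofReal_mul, h0, mul_zero]
  have h2 : ∀ j, c j = 0 := fun j => by
    have h3 := h1 j 1
    have h4 := h1 j Complex.I
    refine Complex.ext ?_ ?_
    · simpa using h4
    · simpa using h3
  have h5 : ∀ y : ℂ, y = 0 := fun y =>
    DenseRange.induction_on h y (isClosed_eq continuous_id continuous_const) fun m => by simp [h2]
  exact one_ne_zero (h5 1)

theorem adm (hFr : StFr) (hU : StU3) : StAdm := by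
  intro ι _ _ G u w hL hK s hs hd
  obtain ⟨f, hF⟩ := (hFr ι G hL).1 u w hK
  have hy := hL.symm
  set c : Fin 3 → ℂ := fun j => bil G s (ic (u j)) with hc
  let y : ι → ℂ := ∑ j, (c j / 2) • ic (w j)
  have hP : ∀ (x : Fin 3 → ι → ℂ), prj G u f Finset.univ (∑ j, c j • x j) =
      ∑ j, c j • prj G u f Finset.univ (x j) := fun x => by
    simp only [Fin.sum_univ_three, prj_add, prj_smul]
  obtain ⟨t, t1, t2, t3, t4⟩ := hU ι G u f s (prj G u f Finset.univ y) hL hF hs hd.span (by
    have h1 : DenseRange fun (M : ι → Fin 3 → ℤ) (a : ι) => ∑ j, (M a j : ℂ) * c j :=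
      DenseRange.piMap fun _ => hd
    have h2 : Continuous fun z : ι → ℂ => prj G u f Finset.univ s + prj G u f Finset.univ z :=
      continuous_const.add continuous_prj
    have h3 := map_mem_closure h2 (h1 (y - s)) (t := {y | ∃ x : Fin 3 → ι → ℤ,
      (∀ j, Ort G u f Finset.univ (x j)) ∧ y = prj G u f Finset.univ s + ∑ j, c j • ic (x j)}) (by
        rintro _ ⟨M, rfl⟩
        refine ⟨fun j => prj G u f Finset.univ fun a => M a j, fun j => ort_prj hy hF _, ?_⟩
        simp only [← prj_ic, ← hP]
        congr 2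
        funext a
        simp [ic, Finset.sum_apply, mul_comm])
    rwa [prj_sub, add_sub_cancel] at h3)
  refine ⟨t, t1, t2, fun j => bil G (t - y) (ic (f j)), fun j => c j / 2, ?_⟩
  have h1 : ∀ j, bil G (t - y) (ic (u j)) = 0 := fun j => by
    have h2 : ∀ i, bil G (w i) (u j) = if j = i then 2 else 0 := fun i => by
      rw [bil_symm G hy, hK.uw]
    simp only [bil_sub_left, t3, y, bil_sum_left, bil_smul_left, bil_ic, h2]
    simp [hc]
  have h3 := decomp G u f Finset.univ (t - y)
  rw [prj_sub, t4, sub_self, zero_add] at h3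
  change t - y = ∑ j, (bil G (t - y) (ic (f j)) • ic (u j) + bil G (t - y) (ic (u j)) • ic (f j))
    at h3
  simp only [h1, zero_smul, add_zero] at h3
  rw [Finset.sum_add_distrib, ← h3, sub_add_cancel]

end Vale.Agent.P290Z.Orb
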