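import Vale.Agent.P290Z.Orb.Spec2

/-! # P290Z, orbit closures of periods: from integral moves to real moves -/

set_option linter.dupNamespace false
set_option linter.unusedSectionVars false

open Set Filter Topology Matrix

noncomputable section

namespace Vale.Agent.P290Z.Orb

open Vale.Agent.P290.H726

namespace ClP

variable {ι : Type} [Fintype ι] [DecidableEq ι] {G : Matrix ι ι ℤ}

/-- real multiples of integral vectors are dense -/
theorem dense_mult : Dense {w : ι → ℝ | ∃ (r : ℝ) (x : ι → ℤ), w = r • ir x} := by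
  refine Metric.dense_iff.2 fun w ε hε => ?_
  have h0 : 0 < ε / 2 := by linarith
  refine ⟨(ε / 2) • ir fun i => ⌊w i / (ε / 2)⌋, ?_, _, _, rfl⟩
  rw [Metric.mem_ball, dist_pi_lt_iff hε]
  intro i
  have h1 := Int.floor_le (w i / (ε / 2))
  have h2 := Int.lt_floor_add_one (w i / (ε / 2))
  rw [le_div_iff₀ h0] at h1
  rw [div_lt_iff₀ h0] at h2
  rw [Real.dist_eq, abs_lt]
  simp only [Pi.smul_apply, smul_eq_mul, ir]
  constructor <;> linarith

/-- real multiples of integral isotropic vectors orthogonal to `v` -/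
def Cz (G : Matrix ι ι ℤ) (v : ι → ℤ) : Set (ι → ℝ) :=
  {w | ∃ (r : ℝ) (η : ι → ℤ), bil G η η = 0 ∧ bil G η v = 0 ∧ w = r • ir η}

theorem mem_cz {v e : ι → ℤ} (hs : ∀ i j, G i j = G j i) (hv : v = 0 ∨ bil G v v ≠ 0)
    (he : bil G e e = 0) (hev : bil G e v = 0) {y : ι → ℝ} (hy : bil G y y = 0)
    (hyv : bil G y (ir v) = 0) (hye : bil G y (ir e) ≠ 0) : y ∈ closure (Cz G v) := by
  obtain ⟨c, hc, hcv⟩ : ∃ c : ℤ, c ≠ 0 ∧ ∀ x : ι → ℤ, bil G (c • x - bil G x v • v) v = 0 := by
    rcases hv with rfl | hv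
    · exact ⟨1, one_ne_zero, fun x => bil_zero_right G _⟩
    · refine ⟨bil G v v, hv, fun x => ?_⟩
      rw [bil_sub_left, bil_smul_left, bil_smul_left]
      ring
  have hcR : (c : ℝ) ≠ 0 := Int.cast_ne_zero.2 hc
  set a : ℝ := (-(2 * bil G y (ir e)) * (c : ℝ) ^ 2)⁻¹ with ha
  set Φ : (ι → ℝ) → ι → ℝ :=
    fun w => a • phi G (ir e) ((c : ℝ) • w - bil G w (ir v) • ir v) with hΦ
  have h1 : Continuous fun w : ι → ℝ => (c : ℝ) • w - bil G w (ir v) • ir v :=
    (continuous_const_smul _).sub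
      ((continuous_bil continuous_id continuous_const).smul continuous_const)
  have h2 : Continuous Φ :=
    (((continuous_bil h1 h1).smul continuous_const).sub
      ((continuous_const.mul (continuous_bil h1 continuous_const)).smul h1)).const_smul a
  have h3 : Φ y = y := by
    simp only [hΦ, hyv, zero_smul, sub_zero]
    rw [phi_smul, phi_of_isotropic G hy, smul_smul, smul_smul, ha, mul_assoc,
      mul_comm ((c : ℝ) ^ 2), inv_mul_cancel₀, one_smul]
    exact mul_ne_zero (neg_ne_zero.2 (mul_ne_zero two_ne_zero hye)) (pow_ne_zero _ hcR)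
  rw [← h3]
  refine map_mem_closure h2 (dense_mult y) ?_
  rintro _ ⟨r, x, rfl⟩
  refine ⟨a * r ^ 2, phi G e (c • x - bil G x v • v), phi_isotropic G hs he _, ?_, ?_⟩
  · rw [bil_symm G hs, bil_phi_right, bil_symm G hs v e, hev, bil_symm G hs v, hcv]
    ring
  · have h4 : (c : ℝ) • r • ir x - bil G (r • ir x) (ir v) • ir v =
        r • ir (c • x - bil G x v • v) := by
      rw [ir_sub, ir_smul, ir_smul, bil_smul_left, bil_ir, smul_sub, smul_comm r, mul_smul]
    have h5 : phi G (ir e) (ir (c • x - bil G x v • v)) = ir (phi G e (c • x - bil G x v • v)) :=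
      phi_map G (Int.castRingHom ℝ) e _
    simp only [hΦ]
    rw [h4, phi_smul, h5, smul_smul]

theorem cone_sub {v e f : ι → ℤ} (hs : ∀ i j, G i j = G j i) (hv : v = 0 ∨ bil G v v ≠ 0)
    (he : bil G e e = 0) (hf : bil G f f = 0) (hfe : bil G f e = 1) (hev : bil G e v = 0)
    (hfv : bil G f v = 0) {y : ι → ℝ} (hy : bil G y y = 0) (hyv : bil G y (ir v) = 0) :
    y ∈ closure (Cz G v) := by
  by_cases h1 : bil G y (ir e) = 0
  · by_cases h2 : bil G y (ir f) = 0
    · have h3 : Tendsto (fun τ : ℝ => y + τ • ir f) (𝓝[≠] 0) (𝓝 y) := by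
        have h4 : Continuous fun τ : ℝ => y + τ • ir f := by fun_prop
        have h5 := h4.tendsto 0
        rw [zero_smul, add_zero] at h5
        exact h5.mono_left nhdsWithin_le_nhds
      refine isClosed_closure.mem_of_tendsto h3 ?_
      filter_upwards [self_mem_nhdsWithin] with τ hτ
      refine mem_cz hs hv he hev ?_ ?_ ?_
      · simp only [bil_add_left, bil_add_right, bil_smul_left, bil_smul_right, bil_ir, hy, hf, h2,
          bil_symm G hs (ir f) y]
        simp
      · rw [bil_add_left, bil_smul_left, bil_ir, hyv, hfv]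
        simp
      · rw [bil_add_left, bil_smul_left, bil_ir, h1, hfe]
        simpa using hτ
    · exact mem_cz hs hv hf hfv hy hyv h2
  · exact mem_cz hs hv he hev hy hyv h1

variable {K : Type} [RCLike K]

/-- integral vectors over `K` -/
def ik (K : Type) [RCLike K] (x : ι → ℤ) : ι → K := fun i => (x i : K)

/-- real vectors over `K` -/
def rK (K : Type) [RCLike K] (x : ι → ℝ) : ι → K := fun i => (x i : K)

theorem bil_ik (x y : ι → ℤ) : bil G (ik K x) (ik K y) = ((bil G x y : ℤ) : K) := bil_cast x y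

theorem rk_mult (r : ℝ) (x : ι → ℤ) : rK K (r • ir x) = (r : K) • ik K x := funext fun i => by
  simp [rK, ik, ir]

theorem ik_comb (a b : ℤ) (x y : ι → ℤ) :
    ik K (a • x - b • y) = (a : K) • ik K x - (b : K) • ik K y := funext fun i => by
  simp [ik]

theorem continuous_rk : Continuous (rK K : (ι → ℝ) → ι → K) :=
  continuous_pi fun i => RCLike.continuous_ofReal.comp (continuous_apply i)

/-- the pairs with an integral direction -/
def Wz (G : Matrix ι ι ℤ) (v : ι → ℤ) (Z : Set (ι → K)) : Set ((ι → K) × (ι → ℝ)) :=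
  {p | p.1 ∈ Z ∧ ∃ (r : ℝ) (y : ι → ℤ), p.2 = r • ir y ∧ bil G y y = 0 ∧ bil G y v = 0 ∧
    bil G p.1 (ik K y) = 0 ∧
    Dense {z | ∃ x : ι → ℤ, bil G x y = 0 ∧ bil G x v = 0 ∧ z = bil G p.1 (ik K x)}}

theorem sub_mem {v : ι → ℤ} {Z : Set (ι → K)} (hG : Lat G) (hZ : IsClosed Z)
    (hE : ∀ (y x : ι → ℤ) (k : ℤ), bil G y y = 0 → bil G x y = 0 → bil G x x = 2 * k →
      bil G y v = 0 → bil G x v = 0 → ∀ t ∈ Z, eich G (ik K y) (ik K x) k t ∈ Z)
    {t : ι → K} (ht : t ∈ Z) {y : ι → ℤ} (h1 : bil G y y = 0) (h2 : bil G y v = 0)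
    (h3 : bil G t (ik K y) = 0)
    (h4 : Dense {z | ∃ x : ι → ℤ, bil G x y = 0 ∧ bil G x v = 0 ∧ z = bil G t (ik K x)}) (w : K) :
    t - w • ik K y ∈ Z := by
  have hc : Continuous fun w : K => t - w • ik K y := by fun_prop
  refine closure_minimal (t := (fun w : K => t - w • ik K y) ⁻¹' Z) ?_ (hZ.preimage hc) (h4 w)
  rintro _ ⟨x, hx1, hx2, rfl⟩
  obtain ⟨k, hk⟩ := hG.even x
  have h5 := hE y x k h1 hx1 (by rw [hk, two_mul]) h2 hx2 t ht
  rw [eich, h3, mul_zero, zero_smul, zero_smul, add_zero, sub_zero] at h5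
  exact h5

end ClP

open ClP in
/-- CL -/
theorem cl : StCl := by
  intro K _ ι _ _ G e f v y₀ Z t₀ hG F hve hvf hv hZ hE ht₀ hy₀ hy₀v hty₀ hd
  have hs := hG.symm
  refine ⟨closure (Wz G v Z), subset_closure ⟨ht₀, 1, y₀, (one_smul _ _).symm, hy₀, hy₀v, hty₀, hd⟩,
    fun p hp => closure_minimal (t := Prod.fst ⁻¹' Z) (fun q hq => hq.1)
      (hZ.preimage continuous_fst) hp, fun t y z hp => ?_, fun t y y' hp h1 h2 h3 h4 => ?_⟩
  · have hc : Continuous fun p : (ι → K) × (ι → ℝ) => (p.1 + z • rK K p.2, p.2) :=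
      (continuous_fst.add ((continuous_rk.comp continuous_snd).const_smul z)).prodMk continuous_snd
    refine map_mem_closure (f := fun p : (ι → K) × (ι → ℝ) => (p.1 + z • rK K p.2, p.2)) hc hp
      fun p hp => ?_
    obtain ⟨hp1, r, η, hp2, g1, g2, g3, g4⟩ := hp
    have g5 : p.1 + z • rK K p.2 = p.1 - (-(z * r)) • ik K η := by
      rw [hp2, rk_mult, smul_smul, neg_smul, sub_neg_eq_add]
    change (p.1 + z • rK K p.2, p.2) ∈ Wz G v Z
    rw [g5]
    refine ⟨?_, r, η, hp2, g1, g2, ?_, ?_⟩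
    · exact sub_mem hG hZ hE hp1 g1 g2 g3 g4 _
    · rw [bil_sub_left, bil_smul_left, bil_ik, g1, g3, Int.cast_zero, mul_zero, sub_zero]
    · refine g4.mono ?_
      rintro _ ⟨x, x1, x2, rfl⟩
      refine ⟨x, x1, x2, ?_⟩
      rw [bil_sub_left, bil_smul_left, bil_ik, bil_symm G hs η x, x1, Int.cast_zero, mul_zero,
        sub_zero]
  · have hy' : y' ∈ closure (Cz G v) :=
      cone_sub hs hv (F.ee 0 0) (F.ff 0 0) (F.fe hs 0 0) ((bil_symm G hs _ _).trans hve)
        ((bil_symm G hs _ _).trans hvf) h1 h2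
    have m1 : ((t, y), y') ∈ closure (Wz G v Z ×ˢ Cz G v) := by
      rw [closure_prod_eq]
      exact ⟨hp, hy'⟩
    have c0 : Continuous fun q : ((ι → K) × (ι → ℝ)) × (ι → ℝ) => bil G q.1.2 q.2 :=
      continuous_bil (continuous_snd.comp continuous_fst) continuous_snd
    have hU : IsOpen {q : ((ι → K) × (ι → ℝ)) × (ι → ℝ) | bil G q.1.2 q.2 ≠ 0} :=
      isOpen_ne_fun c0 continuous_const
    have m2 := hU.inter_closure ⟨h4, m1⟩
    have c1 : ContinuousAt (fun q : ((ι → K) × (ι → ℝ)) × (ι → ℝ) =>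
        (q.1.1 - (bil G q.1.1 (rK K q.2) / (bil G q.1.2 q.2 : ℝ)) • rK K q.1.2, q.2))
        ((t, y), y') := by
      have a1 : Continuous fun q : ((ι → K) × (ι → ℝ)) × (ι → ℝ) => q.1.1 :=
        continuous_fst.comp continuous_fst
      have a2 : Continuous fun q : ((ι → K) × (ι → ℝ)) × (ι → ℝ) => rK K q.1.2 :=
        continuous_rk.comp (continuous_snd.comp continuous_fst)
      have a3 : Continuous fun q : ((ι → K) × (ι → ℝ)) × (ι → ℝ) => bil G q.1.1 (rK K q.2) :=
        continuous_bil a1 (continuous_rk.comp continuous_snd)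
      have a4 : Continuous fun q : ((ι → K) × (ι → ℝ)) × (ι → ℝ) => ((bil G q.1.2 q.2 : ℝ) : K) :=
        RCLike.continuous_ofReal.comp c0
      exact (a1.continuousAt.sub ((a3.continuousAt.div a4.continuousAt
        (RCLike.ofReal_ne_zero.2 h4)).smul a2.continuousAt)).prodMk continuousAt_snd
    have m3 := c1.continuousWithinAt.mem_closure m2 (t := Wz G v Z) ?_
    · have h5 : bil G t (rK K y') = 0 := h3
      simpa only [h5, zero_div, zero_smul, sub_zero] using m3
    rintro ⟨⟨s, _⟩, _⟩ ⟨q0, ⟨q1, r, x, rfl, g1, g2, g3, g4⟩, r', η, k1, k2, rfl⟩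
    have q2 : r * (r' * ((bil G x η : ℤ) : ℝ)) ≠ 0 := by
      have q3 : bil G (r • ir x) (r' • ir η) ≠ 0 := q0
      rwa [bil_smul_left, bil_smul_right, bil_ir] at q3
    have hr : (r : K) ≠ 0 := RCLike.ofReal_ne_zero.2 (left_ne_zero_of_mul q2)
    have hr' : (r' : K) ≠ 0 :=
      RCLike.ofReal_ne_zero.2 (left_ne_zero_of_mul (right_ne_zero_of_mul q2))
    have hd' : ((bil G x η : ℤ) : K) ≠ 0 := Int.cast_ne_zero.2
      (Int.cast_ne_zero.1 (right_ne_zero_of_mul (right_ne_zero_of_mul q2)))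
    have g5 : s - (bil G s (rK K (r' • ir η)) / (bil G (r • ir x) (r' • ir η) : ℝ)) •
        rK K (r • ir x) = s - (bil G s (ik K η) / (bil G x η : ℤ)) • ik K x := by
      rw [rk_mult, rk_mult, bil_smul_right, bil_smul_left, bil_smul_right, bil_ir, smul_smul]
      congr 2
      push_cast
      field_simp
    refine ⟨?_, r', η, rfl, k1, k2, ?_, ?_⟩
    · simp only [g5]
      exact sub_mem hG hZ hE q1 g1 g2 g3 g4 _
    · simp only [g5]
      rw [bil_sub_left, bil_smul_left, bil_ik, div_mul_cancel₀ _ hd', sub_self]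
    · simp only [g5]
      have g6 := (Homeomorph.mulLeft₀ _ hd').surjective.denseRange.dense_image
        (Homeomorph.mulLeft₀ _ hd').continuous g4
      refine g6.mono ?_
      rintro _ ⟨_, ⟨u, u1, u2, rfl⟩, rfl⟩
      refine ⟨bil G x η • u - bil G u η • x, ?_, ?_, ?_⟩
      · rw [bil_sub_left, bil_smul_left, bil_smul_left]
        ring
      · rw [bil_sub_left, bil_smul_left, bil_smul_left, u2, g2]
        ring
      · have g7 : bil G s (ik K x) = 0 := g3
        simp only [ik_comb, bil_sub_left, bil_sub_right, bil_smul_left, bil_smul_right, bil_ik, g1,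
          g7, bil_symm G hs x u, u1, Homeomorph.coe_mulLeft₀]
        push_cast
        ring

end Vale.Agent.P290Z.Orb
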