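import Vale.Agent.P290Z.Orb.Spec2

/-!
# P290Z: the orthogonal complement of a positive plane; moves along isotropic vectors
-/

set_option linter.all false

open Matrix

noncomputable section

namespace Vale.Agent.P290Z.Orb

open Vale.Agent.P290.H726

namespace Cn

variable {ι : Type} [Fintype ι] [DecidableEq ι] {G : Matrix ι ι ℤ} {e f : Fin 3 → ι → ℤ}

theorem exists_pos (hL : Lat G) (hF : Frame G e f) (a b : ι → ℝ) :
    ∃ h, 0 < bil G h h ∧ bil G h a = 0 ∧ bil G h b = 0 := by
  let u : Fin 3 → ι → ℝ := fun j => ir (e j) + ir (f j)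
  have hu : ∀ i j, bil G (u i) (u j) = if i = j then 2 else 0 := fun i j => by
    simp only [u, bil_add_left, bil_add_right, bil_ir, hF.ee, hF.ff, hF.ef, hF.fe hL.symm]
    split_ifs <;> norm_num
  let F : (Fin 3 → ℝ) →ₗ[ℝ] (Fin 2 → ℝ) :=
    { toFun := fun c o => bil G (∑ j, c j • u j) (![a, b] o)
      map_add' := fun x y => funext fun _ => by
        simp only [Pi.add_apply, add_smul, Finset.sum_add_distrib, bil_add_left]
      map_smul' := fun c x => funext fun _ => by
        simp only [Pi.smul_apply, smul_eq_mul, mul_smul, ← Finset.smul_sum, bil_smul_left,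
          RingHom.id_apply] }
  obtain ⟨c, hc, h0⟩ := (Submodule.ne_bot_iff _).1 fun h : LinearMap.ker F = ⊥ => by
    have := LinearMap.finrank_le_finrank_of_injective (LinearMap.ker_eq_bot.1 h)
    simp at this
  refine ⟨∑ j, c j • u j, ?_, congrFun hc 0, congrFun hc 1⟩
  have h1 : bil G (∑ j, c j • u j) (∑ j, c j • u j) = 2 * ∑ j, c j ^ 2 := by
    simp only [Fin.sum_univ_three, bil_add_left, bil_add_right, bil_smul_left, bil_smul_right, hu]
    simp
    ring
  rw [h1]
  obtain ⟨j, hj⟩ := Function.ne_iff.1 h0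
  exact mul_pos two_pos (Finset.sum_pos' (fun i _ => sq_nonneg _)
    ⟨j, Finset.mem_univ _, pow_pos_of_ne hj⟩)
where pow_pos_of_ne {x : ℝ} (h : x ≠ 0) : 0 < x ^ 2 := by positivity

section three

variable {a b h : ι → ℝ}

theorem nonpos (hL : Lat G) (ha : 0 < bil G a a) (hb : 0 < bil G b b) (hh : 0 < bil G h h)
    (hab : bil G a b = 0) (hha : bil G h a = 0) (hhb : bil G h b = 0) {q : ι → ℝ}
    (qa : bil G q a = 0) (qb : bil G q b = 0) (qh : bil G q h = 0) : bil G q q ≤ 0 := by
  have s := fun x y : ι → ℝ => bil_symm G hL.symm x y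
  obtain ⟨i, hi⟩ := hL.sig ![a, b, h, q] fun i j hij => by
    fin_cases i <;> fin_cases j <;>
      simp [hab, hha, hhb, qa, qb, qh, s b a, s a h, s b h, s a q, s b q, s h q] at hij ⊢
  fin_cases i <;> simp at hi <;> linarith

theorem definite (hL : Lat G) (ha : 0 < bil G a a) (hb : 0 < bil G b b) (hh : 0 < bil G h h)
    (hab : bil G a b = 0) (hha : bil G h a = 0) (hhb : bil G h b = 0) {q : ι → ℝ}
    (qa : bil G q a = 0) (qb : bil G q b = 0) (qh : bil G q h = 0) (qq : bil G q q = 0) :
    q = 0 := by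
  have s := fun x y : ι → ℝ => bil_symm G hL.symm x y
  refine nondeg hL.unit fun y => ?_
  generalize (fun i => (y i : ℝ)) = z
  obtain ⟨w, hw⟩ : ∃ w, w = z - (bil G z a / bil G a a) • a - (bil G z b / bil G b b) • b -
    (bil G z h / bil G h h) • h := ⟨_, rfl⟩
  have wa : bil G w a = 0 := by
    simp only [hw, bil_sub_left, bil_smul_left, s b a, hab, hha]
    field_simp
    ring
  have wb : bil G w b = 0 := by
    simp only [hw, bil_sub_left, bil_smul_left, hab, hhb]
    field_simp
    ring
  have wh : bil G w h = 0 := by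
    simp only [hw, bil_sub_left, bil_smul_left, s a h, s b h, hha, hhb]
    field_simp
    ring
  have e1 : bil G q w = bil G q z := by
    simp only [hw, bil_sub_right, bil_smul_right, qa, qb, qh]
    ring
  rw [← e1]
  by_contra o
  have := nonpos hL ha hb hh hab hha hhb (q := w + ((1 - bil G w w) / (2 * bil G q w)) • q)
    (by rw [bil_add_left, bil_smul_left, wa, qa]; ring)
    (by rw [bil_add_left, bil_smul_left, wb, qb]; ring)
    (by rw [bil_add_left, bil_smul_left, wh, qh]; ring)
  simp only [bil_add_left, bil_add_right, bil_smul_left, bil_smul_right, qq, s w q] at this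
  have e2 : (1 - bil G w w) / (2 * bil G q w) * bil G q w = (1 - bil G w w) / 2 := by
    field_simp
  rw [e2] at this
  linarith

theorem exists_ne (hL : Lat G) (a b h : ι → ℝ) :
    ∃ q ≠ 0, bil G q a = 0 ∧ bil G q b = 0 ∧ bil G q h = 0 := by
  let F : (ι → ℝ) →ₗ[ℝ] (Fin 3 → ℝ) :=
    { toFun := fun x o => bil G x (![a, b, h] o)
      map_add' := fun x y => funext fun _ => bil_add_left _ _ _ _
      map_smul' := fun c x => funext fun _ => bil_smul_left _ _ _ _ }
  obtain ⟨x, hx, h0⟩ := (Submodule.ne_bot_iff _).1 fun h : LinearMap.ker F = ⊥ => by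
    have := LinearMap.finrank_le_finrank_of_injective (LinearMap.ker_eq_bot.1 h)
    have := hL.card
    simp at *
    omega
  exact ⟨x, h0, congrFun hx 0, congrFun hx 1, congrFun hx 2⟩

/-- the two isotropic vectors in the plane of `h` and `q` -/
theorem exists_iso (hL : Lat G) (hh : 0 < bil G h h) {q : ι → ℝ} (qh : bil G q h = 0)
    (qq : bil G q q < 0) : ∃ τ : ℝ, 0 < τ ∧ bil G (h + τ • q) (h + τ • q) = 0 ∧
      bil G (h + (-τ) • q) (h + (-τ) • q) = 0 := by
  have hp : 0 < bil G h h / -bil G q q := div_pos hh (neg_pos.2 qq)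
  have e1 : √(bil G h h / -bil G q q) * (√(bil G h h / -bil G q q) * bil G q q) = -bil G h h := by
    rw [← mul_assoc, Real.mul_self_sqrt hp.le]
    have := qq.ne
    field_simp
  refine ⟨√(bil G h h / -bil G q q), Real.sqrt_pos.2 hp, ?_, ?_⟩ <;>
    simp only [bil_add_left, bil_add_right, bil_smul_left, bil_smul_right, qh,
      bil_symm G hL.symm h q] <;> linarith

end three

/-- either an isotropic vector sees `a₀` or `a₀` is a multiple of `t` -/
theorem alt (hL : Lat G) (hF : Frame G e f) {t b a₀ : ι → ℝ} (ht : 0 < bil G t t)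
    (hb : 0 < bil G b b) (htb : bil G t b = 0) (h0 : bil G a₀ b = 0) :
    (∃ y, bil G y y = 0 ∧ bil G y t = 0 ∧ bil G y b = 0 ∧ bil G y a₀ ≠ 0) ∨
      ∃ c : ℝ, a₀ = c • t := by
  have s := fun x y : ι → ℝ => bil_symm G hL.symm x y
  by_contra o
  push Not at o
  obtain ⟨o1, o2⟩ := o
  obtain ⟨h, hh, hht, hhb⟩ := exists_pos hL hF t b
  have key : ∀ q ≠ 0, bil G q t = 0 → bil G q b = 0 → bil G q h = 0 →
      bil G h a₀ = 0 ∧ bil G q a₀ = 0 := fun q q0 qt qb qh => by
    have qq : bil G q q < 0 := lt_of_le_of_ne (nonpos hL ht hb hh htb hht hhb qt qb qh)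
      fun z => q0 (definite hL ht hb hh htb hht hhb qt qb qh z)
    obtain ⟨τ, τ0, i1, i2⟩ := exists_iso hL hh qh qq
    have j1 := o1 _ i1 (by rw [bil_add_left, bil_smul_left, hht, qt]; ring)
      (by rw [bil_add_left, bil_smul_left, hhb, qb]; ring)
    have j2 := o1 _ i2 (by rw [bil_add_left, bil_smul_left, hht, qt]; ring)
      (by rw [bil_add_left, bil_smul_left, hhb, qb]; ring)
    rw [bil_add_left, bil_smul_left] at j1 j2
    refine ⟨by linarith, ?_⟩
    have : τ * bil G q a₀ = 0 := by linarith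
    exact (mul_eq_zero.1 this).resolve_left τ0.ne'
  obtain ⟨q, q0, qt, qb, qh⟩ := exists_ne hL t b h
  have ha := (key q q0 qt qb qh).1
  obtain ⟨p, hp⟩ : ∃ p, p = a₀ - (bil G a₀ t / bil G t t) • t := ⟨_, rfl⟩
  have pt : bil G p t = 0 := by
    rw [hp, bil_sub_left, bil_smul_left]
    field_simp
    ring
  have pb : bil G p b = 0 := by rw [hp, bil_sub_left, bil_smul_left, h0, htb]; ring
  have ph : bil G p h = 0 := by
    rw [hp, bil_sub_left, bil_smul_left, s a₀ h, s t h, ha, hht]; ring
  have p0 : p ≠ 0 := fun z => o2 _ (sub_eq_zero.1 (hp.symm.trans z))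
  refine p0 (definite hL ht hb hh htb hht hhb pt pb ph ?_)
  have := (key p p0 pt pb ph).2
  nth_rewrite 2 [hp]
  rw [bil_sub_right, bil_smul_right, this, pt]
  ring

end Cn

open Cn

theorem conn : StConn := by
  intro ι _ _ G e f hL hF
  have s := fun x y : ι → ℝ => bil_symm G hL.symm x y
  refine ⟨exists_pos hL hF, ?_, ?_⟩
  · intro a b y y' ha hb hab y0 yy ya yb y0' yy' ya' yb' h0
    obtain ⟨h, hh, hha, hhb⟩ := exists_pos hL hF a b
    have yh : bil G y h ≠ 0 := fun z => y0 (definite hL ha hb hh hab hha hhb ya yb z yy)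
    have yh' : bil G y' h ≠ 0 := fun z => y0' (definite hL ha hb hh hab hha hhb ya' yb' z yy')
    have hh' := hh.ne'
    refine ⟨(2 * bil G y h / bil G h h) • h - y, ?_, ?_, ?_, ?_, ?_⟩
    · simp only [bil_sub_left, bil_sub_right, bil_smul_left, bil_smul_right, yy, s h y]
      field_simp
      ring
    · rw [bil_sub_left, bil_smul_left, hha, ya]; ring
    · rw [bil_sub_left, bil_smul_left, hhb, yb]; ring
    · rw [bil_sub_right, bil_smul_right, yy, sub_zero]
      positivity
    · rw [bil_sub_left, bil_smul_left, h0, sub_zero, s h y']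
      positivity
  · intro a a₀ b O hb ha hab h0 hn aO hO
    have step : ∀ t ∈ O, bil G t b = 0 → bil G t t = bil G a a →
        (∃ y, bil G y y = 0 ∧ bil G y t = 0 ∧ bil G y b = 0 ∧ bil G y a₀ ≠ 0) → a₀ ∈ O := by
      rintro t tO tb tt ⟨y, yy, yt, yb, ya⟩
      obtain ⟨y', hy⟩ : ∃ y', y' = ((bil G a a - bil G t a₀) / bil G y a₀) • y := ⟨_, rfl⟩
      have zz : bil G y' y' = 0 := by rw [hy, bil_smul_left, bil_smul_right, yy]; ring
      have zt : bil G y' t = 0 := by rw [hy, bil_smul_left, yt]; ring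
      have zb : bil G y' b = 0 := by rw [hy, bil_smul_left, yb]; ring
      have za : bil G y' a₀ = bil G a a - bil G t a₀ := by
        rw [hy, bil_smul_left]; field_simp
      have := hO _ (hO t tO tb tt y' zz zt zb) (by rw [bil_add_left, tb, zb]; ring)
        (by simp only [bil_add_left, bil_add_right, zz, zt, s t y', tt]; ring) (a₀ - (t + y'))
        (by simp only [bil_add_left, bil_add_right, bil_sub_left, bil_sub_right, zz, zt, s t y',
              tt, hn, s a₀ t, s a₀ y', za]; ring)
        (by simp only [bil_add_left, bil_add_right, bil_sub_left, zz, zt, s t y',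
              tt, s a₀ t, s a₀ y', za]; ring)
        (by rw [bil_sub_left, bil_add_left, h0, tb, zb]; ring)
      rwa [add_sub_cancel] at this
    rcases alt hL hF ha hb hab h0 with h1 | ⟨c, hc⟩
    · exact step a aO hab rfl h1
    obtain ⟨h, hh, hha, hhb⟩ := exists_pos hL hF a b
    obtain ⟨q, q0, qa, qb, qh⟩ := exists_ne hL a b h
    have qq : bil G q q < 0 := lt_of_le_of_ne (nonpos hL ha hb hh hab hha hhb qa qb qh)
      fun z => q0 (definite hL ha hb hh hab hha hhb qa qb qh z)
    obtain ⟨τ, -, i1, -⟩ := exists_iso hL hh qh qq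
    obtain ⟨y, hy⟩ : ∃ y, y = h + τ • q := ⟨_, rfl⟩
    rw [← hy] at i1
    have ya : bil G y a = 0 := by rw [hy, bil_add_left, bil_smul_left, hha, qa]; ring
    have yb : bil G y b = 0 := by rw [hy, bil_add_left, bil_smul_left, hhb, qb]; ring
    have yh : bil G y h = bil G h h := by rw [hy, bil_add_left, bil_smul_left, qh]; ring
    have tb : bil G (a + y) b = 0 := by rw [bil_add_left, hab, yb]; ring
    have tt : bil G (a + y) (a + y) = bil G a a := by
      simp only [bil_add_left, bil_add_right, i1, ya, s a y]; ring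
    rcases alt hL hF (tt ▸ ha) hb tb h0 with h1 | ⟨c', hc'⟩
    · exact step _ (hO a aO hab rfl y i1 ya yb) tb tt h1
    exfalso
    have e1 : bil G a₀ h = 0 := by rw [hc, bil_smul_left, s a h, hha]; ring
    rw [hc', bil_smul_left, bil_add_left, s a h, hha, yh, zero_add] at e1
    have c0 : c' = 0 := (mul_eq_zero.1 e1).resolve_right hh.ne'
    rw [hc', c0, zero_smul, bil_zero_left] at hn
    exact ha.ne hn

end Vale.Agent.P290Z.Orb
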