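import Vale.Agent.P290Z.Orb.Gl

/-!
# P290Z, step GENPT: a dense triple of coordinates gives a period with `Gen`
-/

set_option linter.all false

open Set Filter Topology Matrix

noncomputable section

namespace Vale.Agent.P290Z.Orb

open Vale.Agent.P290.H726

namespace GenA

variable {ι : Type} [Fintype ι] [DecidableEq ι] {G : Matrix ι ι ℤ} {e f : Fin 3 → ι → ℤ}
  {s t : ι → ℂ} {r : ℂ}

/-- the points of the orbit closure with the given norm -/
def Pt (G : Matrix ι ι ℤ) (s : ι → ℂ) (r : ℂ) (t : ι → ℂ) : Prop :=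
  t ∈ Orb G s ∧ bil G t t = 0 ∧ bil G t (star t) = r

theorem Pt.eich (h : Pt G s r t) (hG : Lat G) {y x : ι → ℤ} {k : ℤ} (hy : bil G y y = 0)
    (hx : bil G x y = 0) (hk : bil G x x = 2 * k) : Pt G s r (eich G (ic y) (ic x) k t) := by
  obtain ⟨g, h1, h2, -⟩ := exists_eich hG hy hx hk
  rw [← h2]
  exact ⟨orb_act h.1 h1, by rw [bil_act h1, h.2.1], by rw [act_star, bil_act h1, h.2.2]⟩

theorem Pt.smul (h : Pt G s r t) {w : ℂ} (hw : ‖w‖ = 1) : Pt G s r (w • t) := by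
  refine ⟨orb_smul h.1 w, by rw [bil_smul_left, bil_smul_right, h.2.1, mul_zero, mul_zero], ?_⟩
  rw [star_smul, bil_smul_left, bil_smul_right, ← mul_assoc, Complex.star_def, Complex.mul_conj,
    Complex.normSq_eq_norm_sq, hw, h.2.2]
  simp

theorem elem (hG : Lat G) (F : Frame G e f) :
    Elem {c | ∃ t, Pt G s r t ∧ c = fun j => bil G t (ic (e j))} := by
  rintro _ ⟨t, h, rfl⟩ a b hab m
  refine ⟨_, h.eich hG (F.ee a a) (x := m • f b) (k := 0)
    (by rw [bil_smul_left, F.fe hG.symm, if_neg hab.symm, mul_zero])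
    (by rw [bil_smul_left, bil_smul_right, F.ff, mul_zero, mul_zero, mul_zero]), funext fun j => ?_⟩
  rw [bil_eich, bil_ic, bil_ic, F.ee, bil_smul_left, F.fe hG.symm]
  rcases eq_or_ne j b with rfl | hj
  · simp [mul_comm]
  · simp [hj, hj.symm]

theorem shift (hG : Lat G) (F : Frame G e f) (h : Pt G s r t) (j : Fin 3) {x : ι → ℤ}
    (hx : Ort G e f Finset.univ x) : ∃ t', Pt G s r t' ∧
      (∀ i, bil G t' (ic (e i)) = bil G t (ic (e i))) ∧
      prj G e f Finset.univ t' = prj G e f Finset.univ t + bil G t (ic (e j)) • ic x := by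
  obtain ⟨k, hk⟩ := hG.even x
  refine ⟨_, h.eich hG (F.ee j j) (hx j (Finset.mem_univ _)).1 (hk.trans (two_mul k).symm),
    fun i => ?_, ?_⟩
  · rw [bil_eich, bil_ic, bil_ic, F.ee, (hx i (Finset.mem_univ _)).1]
    simp
  · have h1 : prj G e f Finset.univ (ic (e j)) = 0 := prj_e F (Finset.mem_univ _)
    have h2 : prj G e f Finset.univ (ic x) = ic x := prj_cast_ort hx
    simp only [Orb.eich, prj_sub, prj_add, prj_smul, h1, h2, smul_zero, sub_zero]

theorem approx (hG : Lat G) (F : Frame G e f) (h : Pt G s r t)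
    (hd : Dns fun j => bil G t (ic (e j))) (y : ι → ℂ) : prj G e f Finset.univ y ∈
      closure {n | ∃ t', Pt G s r t' ∧ (∀ i, bil G t' (ic (e i)) = bil G t (ic (e i))) ∧
        prj G e f Finset.univ t' = n} := by
  have h1 : DenseRange fun (M : ι → Fin 3 → ℤ) (a : ι) => ∑ j, (M a j : ℂ) * bil G t (ic (e j)) :=
    DenseRange.piMap fun _ => hd
  have h2 : Continuous fun z : ι → ℂ => prj G e f Finset.univ t + prj G e f Finset.univ z :=
    continuous_const.add continuous_prj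
  have h3 := map_mem_closure h2 (h1 (y - t)) (t := {n | ∃ t', Pt G s r t' ∧
    (∀ i, bil G t' (ic (e i)) = bil G t (ic (e i))) ∧ prj G e f Finset.univ t' = n}) (by
      rintro _ ⟨M, rfl⟩
      obtain ⟨t₀, a1, a2, a3⟩ := shift hG F h 0 (ort_prj hG.symm F fun a => M a 0)
      obtain ⟨t₁, b1, b2, b3⟩ := shift hG F a1 1 (ort_prj hG.symm F fun a => M a 1)
      obtain ⟨t₂, c1, c2, c3⟩ := shift hG F b1 2 (ort_prj hG.symm F fun a => M a 2)
      refine ⟨t₂, c1, fun i => by rw [c2, b2, a2], ?_⟩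
      rw [c3, b3, a3, b2, a2, a2]
      simp only [← prj_ic, ← prj_smul, ← prj_add, add_assoc]
      congr 2
      funext a
      simp [ic, Fin.sum_univ_three, mul_comm, add_assoc])
  rwa [prj_sub, add_sub_cancel] at h3

theorem dense4 : DenseRange fun n : (ℤ × ℤ) × ℤ × ℤ =>
    (n.1.1 + n.1.2 * (√2 : ℝ) : ℂ) + Complex.I * (n.2.1 + n.2.2 * (√2 : ℝ)) := by
  have h1 := (HypA.Ind.of one_ne_zero fun q h =>
    irrational_sqrt_two ⟨q, (h.trans (mul_one _)).symm⟩).dense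
  have h2 : Function.Surjective fun p : ℝ × ℝ => (p.1 : ℂ) + Complex.I * p.2 := fun z =>
    ⟨(z.re, z.im), by simp only [mul_comm Complex.I, Complex.re_add_im]⟩
  have h3 := h2.denseRange.comp (h1.prodMap h1) (by fun_prop)
  refine h3.mono ?_
  rintro _ ⟨n, rfl⟩
  exact ⟨n, by simp⟩

end GenA

open GenA

theorem genPt : StFr → StProp → StGl → StGenPt := by
  intro hFr hP hGl ι _ _ G e f s hG F hs hd
  obtain ⟨x₁, x₂, o1, o2, h12, h1, h2⟩ := ((hFr ι G hG).2 e f F).2.2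
  let n : ι → ℂ := (((√2 : ℝ) : ℂ) / bil G x₁ x₁) • ic x₁
    + (Complex.I * (√2 : ℝ) / bil G x₂ x₂) • ic x₂
  have hn : prj G e f Finset.univ n = n := by
    have e1 : prj G e f Finset.univ (ic x₁) = ic x₁ := prj_cast_ort o1
    have e2 : prj G e f Finset.univ (ic x₂) = ic x₂ := prj_cast_ort o2
    simp only [n, prj_add, prj_smul, e1, e2]
  obtain ⟨t, t1, t2, t3, t4, t5⟩ := hP ι G e f (Orb G s) (bil G s (star s)) ![Complex.I, 1, 0] n
    hG F ⟨isClosed_orb, fun g hg t ht => orb_act ht hg⟩ ⟨0, 1, by simp⟩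
    (Metric.mem_closure_iff.2 fun ε hε => by
      obtain ⟨_, ⟨t, a1, rfl⟩, w, hw, a2, a3⟩ := (hGl _ _ ε (elem (s := s) hG F)
        ⟨s, ⟨mem_orb_self, hs.1, rfl⟩, rfl⟩ hε).1 hd
      have e1 : (fun j => bil G (w • t) (ic (e j))) = w • fun j => bil G t (ic (e j)) :=
        funext fun j => bil_smul_left G _ _ _
      obtain ⟨_, ⟨t', b1, b2, rfl⟩, b3⟩ := Metric.mem_closure_iff.1 (approx hG F (a1.smul hw)
        (e1 ▸ GlA.dns_smul a2 (norm_ne_zero_iff.1 (hw ▸ one_ne_zero))) n) ε hε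
      refine ⟨_, ⟨t', b1.1, b1.2.1, b1.2.2, rfl⟩, ?_⟩
      rw [Prod.dist_eq, max_lt_iff]
      exact ⟨by rwa [funext b2, e1, dist_comm, dist_eq_norm], hn ▸ b3⟩)
  refine ⟨t, t1, ⟨t2, t3 ▸ hs.2⟩, e 2, fun h0 => ?_, F.ee 2 2, t4 2, dense4.mono ?_⟩
  · simpa [h0, bil_zero_left] using F.ef 2 2
  · rintro _ ⟨m, rfl⟩
    have h3 : ((bil G x₁ x₁ : ℤ) : ℂ) ≠ 0 := Int.cast_ne_zero.2 h1
    have h4 : ((bil G x₂ x₂ : ℤ) : ℂ) ≠ 0 := Int.cast_ne_zero.2 h2
    have e1 : bil G t (ic x₁) = (√2 : ℝ) := by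
      refine (bil_prj_ort hG.symm t o1).symm.trans ?_
      show bil G _ (ic x₁) = _
      rw [t5, bil_add_left, bil_smul_left, bil_smul_left, bil_ic, bil_ic,
        bil_symm G hG.symm x₂ x₁, h12, div_mul_cancel₀ _ h3, Int.cast_zero, mul_zero, add_zero]
    have e2 : bil G t (ic x₂) = Complex.I * (√2 : ℝ) := by
      refine (bil_prj_ort hG.symm t o2).symm.trans ?_
      show bil G _ (ic x₂) = _
      rw [t5, bil_add_left, bil_smul_left, bil_smul_left, bil_ic, bil_ic, h12,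
        div_mul_cancel₀ _ h4, Int.cast_zero, mul_zero, zero_add]
    refine ⟨m.1.1 • e 1 + m.1.2 • x₁ + m.2.1 • e 0 + m.2.2 • x₂, ?_, ?_⟩
    · simp only [bil_add_left, bil_smul_left, F.ee, (o1 2 (Finset.mem_univ _)).1,
        (o2 2 (Finset.mem_univ _)).1, mul_zero, add_zero]
    · simp only [ic_add, ic_smul, bil_add_right, bil_smul_right, t4, e1, e2]
      simp
      ring

end Vale.Agent.P290Z.Orb
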