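import Vale.Agent.P290Z.Orb.Conn

/-!
# P290Z: a period with a dense set of values on an isotropic hyperplane has a dense orbit
-/

set_option linter.all false

open Matrix

noncomputable section

namespace Vale.Agent.P290Z.Orb

open Vale.Agent.P290.H726

namespace Mv

variable {ι : Type} [Fintype ι] [DecidableEq ι] {G : Matrix ι ι ℤ}

theorem norm_re_im (hs : ∀ i j, G i j = G j i) (a b : ι → ℝ) :
    bil G (rc a + Complex.I • rc b) (star (rc a + Complex.I • rc b)) =
      ((bil G a a + bil G b b : ℝ) : ℂ) := by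
  rw [star_re_im]
  simp only [bil_add_left, bil_sub_right, bil_smul_left, bil_smul_right, bil_rc,
    bil_symm G hs b a, Complex.ofReal_add]
  linear_combination (-(bil G b b : ℝ) : ℂ) * Complex.I_mul_I

theorem ort_iff (a b y : ι → ℝ) : bil G (rc a + Complex.I • rc b) (rc y) = 0 ↔
    bil G a y = 0 ∧ bil G b y = 0 := by
  rw [bil_re_im, Complex.ext_iff]
  simp

end Mv

open Mv

theorem move (hCl : StCl) (hConn : StConn) : StMove := by
  intro ι _ _ G e f Z t p y hL hF hZ tZ tP hG pP hn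
  have s := fun x y : ι → ℝ => bil_symm G hL.symm x y
  obtain ⟨c1, c2, c3⟩ := hConn ι G e f hL hF
  obtain ⟨y0, yy, ty, hd⟩ := hG
  obtain ⟨W, w0, wZ, wadd, wturn⟩ := hCl ℂ ι G e f 0 y Z t hL hF (bil_zero_left _ _)
    (bil_zero_left _ _) (Or.inl rfl) hZ.1
    (fun y x k h1 h2 h3 _ _ u hu => by
      obtain ⟨g, g1, g2, -⟩ := exists_eich hL h1 h2 h3
      have := hZ.2 g g1 u hu
      rw [g2] at this
      exact this)
    tZ yy (bil_zero_right _ _) ty
    (hd.mono (by rintro z ⟨x, h1, h2⟩; exact ⟨x, h1, bil_zero_right _ _, h2⟩))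
  have i0 : ir (0 : ι → ℤ) = 0 := funext fun i => Int.cast_zero
  have wadd' : ∀ t y (z : ℂ), (t, y) ∈ W → (t + z • rc y, y) ∈ W := wadd
  have wturn' : ∀ t y y', (t, y) ∈ W → bil G y' y' = 0 → bil G t (rc y') = 0 →
      bil G y y' ≠ 0 → (t, y') ∈ W := fun t y y' h1 h2 h3 h4 =>
    wturn t y y' h1 h2 (by rw [i0, bil_zero_right]) h3 h4
  let O : Set (ι → ℂ) := {u | ∃ y ≠ 0, bil G y y = 0 ∧ bil G u (rc y) = 0 ∧ (u, y) ∈ W}
  have key : ∀ a b : ι → ℝ, 0 < bil G a a → 0 < bil G b b → bil G a b = 0 →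
      rc a + Complex.I • rc b ∈ O → ∀ y', bil G y' y' = 0 → bil G y' a = 0 → bil G y' b = 0 →
      ∀ z : ℂ, rc a + Complex.I • rc b + z • rc y' ∈ O := by
    intro a b ha hb hab hO y' h1 h2 h3 z
    rcases eq_or_ne y' 0 with rfl | h0
    · have : rc (0 : ι → ℝ) = 0 := funext fun i => Complex.ofReal_zero
      rwa [this, smul_zero, add_zero]
    obtain ⟨y, y0, yy, uy, hW⟩ := hO
    have o' := (ort_iff a b y').2 ⟨(s _ _).trans h2, (s _ _).trans h3⟩
    have hW' : (rc a + Complex.I • rc b, y') ∈ W := by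
      by_cases h4 : bil G y y' = 0
      · obtain ⟨ay, by'⟩ := (ort_iff a b y).1 uy
        obtain ⟨w, ww, wa, wb, k1, k2⟩ := c2 a b y y' ha hb hab y0 yy ((s _ _).trans ay)
          ((s _ _).trans by') h0 h1 h2 h3 h4
        exact wturn' _ _ _ (wturn' _ _ _ hW ww
          ((ort_iff a b w).2 ⟨(s _ _).trans wa, (s _ _).trans wb⟩) k1) h1 o' k2
      · exact wturn' _ _ _ hW h1 o' h4
    refine ⟨y', h0, h1, ?_, wadd' _ _ z hW'⟩
    rw [bil_add_left, o', bil_smul_left, bil_rc, h1]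
    simp
  have stepA : ∀ a a₀ b : ι → ℝ, 0 < bil G a a → 0 < bil G b b → bil G a b = 0 →
      bil G a₀ b = 0 → bil G a₀ a₀ = bil G a a → rc a + Complex.I • rc b ∈ O →
      rc a₀ + Complex.I • rc b ∈ O := fun a a₀ b ha hb hab h0 hn hO =>
    c3 a a₀ b {u | rc u + Complex.I • rc b ∈ O} hb ha hab h0 hn hO fun u hu ub uu y yy yu yb => by
      have := key u b (uu ▸ ha) hb ub hu y yy yu yb 1
      rw [one_smul, add_right_comm, ← rc_add] at this
      exact this
  have stepB : ∀ a b b₀ : ι → ℝ, 0 < bil G a a → 0 < bil G b b → bil G b a = 0 →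
      bil G b₀ a = 0 → bil G b₀ b₀ = bil G b b → rc a + Complex.I • rc b ∈ O →
      rc a + Complex.I • rc b₀ ∈ O := fun a b b₀ ha hb hab h0 hn hO =>
    c3 b b₀ a {u | rc a + Complex.I • rc u ∈ O} ha hb hab h0 hn hO fun u hu ua uu y yy yu ya => by
      have := key a u ha (uu ▸ hb) ((s _ _).trans ua) hu y yy ya yu Complex.I
      rw [add_assoc, ← smul_add, ← rc_add] at this
      exact this
  have tO : t ∈ O := ⟨ir y, fun z => y0 (funext fun i => Int.cast_eq_zero.1 (congrFun z i)),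
    by rw [bil_ir, yy, Int.cast_zero], by rw [rc_ir, ty], w0⟩
  rw [← re_add_im t] at tO tP hn
  rw [← re_add_im p] at pP hn ⊢
  generalize (fun i => (t i).re) = a at *
  generalize (fun i => (t i).im) = b at *
  generalize (fun i => (p i).re) = a₀ at *
  generalize (fun i => (p i).im) = b₀ at *
  obtain ⟨t1, t2, t3⟩ := (per_iff hL.symm a b).1 tP
  obtain ⟨p1, p2, p3⟩ := (per_iff hL.symm a₀ b₀).1 pP
  rw [norm_re_im hL.symm, norm_re_im hL.symm, Complex.ofReal_inj] at hn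
  have hN : bil G a₀ a₀ = bil G a a := by linarith
  obtain ⟨h, hh, hb, hb₀⟩ := c1 b b₀
  obtain ⟨k, hk⟩ : ∃ k, k = √(bil G a a / bil G h h) • h := ⟨_, rfl⟩
  have kk : bil G k k = bil G a a := by
    rw [hk, bil_smul_left, bil_smul_right, ← mul_assoc, Real.mul_self_sqrt (div_pos t3 hh).le]
    field_simp
  have kb : bil G k b = 0 := by rw [hk, bil_smul_left, hb, mul_zero]
  have kb₀ : bil G k b₀ = 0 := by rw [hk, bil_smul_left, hb₀, mul_zero]
  have o1 := stepA a k b t3 (t1 ▸ t3) t2 kb kk tO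
  have o2 := stepB k b b₀ (kk ▸ t3) (t1 ▸ t3) ((s _ _).trans kb) ((s _ _).trans kb₀)
    (by linarith) o1
  obtain ⟨_, -, -, -, o3⟩ := stepA k a₀ b₀ (kk ▸ t3) (p1 ▸ p3) kb₀ p2 (by linarith) o2
  exact wZ _ o3

end Vale.Agent.P290Z.Orb
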