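import Vale.Agent.P290Z.Orb.Spec2

/-! # P290Z, orbit closures of periods: periods without rational vectors in their plane -/

set_option linter.all false
set_option linter.unusedSectionVars false

open Set Filter Topology Matrix

noncomputable section

namespace Vale.Agent.P290Z.Orb

open Vale.Agent.P290.H726

namespace OA

variable {ι : Type} [Fintype ι] [DecidableEq ι] {G : Matrix ι ι ℤ} {s t : ι → ℂ} {z : ℂ}

theorem nrm_smul (z : ℂ) (s : ι → ℂ) :
    bil G (z • s) (star (z • s)) = (‖z‖ ^ 2 : ℝ) * bil G s (star s) := by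
  rw [star_smul, bil_smul_left, bil_smul_right, ← mul_assoc, Complex.star_def, Complex.mul_conj,
    Complex.normSq_eq_norm_sq]

theorem gen_smul {y : ι → ℤ} (h : Gen G t y) (hz : z ≠ 0) : Gen G (z • t) y := by
  refine ⟨h.1, h.2.1, by rw [bil_smul_left, h.2.2.1, mul_zero], Dense.mono ?_
    ((mul_left_surjective₀ hz).denseRange.dense_image (continuous_const_mul z) h.2.2.2)⟩
  rintro _ ⟨_, ⟨x, hx, rfl⟩, rfl⟩
  exact ⟨x, hx, (bil_smul_left _ _ _ _).symm⟩

theorem inv_closure (G : Matrix ι ι ℤ) (s : ι → ℂ) :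
    Inv G (closure {t | ∃ g, Isom G g ∧ t = act g s}) :=
  ⟨isClosed_closure, fun g hg t ht => map_mem_closure (continuous_act g) ht (by
    rintro _ ⟨g', hg', rfl⟩
    exact ⟨g * g', hg.mul hg', (act_mul _ _ _).symm⟩)⟩

theorem nrm_closure (ht : t ∈ closure {t | ∃ g, Isom G g ∧ t = act g s}) :
    bil G t (star t) = bil G s (star s) :=
  closure_minimal (t := {t | bil G t (star t) = bil G s (star s)}) (by
    rintro _ ⟨g, hg, rfl⟩
    exact (congrArg _ (act_star g s)).trans (bil_act hg _ _))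
    (isClosed_eq (continuous_bil continuous_id continuous_star) continuous_const) ht

/-- a period in the closure of the orbit of the line is a multiple of a limit of the orbit -/
theorem exists_smul (hs : Per G s) (ht : t ∈ Orb G s) (hp : Per G t) :
    ∃ z : ℂ, z ≠ 0 ∧ z • t ∈ closure {t | ∃ g, Isom G g ∧ t = act g s} := by
  obtain ⟨u, hu, h1⟩ := mem_closure_iff_seq_limit.1 ht
  choose z g hg hu using hu
  have h2 : Tendsto (fun k => ‖z k‖ ^ 2) atTop
      (𝓝 ((bil G t (star t)).re / (bil G s (star s)).re)) := by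
    refine (((Complex.continuous_re.comp (continuous_bil continuous_id continuous_star)).tendsto
      t).comp h1).div_const _ |>.congr fun k => ?_
    change (bil G (u k) (star (u k))).re / _ = _
    rw [hu, nrm_smul, act_star, bil_act (hg k), Complex.re_ofReal_mul, mul_div_cancel_right₀ _ hs.2.ne']
  obtain ⟨C, hC⟩ := h2.bddAbove_range
  obtain ⟨w, -, φ, hφ, h3⟩ := tendsto_subseq_of_bounded (Metric.isBounded_closedBall (x := (0 : ℂ))
    (r := C + 1)) (x := z) fun k => mem_closedBall_zero_iff.2 (by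
      nlinarith [hC ⟨k, rfl⟩, sq_nonneg (‖z k‖ - 1), sq_nonneg ‖z k‖])
  have h4 : w ≠ 0 := by
    rintro rfl
    have h5 := tendsto_nhds_unique (h3.norm.pow 2) (h2.comp hφ.tendsto_atTop)
    rw [norm_zero, zero_pow two_ne_zero] at h5
    exact (div_pos hp.2 hs.2).ne h5
  refine ⟨w⁻¹, inv_ne_zero h4, mem_closure_of_tendsto
    ((h3.inv₀ h4).smul (h1.comp hφ.tendsto_atTop)) ((h3.eventually_ne h4).mono fun k hk => ?_)⟩
  exact ⟨g (φ k), hg _, (congrArg _ (hu _)).trans (inv_smul_smul₀ hk _)⟩

end OA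

open OA in
theorem orbA : StInd2 → StSit2 → StGenPt → StMove → StOrbA := by
  intro hI hS hP hM ι _ _ G e f s p hG F hs hi hp hn
  obtain ⟨t, ht, h1, y, hy⟩ : HasGen G s := by
    obtain ⟨e', f', F', h | ⟨z, hz, h1, h2⟩⟩ := hI ι G e f s hG F hs hi
    · exact hP ι G e' f' s hG F' hs h
    refine (hS ι G e' f' (z • s) hG F' (hs.smul hz) (fun v ⟨z', hv⟩ => hi v ⟨z' * z, fun i =>
      by rw [mul_assoc]; exact hv i⟩) (fun j hj => by rw [bil_smul_left]; exact h1 j hj)
      fun p q h => ?_).imp fun t ht => ⟨orb_trans (orb_smul mem_orb_self z) ht.1, ht.2⟩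
    rw [bil_smul_left, bil_smul_left, mul_left_comm, mul_left_comm (q : ℂ), ← mul_add,
      mul_eq_zero, or_iff_right hz] at h
    have h3 := Fintype.linearIndependent_iff.1 h2 ![(p : ℚ), q, 0] (by
      simpa [Fin.sum_univ_three, Rat.smul_def] using h)
    exact ⟨by simpa using h3 0, by simpa using h3 1⟩
  obtain ⟨z, hz, h2⟩ := exists_smul hs ht h1
  exact hM ι G e f _ (z • t) p y hG F (inv_closure G s) h2 (h1.smul hz) (gen_smul hy hz) hp
    (hn.trans (nrm_closure h2).symm)

end Vale.Agent.P290Z.Orb
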