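import Vale.Agent.P290Z.Orb.Spec

/-!
# P290Z: Eichler's criterion
-/

set_option linter.all false

open Matrix

namespace Vale.Agent.P290Z.Orb

open Vale.Agent.P290.H726

namespace Ei

variable {ι : Type} [Fintype ι] [DecidableEq ι] {G : Matrix ι ι ℤ}

omit [DecidableEq ι] in
theorem bil_eq (x y : ι → ℤ) : bil G x y = x ⬝ᵥ G *ᵥ y := by
  simp only [bil, dotProduct, mulVec, Finset.mul_sum, Int.cast_id]
  exact Finset.sum_congr rfl fun i _ => Finset.sum_congr rfl fun j _ => by ring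

theorem exists_dual (h : IsUnit G.det) (i : ι) : ∃ y, ∀ v : ι → ℤ, bil G v y = v i :=
  ⟨G⁻¹ *ᵥ Pi.single i 1, fun v => by
    rw [bil_eq, mulVec_mulVec, mul_nonsing_inv _ h, one_mulVec, dotProduct_single, mul_one]⟩

/-- `w` is the image of `v` under a linear map which preserves the form -/
def Rel (G : Matrix ι ι ℤ) (v w : ι → ℤ) : Prop :=
  ∃ L : (ι → ℤ) →ₗ[ℤ] ι → ℤ, (∀ x y, bil G (L x) (L y) = bil G x y) ∧ L v = w

theorem Rel.isom (h : IsUnit G.det) {v w : ι → ℤ} (hr : Rel G v w) :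
    ∃ g, Isom G g ∧ g *ᵥ v = w := by
  obtain ⟨L, hL, rfl⟩ := hr
  have h1 : ∀ x, LinearMap.toMatrix' L *ᵥ x = L x := fun x => by
    rw [← toLin'_apply, toLin'_toMatrix']
  refine ⟨LinearMap.toMatrix' L, ⟨?_, fun x y => by rw [h1, h1, hL]⟩, h1 v⟩
  have h2 : (LinearMap.toMatrix' L)ᵀ * G * LinearMap.toMatrix' L = G := by
    ext i j
    have := hL (Pi.single i 1) (Pi.single j 1)
    rw [← h1, ← h1, bil_eq, bil_eq, mulVec_mulVec, ← vecMul_transpose, ← dotProduct_mulVec,
      mulVec_mulVec, ← Matrix.mul_assoc] at this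
    simpa using this
  have h3 := congrArg det h2
  rw [det_mul, det_mul] at h3
  exact isUnit_of_mul_isUnit_right (h3.symm ▸ h)

omit [DecidableEq ι] in
theorem Rel.step {v w : ι → ℤ} (hr : Rel G v w) (F : (ι → ℤ) → ι → ℤ) (h1 : IsLinearMap ℤ F)
    (h2 : ∀ x y, bil G (F x) (F y) = bil G x y) : Rel G v (F w) := by
  obtain ⟨L, hL, rfl⟩ := hr
  exact ⟨h1.mk' F ∘ₗ L, fun x y => (h2 _ _).trans (hL x y), rfl⟩

variable (hs : ∀ i j, G i j = G j i) {v w : ι → ℤ}
include hs

theorem Rel.eich (hr : Rel G v w) {q x : ι → ℤ} {k : ℤ} (hq : bil G q q = 0) (hx : bil G x q = 0)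
    (hk : bil G x x = 2 * k) : Rel G v (eich G q x k w) := by
  refine hr.step _ ⟨fun s t => ?_, fun c t => ?_⟩ fun s t => ?_
  · simp only [Orb.eich, bil_add_left]; module
  · simp only [Orb.eich, bil_smul_left]; module
  · simp only [Orb.eich, bil_sub_left, bil_add_left, bil_smul_left, bil_sub_right, bil_add_right,
      bil_smul_right, hq, hx, hk, bil_symm G hs q x, bil_symm G hs q t, bil_symm G hs x t]
    ring

theorem Rel.flip (hr : Rel G v w) {a b : ι → ℤ} (ha : bil G a a = 0) (hb : bil G b b = 0)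
    (hab : bil G a b = 2) : Rel G v (w - bil G w b • a - bil G w a • b) := by
  refine hr.step (fun t => t - bil G t b • a - bil G t a • b) ⟨fun s t => ?_, fun c t => ?_⟩
    fun s t => ?_
  · simp only [bil_add_left]; module
  · simp only [bil_smul_left]; module
  · simp only [bil_sub_left, bil_smul_left, bil_sub_right, bil_smul_right, ha, hb, hab,
      bil_symm G hs b a, bil_symm G hs a t, bil_symm G hs b t]
    ring

omit hs [Fintype ι] [DecidableEq ι] in
theorem exists_gen {V : Set ℤ} (h0 : V.Nonempty) (hn : ∀ r ∈ V, -r ∈ V) :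
    ∃ g ∈ V, 0 ≤ g ∧ ∀ b, (∀ m, b + m * g ∈ V) → g ∣ b := by
  by_cases h : ∃ r, r ∈ V ∧ 0 < r
  · obtain ⟨g, hg, h1⟩ := Int.exists_least_of_bdd ⟨0, fun r hr => hr.2.le⟩ h
    refine ⟨g, hg.1, hg.2.le, fun b hb => Int.dvd_of_emod_eq_zero ?_⟩
    have h2 := hb (-(b / g))
    rw [show b + -(b / g) * g = b % g by rw [Int.emod_def]; ring] at h2
    by_contra o
    exact (h1 _ ⟨h2, lt_of_le_of_ne (Int.emod_nonneg b hg.2.ne') (Ne.symm o)⟩).not_gt
      (Int.emod_lt_of_pos b hg.2)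
  · have h1 : ∀ r ∈ V, r = 0 := fun r hr => by
      have h2 := mt (fun h3 => ⟨r, hr, h3⟩) h
      have h3 := mt (fun h3 => ⟨-r, hn r hr, h3⟩) h
      omega
    obtain ⟨r, hr⟩ := h0
    exact ⟨0, h1 r hr ▸ hr, le_rfl, fun b hb => by simpa using h1 _ (hb 0)⟩

end Ei

open Ei

theorem eichler : StEich := by
  intro ι _ _ G e f hL hF v d hv hd
  have hs := hL.symm
  have ee := hF.ee
  have ff := hF.ff
  have ef := hF.ef
  have fe : ∀ i j, bil G (f i) (e j) = if j = i then 1 else 0 := fun i j =>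
    (bil_symm G hs _ _).trans (ef j i)
  obtain ⟨g, ⟨w₀, hw₀, hg₀⟩, h0, hg⟩ := exists_gen (V := {r | ∃ w, Rel G v w ∧ bil G w (e 2) = r})
    ⟨_, v, ⟨.id, fun _ _ => rfl, rfl⟩, rfl⟩ (by
      rintro _ ⟨w, hw, rfl⟩
      exact ⟨_, hw.step (fun t => -t) ⟨neg_add, fun c t => (smul_neg c t).symm⟩
        fun s t => by rw [bil_neg_left, bil_neg_right, neg_neg], bil_neg_left _ _ _⟩)
  obtain ⟨u, hu⟩ := hg (bil G w₀ (f 0)) fun m => by
    refine ⟨_, (hw₀.eich hs (q := e 0) (x := -m • e 2) (k := 0) (ee _ _) ?_ ?_).flip hs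
      (a := f 0 - e 2) (b := e 0 - f 2) ?_ ?_ ?_, ?_⟩
    all_goals simp [-zsmul_eq_mul, eich, bil_sub_left, bil_add_left, bil_smul_left, bil_sub_right, bil_neg_left,
      bil_neg_right, bil_smul_right, ee, ff, ef, fe, hg₀]
  obtain ⟨w, hw, h1, h2⟩ : ∃ w, Rel G v w ∧ bil G w (e 2) = g ∧ bil G w (f 0) = 0 := by
    refine ⟨_, hw₀.eich hs (q := e 2) (x := -u • e 0) (k := 0) (ee _ _) ?_ ?_, ?_, ?_⟩
    all_goals simp [-zsmul_eq_mul, eich, bil_sub_left, bil_add_left, bil_smul_left, bil_neg_left,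
      bil_neg_right, bil_smul_right, ee, ef, hg₀, hu]
  have h3 : ∀ y, bil G y (e 0) = 0 → bil G y (f 0) = 0 → g ∣ bil G w (e 0) - bil G w y :=
    fun y hy hy' => hg _ fun m => by
      obtain ⟨k, hk⟩ := hL.even (y - m • e 2)
      refine ⟨_, (hw.eich hs (q := f 0) (x := y - m • e 2) (k := k) (ff _ _) ?_
        (hk.trans (two_mul k).symm)).flip hs (a := e 0 - e 2) (b := f 0 - f 2) ?_ ?_ ?_, ?_⟩
      all_goals simp [-zsmul_eq_mul, eich, bil_sub_left, bil_add_left, bil_smul_left, bil_sub_right,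
        bil_smul_right, ee, ff, ef, fe, h1, h2, hy, hy']
      ring
  have h4 : ∀ y, g ∣ bil G w y := fun y => by
    have h5 := h3 0 (bil_zero_left _ _) (bil_zero_left _ _)
    have h6 := h3 (y - bil G y (f 0) • e 0 - bil G y (e 0) • f 0)
      (by simp [-zsmul_eq_mul, bil_sub_left, bil_smul_left, ee, fe])
      (by simp [-zsmul_eq_mul, bil_sub_left, bil_smul_left, ff, ef])
    rw [bil_zero_right, sub_zero] at h5
    rw [bil_sub_right, bil_sub_right, bil_smul_right, bil_smul_right, h2] at h6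
    have := (h5.mul_left (1 + bil G y (f 0))).sub h6
    rwa [show _ - _ = bil G w y by ring] at this
  obtain rfl : g = 1 := by
    obtain ⟨L, hL', rfl⟩ := hw
    choose y hy using fun i => show g ∣ v i from by
      obtain ⟨y, hy⟩ := exists_dual hL.unit i
      exact hy v ▸ hL' v y ▸ h4 _
    rcases Int.isUnit_iff.1 (hv g y (funext hy)) with h | h <;> omega
  obtain ⟨k, hk⟩ := hL.even (bil G w (f 2) • e 2 + f 2 - w)
  have h5 := hw.eich hs (q := e 2) (x := bil G w (f 2) • e 2 + f 2 - w) (k := k) (ee _ _)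
    (by simp [-zsmul_eq_mul, bil_sub_left, bil_add_left, bil_smul_left, ee, fe, h1])
    (hk.trans (two_mul k).symm)
  have h6 : bil G w w = 2 * d := by
    obtain ⟨L, hL', rfl⟩ := hw
    rw [hL', hd]
  simp only [bil_sub_left, bil_add_left, bil_smul_left, bil_sub_right, bil_add_right,
    bil_smul_right, ee, ff, ef, fe, h1, h6, bil_symm G hs (e 2) w, bil_symm G hs (f 2) w,
    if_true] at hk
  refine Rel.isom hL.unit ?_
  convert h5 using 1
  simp only [eich, bil_sub_right, bil_add_right, bil_smul_right, h1, h6]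
  rw [show k = d - bil G w (f 2) by linarith]
  module

end Vale.Agent.P290Z.Orb
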