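import Vale.Agent.P290Z.Orb.Eich

/-!
# P290Z: frames and their orthogonal complements
-/

set_option linter.all false

open Matrix

namespace Vale.Agent.P290Z.Orb

open Vale.Agent.P290.H726

namespace Fr

variable {ι : Type} [Fintype ι] [DecidableEq ι] {G : Matrix ι ι ℤ} {e f : Fin 3 → ι → ℤ}

theorem frame_of_kum (hL : Lat G) {u w : Fin 3 → ι → ℤ} (h : Kum G u w) : ∃ f, Frame G u f := by
  obtain ⟨f, uf⟩ := h.dual
  have hs := hL.symm
  have fu : ∀ i j, bil G (f i) (u j) = if j = i then 1 else 0 := fun i j =>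
    (bil_symm G hs _ _).trans (uf j i)
  choose k hk using fun j => hL.even (f j)
  refine ⟨![f 0 - k 0 • u 0 - bil G (f 0) (f 1) • u 1 - bil G (f 0) (f 2) • u 2,
    f 1 - k 1 • u 1 - bil G (f 1) (f 2) • u 2, f 2 - k 2 • u 2], h.uu, fun i j => ?_, fun i j => ?_⟩
  all_goals
    fin_cases i <;> fin_cases j <;>
      simp [-zsmul_eq_mul, bil_sub_left, bil_smul_left, bil_sub_right, bil_smul_right, h.uu, uf,
        fu, hk, bil_symm G hs (f 1) (f 0), bil_symm G hs (f 2) (f 0), bil_symm G hs (f 2) (f 1)]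

theorem nonpos₂ (hL : Lat G) (hF : Frame G e f) (y v : ι → ℝ)
    (h : ∀ j, j ≠ 2 → bil G y (ir (e j)) = 0 ∧ bil G v (ir (e j)) = 0) (hv : 0 < bil G v v)
    (hyv : bil G y v = 0) : bil G y y ≤ 0 := by
  have hs := hL.symm
  have h0 : ∀ x y, bil G (ir x) (ir y) = (bil G x y : ℤ) := bil_intCast_real G
  have fe : ∀ i j, bil G (f i) (e j) = if j = i then 1 else 0 := fun i j =>
    (bil_symm G hs _ _).trans (hF.ef j i)
  obtain ⟨y0, v0⟩ := h 0 (by decide)
  obtain ⟨y1, v1⟩ := h 1 (by decide)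
  have sy := fun x => bil_symm G hs (ir x) y
  have sv := fun x => bil_symm G hs (ir x) v
  obtain ⟨i, hi⟩ := hL.sig ![ir (e 0) + ir (f 0), ir (e 1) + ir (f 1),
    v - bil G v (ir (f 0)) • ir (e 0) - bil G v (ir (f 1)) • ir (e 1),
    y - bil G y (ir (f 0)) • ir (e 0) - bil G y (ir (f 1)) • ir (e 1)] fun i j hij => by
      fin_cases i <;> fin_cases j <;>
        simp [bil_sub_left, bil_smul_left, bil_sub_right, bil_smul_right, bil_add_left,
          bil_add_right, h0, hF.ee, hF.ff, hF.ef, fe, sy, sv, y0, y1, v0, v1, hyv,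
          bil_symm G hs v y] at hij ⊢
  fin_cases i <;>
    simp [bil_sub_left, bil_smul_left, bil_sub_right, bil_smul_right, bil_add_left,
      bil_add_right, h0, hF.ee, hF.ff, hF.ef, fe, sy, sv, y0, y1, v0, v1] at hi <;> linarith

theorem nonpos₃ (hL : Lat G) (hF : Frame G e f) (y : ι → ℝ) (h : ∀ j, bil G y (ir (e j)) = 0) :
    bil G y y ≤ 0 := by
  have hs := hL.symm
  have h0 : ∀ x y, bil G (ir x) (ir y) = (bil G x y : ℤ) := bil_intCast_real G
  have fe : ∀ i j, bil G (f i) (e j) = if j = i then 1 else 0 := fun i j =>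
    (bil_symm G hs _ _).trans (hF.ef j i)
  have := nonpos₂ hL hF (y - bil G y (ir (f 2)) • ir (e 2)) (ir (e 2) + ir (f 2))
    (fun j hj => by simp [bil_sub_left, bil_smul_left, bil_add_left, h0, hF.ee, fe, h, hj])
    (by simp [bil_add_left, bil_add_right, h0, hF.ee, hF.ff, hF.ef, fe])
    (by simp [bil_sub_left, bil_smul_left, bil_add_right, h0, hF.ee, hF.ef, h])
  simpa [bil_sub_left, bil_smul_left, bil_sub_right, bil_smul_right, h0, hF.ee, h,
    bil_symm G hs (ir (e 2)) y] using this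

theorem definite (hL : Lat G) (hF : Frame G e f) {x : ι → ℤ} (hx : Ort G e f Finset.univ x)
    (h : bil G x x = 0) : x = 0 := by
  have hs := hL.symm
  have hx' := fun j => hx j (Finset.mem_univ j)
  have h1 : ∀ y, (∀ j, bil G y (e j) = 0) → bil G x y = 0 := fun y hy => by
    have h2 := nonpos₃ hL hF (ir (((1 - bil G y y) * bil G x y) • x + y)) fun j => by
      rw [show bil G (ir _) (ir _) = _ from bil_intCast_real G _ _, bil_add_left, bil_smul_left,
        (hx' j).1, hy]
      simp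
    have h3 := nonpos₃ hL hF (ir y) fun j => by
      rw [show bil G (ir _) (ir _) = _ from bil_intCast_real G _ _, hy, Int.cast_zero]
    rw [show bil G (ir _) (ir _) = _ from bil_intCast_real G _ _, Int.cast_nonpos] at h2 h3
    simp only [bil_add_left, bil_add_right, bil_smul_left, bil_smul_right, h,
      bil_symm G hs y x] at h2
    by_contra o
    nlinarith [mul_nonneg (neg_nonneg.2 h3) (sub_nonneg.2 (Int.one_le_abs o)),
      sq_abs (bil G x y), Int.one_le_abs o,
      mul_nonneg (neg_nonneg.2 h3) (sub_nonneg.2 (one_le_pow₀ (n := 2) (Int.one_le_abs o)))]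
  funext i
  obtain ⟨y, hy⟩ := Ei.exists_dual hL.unit i
  have fe : ∀ i j, bil G (f i) (e j) = if j = i then 1 else 0 := fun i j =>
    (bil_symm G hs _ _).trans (hF.ef j i)
  have := h1 (y - bil G y (e 0) • f 0 - bil G y (e 1) • f 1 - bil G y (e 2) • f 2) fun j => by
    fin_cases j <;> simp [-zsmul_eq_mul, bil_sub_left, bil_smul_left, fe]
  simpa [-zsmul_eq_mul, bil_sub_right, bil_smul_right, hx', hy] using this

theorem exists_ort (hL : Lat G) (e f : Fin 3 → ι → ℤ) (z : ι → ℤ) :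
    ∃ x ≠ 0, Ort G e f Finset.univ x ∧ bil G x z = 0 := by
  let F : (ι → ℤ) →ₗ[ℤ] (Option (Fin 3 ⊕ Fin 3) → ℤ) :=
    { toFun := fun x o => bil G x (o.elim z (Sum.elim e f))
      map_add' := fun x y => funext fun _ => bil_add_left _ _ _ _
      map_smul' := fun c x => funext fun _ => bil_smul_left _ _ _ _ }
  obtain ⟨x, hx, h0⟩ := (Submodule.ne_bot_iff _).1 fun h : LinearMap.ker F = ⊥ => by
    have := LinearMap.finrank_le_finrank_of_injective (LinearMap.ker_eq_bot.1 h)
    have := hL.card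
    simp at *
    omega
  exact ⟨x, h0, fun j _ => ⟨congrFun hx (some (.inl j)), congrFun hx (some (.inr j))⟩,
    congrFun hx none⟩

end Fr

open Fr

theorem fr : StFr := fun ι _ _ G hL => ⟨fun _ _ => frame_of_kum hL, fun e f hF =>
  ⟨nonpos₃ hL hF, nonpos₂ hL hF, by
    obtain ⟨x₂, h1, h2, -⟩ := exists_ort hL e f 0
    obtain ⟨x₁, h3, h4, h5⟩ := exists_ort hL e f x₂
    exact ⟨x₁, x₂, h4, h2, h5, mt (definite hL hF h4) h3, mt (definite hL hF h2) h1⟩⟩⟩

end Vale.Agent.P290Z.Orb
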