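import Vale.Agent.P290Z.Orb.Basic

/-! # P290Z, orbit closures of periods: the trichotomy (O) -/

set_option linter.all false
set_option linter.unusedSectionVars false

open Set Filter Topology Matrix

noncomputable section

namespace Vale.Agent.P290Z.Orb

open Vale.Agent.P290.H726

namespace Mn

variable {ι : Type} [Fintype ι] [DecidableEq ι] {G g : Matrix ι ι ℤ} {s : ι → ℂ} {v : ι → ℤ}
  {u w e f : Fin 3 → ι → ℤ}

theorem prim_ne (h : Prim v) : v ≠ 0 := fun h0 =>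
  not_isUnit_zero (h 0 0 (h0.trans (zero_smul _ _).symm))

theorem exists_prim (h : InP s v) (h0 : v ≠ 0) : ∃ v, Prim v ∧ InP s v := by
  obtain ⟨i, hi⟩ := Function.ne_iff.1 h0
  obtain ⟨y, h1, h2⟩ := Finset.extract_gcd (s := Finset.univ) v ⟨i, Finset.mem_univ _⟩
  have h3 : ((Finset.univ.gcd v : ℤ) : ℝ) ≠ 0 := Int.cast_ne_zero.2 fun h3 =>
    hi (Finset.gcd_eq_zero_iff.1 h3 i (Finset.mem_univ _))
  obtain ⟨z, hz⟩ := h
  refine ⟨y, fun d x hx => isUnit_of_dvd_one (h2 ▸ Finset.dvd_gcd fun j _ => ⟨x j, congrFun hx j⟩),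
    (((Finset.univ.gcd v : ℤ) : ℝ)⁻¹ : ℝ) * z, fun j => ?_⟩
  rw [mul_assoc, Complex.im_ofReal_mul, hz, h1 j (Finset.mem_univ _), Int.cast_mul,
    inv_mul_cancel_left₀ h3]

/-- normal form of a period with a rational vector in its plane -/
theorem normal (hG : Lat G) (hs : Per G s) (h : InP s v) (h0 : v ≠ 0) : ∃ (z : ℂ) (a : ι → ℝ),
    z ≠ 0 ∧ z • s = rc a + Complex.I • ic v ∧ bil G a a = bil G v v ∧ bil G a (ir v) = 0 ∧
      0 < bil G v v := by
  obtain ⟨z, hz⟩ := h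
  have h1 : z ≠ 0 := fun h1 => h0 (funext fun i => by simpa [h1, eq_comm] using hz i)
  have h2 : z • s = rc (fun i => ((z • s) i).re) + Complex.I • rc (ir v) := by
    rw [← show (fun i => ((z • s) i).im) = ir v from funext hz, re_add_im]
  have h3 := hs.smul h1
  rw [h2, per_iff hG.symm, bil_ir] at h3
  exact ⟨z, _, h1, h2.trans (by rw [rc_ir]), h3.1, h3.2.1, by exact_mod_cast h3.1 ▸ h3.2.2⟩

theorem exists_iso (F : Frame G e f) (x v : ι → ℤ) :
    ∃ y : ι → ℤ, y ≠ 0 ∧ bil G y y = 0 ∧ bil G x y = 0 ∧ bil G v y = 0 := by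
  have h : ¬ LinearIndependent ℤ fun j => (bil G x (e j), bil G v (e j)) := fun h => by
    simpa using h.fintype_card_le_finrank
  obtain ⟨m, h1, j, hj⟩ := Fintype.not_linearIndependent_iff.1 h
  refine ⟨∑ i, m i • e i, fun h0 => hj ?_, ?_, ?_, ?_⟩
  · have := congrArg (fun y => bil G y (f j)) h0
    simpa only [bil_sum_left, bil_smul_left, F.ef, mul_ite, mul_one, mul_zero, Finset.sum_ite_eq',
      Finset.mem_univ, if_true, bil_zero_left] using this
  · simp only [bil_sum_left, bil_sum_right, bil_smul_left, bil_smul_right, F.ee, mul_zero,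
      Finset.sum_const_zero]
  · simpa only [bil_sum_right, bil_smul_right, Prod.fst_sum, Prod.smul_fst, smul_eq_mul,
      Prod.fst_zero] using congrArg Prod.fst h1
  · simpa only [bil_sum_right, bil_smul_right, Prod.snd_sum, Prod.smul_snd, smul_eq_mul,
      Prod.snd_zero] using congrArg Prod.snd h1

theorem map_ir (g : Matrix ι ι ℤ) (x : ι → ℤ) :
    g.map (Int.cast : ℤ → ℝ) *ᵥ ir x = ir (g *ᵥ x) :=
  funext fun i => ((Int.castRingHom ℝ).map_mulVec g x i).symm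

theorem act_normal (g : Matrix ι ι ℤ) (a : ι → ℝ) (v : ι → ℤ) :
    act g (rc a + Complex.I • ic v) =
      rc (g.map (Int.cast : ℤ → ℝ) *ᵥ a) + Complex.I • ic (g *ᵥ v) := by
  rw [act_add, act_smul, act_rc, act_ic]

end Mn

open Mn in
theorem orbO : StFr → StEich → StAdm → StInd → StSit → StHyp → StO := by
  intro hF hE hA hI hS hH ι _ _ G u w s hG hK hs
  obtain ⟨f, F⟩ := (hF ι G hG).1 u w hK
  by_cases hi : Irr s
  · refine Or.inr (Or.inl ?_)
    rcases hI ι G u w u f s hG F (hA ι G u w hG hK) hs hi with h | ⟨e', f', z, F', A', hz, h1, h2⟩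
    · exact h
    refine (hS ι G u w e' f' (z • s) hG F' A' (hs.smul hz) (fun v ⟨z', hv⟩ => hi v ⟨z' * z, fun i =>
      by rw [mul_assoc]; exact hv i⟩) (fun j hj => by rw [bil_smul_left]; exact h1 j hj)
      fun p q h => ?_).of_orb (orb_smul mem_orb_self z)
    rw [bil_smul_left, bil_smul_left, mul_left_comm, mul_left_comm (q : ℂ), ← mul_add,
      mul_eq_zero, or_iff_right hz] at h
    have h3 := Fintype.linearIndependent_iff.1 h2 ![(p : ℚ), q, 0] (by
      simpa [Fin.sum_univ_three, Rat.smul_def] using h)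
    exact ⟨by simpa using h3 0, by simpa using h3 1⟩
  obtain ⟨v, hv, hp⟩ : ∃ v, Prim v ∧ InP s v := by
    rw [Irr] at hi
    push Not at hi
    obtain ⟨v, h1, h2⟩ := hi
    exact exists_prim h1 h2
  obtain ⟨z, a, hz, h1, h2, h3, h4⟩ := normal hG hs hp (prim_ne hv)
  by_cases hr : ∀ (r : ℝ) (x : ι → ℤ), r • a = ir x → r = 0
  · refine Or.inr (Or.inr ⟨v, hv, hp, fun s₀ v₀ hs₀ hv₀ hp₀ e₀ => ?_⟩)
    obtain ⟨z₀, a₀, hz₀, k1, k2, k3, -⟩ := normal hG hs₀ hp₀ (prim_ne hv₀)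
    obtain ⟨d, hd⟩ := hG.even v
    rw [← two_mul] at hd
    obtain ⟨g, hg, gv⟩ := hE ι G u f hG F v d hv hd
    obtain ⟨g₀, hg₀, gv₀⟩ := hE ι G u f hG F v₀ d hv₀ (e₀.trans hd)
    obtain ⟨g', -, gg, -⟩ := hg.inv
    obtain ⟨g₀', hg₀', gg₀, -⟩ := hg₀.inv
    have h5 := hH ι G u f d (g.map (Int.cast : ℤ → ℝ) *ᵥ a) (g₀.map (Int.cast : ℤ → ℝ) *ᵥ a₀) hG F
      (by omega) (by rw [← gv, ← map_ir, hg.bil_map, h3])
      (by rw [hg.bil_map, h2, hd]; push_cast; rfl)
      (by rw [← gv₀, ← map_ir, hg₀.bil_map, k3])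
      (by rw [hg₀.bil_map, k2, e₀, hd]; push_cast; rfl)
      fun r x h => hr r (g' *ᵥ x) (by
        rw [← map_ir, ← h, mulVec_smul, mulVec_mulVec, ← map_cast_mul, gg,
          Matrix.map_one _ Int.cast_zero Int.cast_one, one_mulVec])
    rw [← gv₀, ← act_normal, ← k1, gv₀, ← gv, ← act_normal, ← h1] at h5
    have h6 := orb_smul (orb_act (orb_trans (orb_act (orb_smul mem_orb_self z) hg) h5) hg₀') z₀⁻¹
    rwa [← act_mul, gg₀, act_one, inv_smul_smul₀ hz₀] at h6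
  · push Not at hr
    obtain ⟨r, x, hx, hr⟩ := hr
    obtain ⟨y, y0, y1, y2, y3⟩ := exists_iso F x v
    refine Or.inl ⟨y, y0, y1, mul_left_cancel₀ hz ?_⟩
    have h5 : bil G a (ir y) = 0 := mul_left_cancel₀ hr (by
      rw [← bil_smul_left, hx, bil_ir, y2, mul_zero, Int.cast_zero])
    rw [← bil_smul_left, h1, bil_add_left, bil_smul_left, bil_ic, y3, ← rc_ir, bil_rc, h5]
    simp

end Vale.Agent.P290Z.Orb
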