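import Vale.Agent.P290Z.Orb.UC

/-!
# P290Z, block (U2): the unipotent group of an isotropic plane
-/

set_option linter.all false

open Set Filter Topology Matrix

noncomputable section

namespace Vale.Agent.P290Z.Orb

open Vale.Agent.P290.H726 UC

theorem u2 : StU2 := by
  intro ι _ _ G e f a b m Z hL hF hZ ha hst hb hc hm
  have hs := hL.symm
  set E : Fin 3 → ι → ℝ := fun j => cs ℝ (e j) with hE
  set F : Fin 3 → ι → ℝ := fun j => cs ℝ (f j) with hF'
  set π : (ι → ℝ) →ₗ[ℝ] ι → ℝ := prjL G e f {0, 1} with hπ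
  set c₀ := bil G a (E 0) with hc₀
  set c₁ := bil G a (E 1) with hc₁
  have hD : 0 < c₀ ^ 2 + c₁ ^ 2 := by
    obtain ⟨j, hj, h⟩ := hc
    fin_cases j
    · have : c₀ ≠ 0 := h
      positivity
    · have : c₁ ≠ 0 := h
      positivity
    · exact absurd rfl hj
  set D := c₀ ^ 2 + c₁ ^ 2 with hD'
  have m0 : (0 : Fin 3) ∈ ({0, 1} : Finset (Fin 3)) := by simp
  have m1 : (1 : Fin 3) ∈ ({0, 1} : Finset (Fin 3)) := by simp
  have ee : ∀ i j, bil G (E i) (E j) = 0 := fun i j => by simp [hE, bil_cs, hF.ee]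
  have ef : ∀ i j, bil G (E i) (F j) = if i = j then 1 else 0 := fun i j => by
    simp [hE, hF', bil_cs, hF.ef]
  let Z' : Set (ι → ℝ) := {t | t ∈ Z ∧ bil G t (E 0) = c₀ ∧ bil G t (E 1) = c₁ ∧
    bil G t t = bil G a a ∧ bil G t b = bil G a b}
  have hZ' : IsClosed Z' := hZ.inter ((isClosed_eq (by fun_prop) (by fun_prop)).inter
    ((isClosed_eq (by fun_prop) (by fun_prop)).inter ((isClosed_eq (by fun_prop) (by fun_prop)).inter
      (isClosed_eq (by fun_prop) (by fun_prop)))))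
  have st : ∀ j, j ≠ 2 → ∀ (x : ι → ℤ) (k : ℤ), bil G x (e 0) = 0 → bil G x (e 1) = 0 →
      bil G x x = 2 * k → bil G b (cs ℝ x) = 0 → ∀ t ∈ Z', eich G (E j) (cs ℝ x) k t ∈ Z' := by
    rintro j hj x k h0 h1 hk hx t ⟨t1, t2, t3, t4, t5⟩
    have hxj : bil G x (e j) = 0 := by
      fin_cases j
      exacts [h0, h1, absurd rfl hj]
    refine ⟨hst j hj x k hxj hk hx t t1, ?_, ?_, ?_, ?_⟩
    · rw [bil_eich, ee, t2, bil_cs, h0]
      simp
    · rw [bil_eich, ee, t3, bil_cs, h1]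
      simp
    · rw [bil_eich_eich hs (ee j j) (by rw [bil_cs, hxj, Int.cast_zero])
        (by rw [bil_cs, hk]; simp), t4]
    · rw [bil_eich, t5, bil_symm G hs (E j) b, bil_symm G hs (cs ℝ x) b, hx,
        show bil G b (E j) = 0 from hb j hj]
      simp
  let Φ : ℝ × (ι → ℝ) → ι → ℝ := fun p => p.2 +
    ((c₀ * ((bil G a a - bil G p.2 p.2) / 2) / D - c₁ * p.1) • E 0 + c₀ • F 0) +
    ((c₁ * ((bil G a a - bil G p.2 p.2) / 2) / D + c₀ * p.1) • E 1 + c₁ • F 1)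
  have hΦ : Continuous Φ := by fun_prop
  have key : ∀ t ∈ Z', Φ ((c₀ * bil G t (F 1) - c₁ * bil G t (F 0)) / D, π t) = t := by
    rintro t ⟨-, t2, t3, t4, -⟩
    have h1 := bil_prj_prj (J := {0, 1}) hs hF t
    have h2 := prjL_apply (G := G) (e := e) (f := f) (J := {0, 1}) t
    rw [Finset.sum_pair (by simp)] at h1 h2
    change bil G (π t) (π t) = bil G t t - 2 * (bil G t (F 0) * bil G t (E 0) +
      bil G t (F 1) * bil G t (E 1)) at h1
    change π t = t - (bil G t (F 0) • E 0 + bil G t (E 0) • F 0 +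
      (bil G t (F 1) • E 1 + bil G t (E 1) • F 1)) at h2
    rw [t2, t3] at h1 h2
    have e0 : c₀ * ((bil G a a - bil G (π t) (π t)) / 2) / D -
        c₁ * ((c₀ * bil G t (F 1) - c₁ * bil G t (F 0)) / D) = bil G t (F 0) := by
      rw [h1, t4]
      field_simp
      ring
    have e1 : c₁ * ((bil G a a - bil G (π t) (π t)) / 2) / D +
        c₀ * ((c₀ * bil G t (F 1) - c₁ * bil G t (F 0)) / D) = bil G t (F 1) := by
      rw [h1, t4]
      field_simp
      ring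
    simp only [Φ, e0, e1]
    rw [h2]
    abel
  let S : Set (ι → ℝ) := Prod.snd ''
    {p : Icc (0 : ℝ) 1 × (ι → ℝ) | Φ (p.1, p.2) ∈ Z' ∧ π (Φ (p.1, p.2)) = p.2}
  have hS : IsClosed S := isClosedMap_snd_of_compactSpace _
    ((hZ'.preimage (by fun_prop)).inter (isClosed_eq (by fun_prop) (by fun_prop)))
  have hn : ∀ t ∈ Z', π t ∈ S := fun t ht => by
    set l := (c₀ * bil G t (F 1) - c₁ * bil G t (F 0)) / D with hl
    have h1 := st 0 (by simp) ((-⌊l⌋) • e 1) 0 (by rw [bil_smul_left, hF.ee, mul_zero])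
      (by rw [bil_smul_left, hF.ee, mul_zero])
      (by simp only [bil_smul_left, bil_smul_right, hF.ee, mul_zero])
      (by rw [cs_smul, bil_smul_right, show bil G b (cs ℝ (e 1)) = 0 from hb 1 (by simp),
        mul_zero]) t ht
    have h2 := key _ h1
    rw [hπ, prj_eich hs hF m0, cs_smul, map_smul, prj_e hs hF m1, smul_zero, smul_zero,
      add_zero] at h2
    have h3 : (c₀ * bil G (eich G (E 0) (((-⌊l⌋ : ℤ) : ℝ) • E 1) ((0 : ℤ) : ℝ) t) (F 1) -
        c₁ * bil G (eich G (E 0) (((-⌊l⌋ : ℤ) : ℝ) • E 1) ((0 : ℤ) : ℝ) t) (F 0)) / D =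
        Int.fract l := by
      simp only [bil_eich, bil_smul_left, bil_smul_right, ef, ht.2.1, ht.2.2.1, Int.fract]
      simp only [hl]
      field_simp
      simp
      ring
    rw [cs_smul] at h1
    refine ⟨(⟨Int.fract l, Int.fract_nonneg l, (Int.fract_lt_one l).le⟩, π t), ?_, rfl⟩
    have h4 : Φ (Int.fract l, π t) = _ := h3 ▸ h2
    show Φ (Int.fract l, π t) ∈ Z' ∧ π (Φ (Int.fract l, π t)) = π t
    rw [h4]
    exact ⟨h1, by rw [hπ, prj_eich hs hF m0, map_smul, prj_e hs hF m1]; simp⟩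
  obtain ⟨⟨l, _⟩, ⟨⟨t1, t2, t3, t4, t5⟩, t6⟩, rfl⟩ : m ∈ S := by
    refine closure_minimal ?_ hS hm
    rintro _ ⟨x₀, x₁, o0, o1, b0, b1, rfl⟩
    obtain ⟨k₀, h0⟩ := hL.even x₀
    obtain ⟨k₁, h1⟩ := hL.even x₁
    have a1 := st 0 (by simp) x₀ k₀ (o0 0 m0).1 (o0 1 m1).1 (by omega) b0 a ⟨ha, rfl, rfl, rfl, rfl⟩
    have a2 := hn _ (st 1 (by simp) x₁ k₁ (o1 0 m0).1 (o1 1 m1).1 (by omega) b1 _ a1)
    rw [hπ, prj_eich hs hF m1, prj_eich hs hF m0, prj_ort o0, prj_ort o1] at a2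
    exact (a1.2.2.1 ▸ a2 :)
  refine ⟨_, t1, fun j hj => ?_, t6, t4, t5⟩
  fin_cases j
  exacts [t2, t3, absurd rfl hj]

end Vale.Agent.P290Z.Orb
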