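import Vale.Agent.P290Z.Orb.Hyp2
import Vale.Agent.P290Z.Orb.Main
import Vale.Agent.P290Z.Orb.Eich
import Vale.Agent.P290Z.Orb.Fr
import Vale.Agent.P290Z.Orb.U2

/-! P290Z, block O: periods `v + i b` with a primitive integral `v` -/

set_option linter.dupNamespace false

open Set Filter Topology Matrix

noncomputable section

namespace Vale.Agent.P290Z.Orb

open Vale.Agent.P290.H726 Mn

/-- **OrbB** for an irrational imaginary part -/
theorem orbC' (ι : Type) [Fintype ι] [DecidableEq ι] (G : Matrix ι ι ℤ) (e f : Fin 3 → ι → ℤ)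
    (v : ι → ℤ) (b b' : ι → ℝ) (hG : Lat G) (F : Frame G e f) (hv : Prim v)
    (hb : Per G (ic v + Complex.I • rc b)) (hr : ∀ (r : ℝ) (x : ι → ℤ), r • b = ir x → r = 0)
    (hb' : Per G (ic v + Complex.I • rc b')) : ic v + Complex.I • rc b' ∈
      closure {t | ∃ g, Isom G g ∧ g *ᵥ v = v ∧ t = act g (ic v + Complex.I • rc b)} := by
  rw [← rc_ir, per_iff hG.symm, bil_ir, bil_symm G hG.symm (ir v)] at hb hb'
  obtain ⟨d, hd⟩ := hG.even v
  rw [← two_mul] at hd
  obtain ⟨g, hg, gv⟩ := eichler ι G e f hG F v d hv hd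
  obtain ⟨g', hg', gg, gg'⟩ := hg.inv
  have h0 : ∀ t : ι → ℝ, g'.map (Int.cast : ℤ → ℝ) *ᵥ (g.map (Int.cast : ℤ → ℝ) *ᵥ t) = t :=
    fun t => by
      rw [mulVec_mulVec, ← map_cast_mul, gg, Matrix.map_one _ Int.cast_zero Int.cast_one,
        one_mulVec]
  have h1 : g' *ᵥ (d • e 2 + f 2) = v := by rw [← gv, mulVec_mulVec, gg, one_mulVec]
  have h2 : (0 : ℤ) < bil G v v := by exact_mod_cast hb.2.2
  have h5 := hyp2 fr u2 ι G e f d (closure {t | ∃ k, Isom G k ∧ k *ᵥ v = v ∧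
    t = (g * k).map (Int.cast : ℤ → ℝ) *ᵥ b}) (g.map (Int.cast : ℤ → ℝ) *ᵥ b)
    (g.map (Int.cast : ℤ → ℝ) *ᵥ b') hG F (by omega) isClosed_closure
    (fun h hh hv₀ t ht => map_mem_closure (continuous_const.matrix_mulVec continuous_id) ht (by
      rintro _ ⟨k, hk, kv, rfl⟩
      refine ⟨g' * h * g * k, ((hg'.mul hh).mul hg).mul hk, ?_, ?_⟩
      · rw [← mulVec_mulVec, kv, ← mulVec_mulVec, gv, ← mulVec_mulVec, hv₀, h1]
      · simp only [mulVec_mulVec, ← map_cast_mul, ← Matrix.mul_assoc, gg', Matrix.one_mul]))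
    (subset_closure ⟨1, isom_one, one_mulVec v, by rw [Matrix.mul_one]⟩)
    (by rw [← gv, ← map_ir, hg.bil_map, hb.2.1]) (by rw [hg.bil_map, ← hb.1, hd]; push_cast; rfl)
    (by rw [← gv, ← map_ir, hg.bil_map, hb'.2.1]) (by rw [hg.bil_map, ← hb'.1, hd]; push_cast; rfl)
    fun r x h => hr r (g' *ᵥ x) (by rw [← map_ir, ← h, mulVec_smul, h0])
  have h6 := map_mem_closure
    (f := fun t => ic v + Complex.I • rc (g'.map (Int.cast : ℤ → ℝ) *ᵥ t))
    (t := {t | ∃ g, Isom G g ∧ g *ᵥ v = v ∧ t = act g (ic v + Complex.I • rc b)})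
    (continuous_const.add ((continuous_rc.comp
      (continuous_const.matrix_mulVec continuous_id)).const_smul Complex.I)) h5 (by
      rintro _ ⟨k, hk, kv, rfl⟩
      refine ⟨k, hk, kv, ?_⟩
      beta_reduce
      rw [map_cast_mul, ← mulVec_mulVec, h0, act_add, act_smul, act_rc, act_ic, kv])
  rwa [h0] at h6

theorem orbB : StOrbB := by
  intro ι _ _ G e f v b b' hG F hv hb hn hb'
  refine orbC' ι G e f v b b' hG F hv hb (fun r x hx => by_contra fun hr => ?_) hb'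
  obtain ⟨y, y0, y1, y2, y3⟩ := exists_iso F x v
  have h5 : bil G b (ir y) = 0 := mul_left_cancel₀ hr (by
    rw [← bil_smul_left, hx, bil_ir, y2, mul_zero, Int.cast_zero])
  refine y0 (hn y y1 ?_)
  rw [bil_add_left, bil_smul_left, bil_ic, y3, ← rc_ir, bil_rc, h5]
  simp

end Vale.Agent.P290Z.Orb
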