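import Vale.Agent.P290Z.Orb.Basic

/-!
# P290Z, part III: full density of the orbits of periods. Definitions and statements.

If `t` is orthogonal to an integral isotropic vector `y` and the values `t.x`, `x ⊥ y`, are dense,
then `t + z y` belongs to the orbit closure for all `z`, the same holds after a move for every
isotropic `y'`, and in the closure for all real isotropic vectors. Such moves connect all periods
of one norm.
-/

set_option linter.dupNamespace false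

open Set Filter Topology Matrix

noncomputable section

namespace Vale.Agent.P290Z.Orb

open Vale.Agent.P290.H726 (bil)

variable {ι : Type} [Fintype ι] [DecidableEq ι]

/-- a closed set which is stable under the isometries of the lattice -/
def Inv (G : Matrix ι ι ℤ) (Z : Set (ι → ℂ)) : Prop :=
  IsClosed Z ∧ ∀ g, Isom G g → ∀ t ∈ Z, act g t ∈ Z

/-- `t` is orthogonal to the isotropic vector `y`, its values on the orthogonal complement of `y`
are dense -/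
def Gen (G : Matrix ι ι ℤ) (t : ι → ℂ) (y : ι → ℤ) : Prop :=
  y ≠ 0 ∧ bil G y y = 0 ∧ bil G t (ic y) = 0 ∧
    Dense {z | ∃ x : ι → ℤ, bil G x y = 0 ∧ z = bil G t (ic x)}

/-- the closure of the orbit of the line of `s` contains a period with `Gen` -/
def HasGen (G : Matrix ι ι ℤ) (s : ι → ℂ) : Prop := ∃ t ∈ Orb G s, Per G t ∧ ∃ y, Gen G t y

/-- **OrbA**: the orbit of a period without rational vectors in its plane is dense in the periods
of the same norm -/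
def StOrbA : Prop :=
  ∀ (ι : Type) [Fintype ι] [DecidableEq ι] (G : Matrix ι ι ℤ) (e f : Fin 3 → ι → ℤ) (s p : ι → ℂ),
    Lat G → Frame G e f → Per G s → Irr s → Per G p → bil G p (star p) = bil G s (star s) →
    p ∈ closure {t | ∃ g, Isom G g ∧ t = act g s}

/-- **OrbB**: periods `v + i b` with a primitive integral `v` -/
def StOrbB : Prop :=
  ∀ (ι : Type) [Fintype ι] [DecidableEq ι] (G : Matrix ι ι ℤ) (e f : Fin 3 → ι → ℤ) (v : ι → ℤ)
    (b b' : ι → ℝ), Lat G → Frame G e f → Prim v → Per G (ic v + Complex.I • rc b) →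
    (∀ x : ι → ℤ, bil G x x = 0 → bil G (ic v + Complex.I • rc b) (ic x) = 0 → x = 0) →
    Per G (ic v + Complex.I • rc b') →
    ic v + Complex.I • rc b' ∈
      closure {t | ∃ g, Isom G g ∧ g *ᵥ v = v ∧ t = act g (ic v + Complex.I • rc b)}

/-- PROP: the pairs (coordinates `c`, component in `N`) form a closed set where `c` spans `ℂ` -/
def StProp : Prop :=
  ∀ (ι : Type) [Fintype ι] [DecidableEq ι] (G : Matrix ι ι ℤ) (e f : Fin 3 → ι → ℤ)
    (Z : Set (ι → ℂ)) (r : ℂ) (c : Fin 3 → ℂ) (n : ι → ℂ), Lat G → Frame G e f → Inv G Z →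
    (∃ i j, (c i * star (c j)).im ≠ 0) →
    (c, n) ∈ closure {y | ∃ t ∈ Z, bil G t t = 0 ∧ bil G t (star t) = r ∧
      y = (fun j => bil G t (ic (e j)), prj G e f Finset.univ t)} →
    ∃ t ∈ Z, bil G t t = 0 ∧ bil G t (star t) = r ∧ (∀ j, bil G t (ic (e j)) = c j) ∧
      prj G e f Finset.univ t = n

/-- a set of triples which is stable under the elementary moves -/
def Elem (S : Set (Fin 3 → ℂ)) : Prop :=
  ∀ c ∈ S, ∀ a b : Fin 3, a ≠ b → ∀ m : ℤ, Function.update c b (c b + m * c a) ∈ S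

/-- GL: elementary moves, for a dense triple and for a triple with two real members -/
def StGl : Prop :=
  ∀ (S : Set (Fin 3 → ℂ)) (c : Fin 3 → ℂ) (ε : ℝ), Elem S → c ∈ S → 0 < ε →
    (Dns c → ∃ c' ∈ S, ∃ w : ℂ, ‖w‖ = 1 ∧ Dns c' ∧ ‖w • c' - ![Complex.I, 1, 0]‖ < ε) ∧
    ((c 0).im = 0 → (c 1).im = 0 → (∀ p q : ℤ, p * c 0 + q * c 1 = 0 → p = 0 ∧ q = 0) →
      ∃ c' ∈ S, (c' 0).im = 0 ∧ (c' 1).im = 0 ∧ c' 1 ≠ 0 ∧ (c' 2).im = (c 2).im ∧
        ‖c' - ![1, 0, (c 2).im * Complex.I]‖ < ε)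

/-- GENPT: a dense triple of coordinates -/
def StGenPt : Prop :=
  ∀ (ι : Type) [Fintype ι] [DecidableEq ι] (G : Matrix ι ι ℤ) (e f : Fin 3 → ι → ℤ) (s : ι → ℂ),
    Lat G → Frame G e f → Per G s → Dns (fun j => bil G s (ic (e j))) → HasGen G s

/-- CL: from integral moves to real moves (`K = ℝ` with a fixed `v`, or `K = ℂ` with `v = 0`) -/
def StCl : Prop :=
  ∀ (K : Type) [RCLike K] (ι : Type) [Fintype ι] [DecidableEq ι] (G : Matrix ι ι ℤ)
    (e f : Fin 3 → ι → ℤ) (v y₀ : ι → ℤ) (Z : Set (ι → K)) (t₀ : ι → K), Lat G → Frame G e f →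
    bil G v (e 0) = 0 → bil G v (f 0) = 0 → (v = 0 ∨ bil G v v ≠ 0) → IsClosed Z →
    (∀ (y x : ι → ℤ) (k : ℤ), bil G y y = 0 → bil G x y = 0 → bil G x x = 2 * k →
      bil G y v = 0 → bil G x v = 0 →
      ∀ t ∈ Z, eich G (fun i => (y i : K)) (fun i => (x i : K)) k t ∈ Z) →
    t₀ ∈ Z → bil G y₀ y₀ = 0 → bil G y₀ v = 0 → bil G t₀ (fun i => (y₀ i : K)) = 0 →
    Dense {z | ∃ x : ι → ℤ, bil G x y₀ = 0 ∧ bil G x v = 0 ∧ z = bil G t₀ fun i => (x i : K)} →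
    ∃ W : Set ((ι → K) × (ι → ℝ)), (t₀, ir y₀) ∈ W ∧ (∀ p ∈ W, p.1 ∈ Z) ∧
      (∀ t y (z : K), (t, y) ∈ W → (t + z • fun i => (y i : K), y) ∈ W) ∧
      ∀ t y y', (t, y) ∈ W → bil G y' y' = 0 → bil G y' (ir v) = 0 →
        bil G t (fun i => (y' i : K)) = 0 → bil G y y' ≠ 0 → (t, y') ∈ W

/-- CONN: the orthogonal complement of a positive plane is a Lorentz space; moves along isotropic
vectors connect all vectors of one positive norm in the orthogonal complement of `b` -/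
def StConn : Prop :=
  ∀ (ι : Type) [Fintype ι] [DecidableEq ι] (G : Matrix ι ι ℤ) (e f : Fin 3 → ι → ℤ),
    Lat G → Frame G e f →
    (∀ a b : ι → ℝ, ∃ h, 0 < bil G h h ∧ bil G h a = 0 ∧ bil G h b = 0) ∧
    (∀ a b y y' : ι → ℝ, 0 < bil G a a → 0 < bil G b b → bil G a b = 0 →
      y ≠ 0 → bil G y y = 0 → bil G y a = 0 → bil G y b = 0 →
      y' ≠ 0 → bil G y' y' = 0 → bil G y' a = 0 → bil G y' b = 0 → bil G y y' = 0 →
      ∃ y'', bil G y'' y'' = 0 ∧ bil G y'' a = 0 ∧ bil G y'' b = 0 ∧ bil G y y'' ≠ 0 ∧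
        bil G y'' y' ≠ 0) ∧
    ∀ (a a₀ b : ι → ℝ) (O : Set (ι → ℝ)), 0 < bil G b b → 0 < bil G a a → bil G a b = 0 →
      bil G a₀ b = 0 → bil G a₀ a₀ = bil G a a → a ∈ O →
      (∀ t ∈ O, bil G t b = 0 → bil G t t = bil G a a → ∀ y, bil G y y = 0 → bil G y t = 0 →
        bil G y b = 0 → t + y ∈ O) → a₀ ∈ O

/-- MOVE: a period with `Gen` has a dense orbit -/
def StMove : Prop :=
  ∀ (ι : Type) [Fintype ι] [DecidableEq ι] (G : Matrix ι ι ℤ) (e f : Fin 3 → ι → ℤ)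
    (Z : Set (ι → ℂ)) (t p : ι → ℂ) (y : ι → ℤ), Lat G → Frame G e f → Inv G Z → t ∈ Z →
    Per G t → Gen G t y → Per G p → bil G p (star p) = bil G t (star t) → p ∈ Z

/-- MOVE, the real form in the orthogonal complement of `v` -/
def StMoveR : Prop :=
  ∀ (ι : Type) [Fintype ι] [DecidableEq ι] (G : Matrix ι ι ℤ) (e f : Fin 3 → ι → ℤ) (v y : ι → ℤ)
    (Z : Set (ι → ℝ)) (t p : ι → ℝ), Lat G → Frame G e f →
    bil G v (e 0) = 0 → bil G v (f 0) = 0 → 0 < bil G v v → IsClosed Z →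
    (∀ g, Isom G g → g *ᵥ v = v → ∀ t ∈ Z, g.map (Int.cast : ℤ → ℝ) *ᵥ t ∈ Z) → t ∈ Z →
    bil G t (ir v) = 0 → 0 < bil G t t → y ≠ 0 → bil G y y = 0 → bil G y v = 0 →
    bil G t (ir y) = 0 →
    Dense {z | ∃ x : ι → ℤ, bil G x y = 0 ∧ bil G x v = 0 ∧ z = bil G t (ir x)} →
    bil G p (ir v) = 0 → bil G p p = bil G t t → p ∈ Z

/-- IND: a frame with dense or independent coordinates -/
def StInd2 : Prop :=
  ∀ (ι : Type) [Fintype ι] [DecidableEq ι] (G : Matrix ι ι ℤ) (e f : Fin 3 → ι → ℤ) (s : ι → ℂ),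
    Lat G → Frame G e f → Per G s → Irr s →
    ∃ e' f' : Fin 3 → ι → ℤ, Frame G e' f' ∧ (Dns (fun j => bil G s (ic (e' j))) ∨
      ∃ z : ℂ, z ≠ 0 ∧ (∀ j, j ≠ 2 → (z * bil G s (ic (e' j))).im = 0) ∧
        LinearIndependent ℚ fun j => bil G s (ic (e' j)))

/-- SIT: the imaginary part is orthogonal to an isotropic plane -/
def StSit2 : Prop :=
  ∀ (ι : Type) [Fintype ι] [DecidableEq ι] (G : Matrix ι ι ℤ) (e f : Fin 3 → ι → ℤ) (s : ι → ℂ),
    Lat G → Frame G e f → Per G s → Irr s → (∀ j, j ≠ 2 → (bil G s (ic (e j))).im = 0) →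
    (∀ p q : ℤ, p * bil G s (ic (e 0)) + q * bil G s (ic (e 1)) = 0 → p = 0 ∧ q = 0) →
    HasGen G s

/-- HYP: the stabiliser of `v = d e 2 + f 2` has dense orbits on the hyperboloid -/
def StHyp2 : Prop :=
  ∀ (ι : Type) [Fintype ι] [DecidableEq ι] (G : Matrix ι ι ℤ) (e f : Fin 3 → ι → ℤ) (d : ℤ)
    (Z : Set (ι → ℝ)) (a a₀ : ι → ℝ), Lat G → Frame G e f → 0 < d → IsClosed Z →
    (∀ g, Isom G g → g *ᵥ (d • e 2 + f 2) = d • e 2 + f 2 →
      ∀ t ∈ Z, g.map (Int.cast : ℤ → ℝ) *ᵥ t ∈ Z) → a ∈ Z →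
    bil G a (ir (d • e 2 + f 2)) = 0 → bil G a a = 2 * d →
    bil G a₀ (ir (d • e 2 + f 2)) = 0 → bil G a₀ a₀ = 2 * d →
    (∀ (r : ℝ) (x : ι → ℤ), r • a = ir x → r = 0) → a₀ ∈ Z

end Vale.Agent.P290Z.Orb
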