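import Vale.Agent.P290Z.Orb.U3
import Vale.Agent.P290Z.Orb.Spec2

/-!
# P290Z, block (PROP): the action of the centre of the unipotent group is cocompact on the fibres
-/

set_option linter.all false

open Set Filter Topology Matrix

noncomputable section

namespace Vale.Agent.P290Z.Orb

open Vale.Agent.P290.H726 U3

namespace Prp

theorem real_sec {a b : Fin 3 → ℝ} {r : ℝ} (hr : r * ((a ⨯₃ b) ⬝ᵥ (a ⨯₃ b)) = 1)
    (p q : Fin 3 → ℝ) : ∃ l : Fin 3 → ℝ, p = (p ⬝ᵥ a) • r • (b ⨯₃ (a ⨯₃ b)) + l ⨯₃ a ∧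
      q = (p ⬝ᵥ b + q ⬝ᵥ a) • r • (b ⨯₃ (a ⨯₃ b)) + (q ⬝ᵥ b) • r • ((a ⨯₃ b) ⨯₃ a) + l ⨯₃ b := by
  refine ⟨r • ((q ⬝ᵥ (a ⨯₃ b)) • a - (p ⬝ᵥ (a ⨯₃ b)) • b + (p ⬝ᵥ b) • (a ⨯₃ b)), ?_, ?_⟩
  · funext j
    fin_cases j <;> simp [cross_apply, dotProduct, Fin.sum_univ_three, vecHead, vecTail] at hr ⊢
    exacts [by linear_combination (-p 0) * hr, by linear_combination (-p 1) * hr,
      by linear_combination (-p 2) * hr]
  · funext j
    fin_cases j <;> simp [cross_apply, dotProduct, Fin.sum_univ_three, vecHead, vecTail] at hr ⊢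
    exacts [by linear_combination (-q 0) * hr, by linear_combination (-q 1) * hr,
      by linear_combination (-q 2) * hr]

/-- the cross product of the real and the imaginary part -/
def cp (c : Fin 3 → ℂ) : Fin 3 → ℝ := (fun j => (c j).re) ⨯₃ fun j => (c j).im

/-- the section -/
def sg (u v : Fin 3 → ℝ) (y : ℂ × ℝ) (j : Fin 3) : ℂ := ((y.2 + y.1.re) / 2 * u j : ℝ) +
  ((y.1.im * u j + (y.2 - y.1.re) / 2 * v j : ℝ) : ℂ) * Complex.I

theorem cont_cross {Z : Type} [TopologicalSpace Z] {a b : Z → Fin 3 → ℝ} (ha : Continuous a)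
    (hb : Continuous b) : Continuous fun z => a z ⨯₃ b z := by
  simp only [cross_apply]
  fun_prop

theorem cont_cp : Continuous cp := cont_cross (by fun_prop) (by fun_prop)

theorem cp_ne {c : Fin 3 → ℂ} (hc : ∃ i j, (c i * star (c j)).im ≠ 0) : cp c ⬝ᵥ cp c ≠ 0 := by
  intro h
  have h0 := dotProduct_self_eq_zero.1 h
  obtain ⟨i, j, hij⟩ := hc
  have h1 := congrFun h0 0
  have h2 := congrFun h0 1
  have h3 := congrFun h0 2
  simp [cp, cross_apply] at h1 h2 h3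
  refine hij ?_
  fin_cases i <;> fin_cases j <;> simp <;> linarith

theorem sg_eq {c z : Fin 3 → ℂ} {u v l : Fin 3 → ℝ}
    (h1 : (fun j => (z j).re) = ((fun j => (z j).re) ⬝ᵥ fun j => (c j).re) • u +
      l ⨯₃ fun j => (c j).re)
    (h2 : (fun j => (z j).im) = (((fun j => (z j).re) ⬝ᵥ fun j => (c j).im) +
      (fun j => (z j).im) ⬝ᵥ fun j => (c j).re) • u +
      ((fun j => (z j).im) ⬝ᵥ fun j => (c j).im) • v + l ⨯₃ fun j => (c j).im) :
    z = sg u v (∑ j, z j * c j, (∑ j, z j * star (c j)).re) + cr l c := by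
  funext j
  have h3 := congrFun h1 j
  have h4 := congrFun h2 j
  refine Complex.ext ?_ ?_ <;> fin_cases j <;>
    simp [sg, cr, cross_apply, dotProduct, Fin.sum_univ_three] at h3 h4 ⊢ <;> linarith

theorem sec : ∃ σ : ((Fin 3 → ℂ) × ℝ) × ℂ × ℝ → Fin 3 → ℂ, Continuous σ ∧
    ∀ c, cp c ⬝ᵥ cp c ≠ 0 → ∀ z : Fin 3 → ℂ, ∃ l, z = σ ((c, (cp c ⬝ᵥ cp c)⁻¹),
      ∑ j, z j * c j, (∑ j, z j * star (c j)).re) + cr l c := by
  refine ⟨fun y => sg (y.1.2 • ((fun j => (y.1.1 j).im) ⨯₃ cp y.1.1))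
    (y.1.2 • (cp y.1.1 ⨯₃ fun j => (y.1.1 j).re)) y.2, ?_, fun c hc z => ?_⟩
  · have h1 : Continuous fun y : ((Fin 3 → ℂ) × ℝ) × ℂ × ℝ => (fun j => (y.1.1 j).im) ⨯₃ cp y.1.1 :=
      cont_cross (by fun_prop) (cont_cp.comp (by fun_prop))
    have h2 : Continuous fun y : ((Fin 3 → ℂ) × ℝ) × ℂ × ℝ => cp y.1.1 ⨯₃ fun j => (y.1.1 j).re :=
      cont_cross (cont_cp.comp (by fun_prop)) (by fun_prop)
    unfold sg
    fun_prop
  obtain ⟨l, h1, h2⟩ := real_sec (inv_mul_cancel₀ hc) (fun j => (z j).re) fun j => (z j).im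
  exact ⟨l, sg_eq h1 h2⟩

end Prp

open Prp in
theorem prop : StProp := by
  intro ι _ _ G e f Z₀ r c n hL hF hI hc hn
  have hy := hL.symm
  obtain ⟨σ, hσ, hsec⟩ := Prp.sec
  set κ : (ι → ℂ) → Fin 3 → ℂ := fun t j => bil G t (ic (e j)) with hκ
  set π : (ι → ℂ) → ι → ℂ := prj G e f Finset.univ with hπ
  have cπ : Continuous π := continuous_prj
  have cκ : Continuous κ := continuous_pi fun j => continuous_bil continuous_id continuous_const
  let Z : Set (ι → ℂ) := {t | t ∈ Z₀ ∧ bil G t t = 0 ∧ bil G t (star t) = r}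
  have hZ : IsClosed Z := hI.1.inter ((isClosed_eq
    (continuous_bil continuous_id continuous_id) continuous_const).inter
    (isClosed_eq (continuous_bil continuous_id continuous_star) continuous_const))
  have h3 : ∀ j, prj G e f Finset.univ (ic (e j)) = 0 := fun j => prj_e hF (Finset.mem_univ j)
  have ce : ∀ a b (m : ℤ) c n t, t ∈ Z ∧ κ t = c ∧ π t = n → ∀ t',
      t' = t + (m : ℂ) • (c a • ic (e b) - c b • ic (e a)) → t' ∈ Z ∧ κ t' = c ∧ π t' = n := by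
    rintro a b m _ _ t ⟨⟨t1, t3, t4⟩, rfl, rfl⟩ _ rfl
    obtain ⟨g, g1, g2, -⟩ := exists_eich hL (hF.ee a a) (x := m • e b) (k := 0)
      (by rw [bil_smul_left, hF.ee, mul_zero])
      (by simp only [bil_smul_left, bil_smul_right, hF.ee, mul_zero])
    have h1 : t + (m : ℂ) • (κ t a • ic (e b) - κ t b • ic (e a)) = act g t := by
      rw [g2, eich, ic_smul, bil_smul_right]
      push_cast
      simp only [hκ]
      module
    refine ⟨h1 ▸ ⟨hI.2 g g1 t t1, by rw [bil_act g1, t3], by rw [act_star, bil_act g1, t4]⟩,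
      funext fun i => ?_, ?_⟩
    · simp [hκ, bil_add_left, bil_smul_left, bil_sub_left, bil_ic, hF.ee]
    · simp only [hπ, prj_add, prj_smul, prj_sub, h3, smul_zero, sub_zero, add_zero]
  let Φ : (Fin 3 → ℝ) × ((Fin 3 → ℂ) × ℝ) × (ι → ℂ) → ι → ℂ := fun p => p.2.2 +
    ∑ j, ((σ (p.2.1, -bil G p.2.2 p.2.2 / 2, (r.re - (bil G p.2.2 (star p.2.2)).re) / 2) +
      cr p.1 p.2.1.1) j • ic (e j) + p.2.1.1 j • ic (f j))
  have hΦ : Continuous Φ := by
    have h1 : Continuous fun p : (Fin 3 → ℝ) × ((Fin 3 → ℂ) × ℝ) × (ι → ℂ) => bil G p.2.2 p.2.2 :=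
      continuous_bil continuous_snd.snd continuous_snd.snd
    have h2 : Continuous fun p : (Fin 3 → ℝ) × ((Fin 3 → ℂ) × ℝ) × (ι → ℂ) =>
        bil G p.2.2 (star p.2.2) := continuous_bil continuous_snd.snd continuous_snd.snd.star
    have h3 : Continuous fun p : (Fin 3 → ℝ) × ((Fin 3 → ℂ) × ℝ) × (ι → ℂ) => cr p.1 p.2.1.1 := by
      unfold cr
      fun_prop
    fun_prop
  let ψ : (Fin 3 → ℂ) × (ι → ℂ) → ((Fin 3 → ℂ) × ℝ) × (ι → ℂ) := fun y =>
    ((y.1, (cp y.1 ⬝ᵥ cp y.1)⁻¹), y.2)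
  have key : ∀ t ∈ Z, cp (κ t) ⬝ᵥ cp (κ t) ≠ 0 → ∃ l, Φ (l, ψ (κ t, π t)) = t := by
    rintro t ⟨-, t3, t4⟩ t2
    obtain ⟨l, hl⟩ := hsec _ t2 fun j => bil G t (ic (f j))
    have h1 := bil_pp hy hF t t
    have h2 := bil_pp hy hF t (star t)
    have h3 : ∀ x, bil G (star t) (ic x) = star (bil G t (ic x)) := fun x => by
      rw [← bil_star, star_ic]
    have h4 : prj G e f Finset.univ (star t) = star (π t) := prj_map (starRingEnd ℂ) t
    simp only [t3, t4, h3, h4] at h1 h2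
    have h5 : -bil G (π t) (π t) / 2 = ∑ j, bil G t (ic (f j)) * κ t j := by
      rw [h1]
      simp only [Fin.sum_univ_three, hκ]
      ring
    have h6 : (r.re - (bil G (π t) (star (π t))).re) / 2 =
        (∑ j, bil G t (ic (f j)) * star (κ t j)).re := by
      rw [h2]
      simp [Fin.sum_univ_three, hκ]
      ring
    refine ⟨l, ?_⟩
    simp only [Φ, ψ, h5, h6, ← hl]
    exact (decomp G e f Finset.univ t).symm
  let S : Set (((Fin 3 → ℂ) × ℝ) × (ι → ℂ)) := Prod.snd ''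
    {p : Icc (0 : Fin 3 → ℝ) 1 × ((Fin 3 → ℂ) × ℝ) × (ι → ℂ) | Φ (p.1, p.2) ∈ Z ∧
      κ (Φ (p.1, p.2)) = p.2.1.1 ∧ π (Φ (p.1, p.2)) = p.2.2}
  have hS : IsClosed S := isClosedMap_snd_of_compactSpace _
    ((hZ.preimage (by fun_prop)).inter ((isClosed_eq (by fun_prop) (by fun_prop)).inter
      (isClosed_eq (by fun_prop) (by fun_prop))))
  have hm : ∀ t ∈ Z, cp (κ t) ⬝ᵥ cp (κ t) ≠ 0 → ψ (κ t, π t) ∈ S := fun t ht h0 => by
    obtain ⟨l, hl⟩ := key t ht h0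
    refine ⟨(⟨fun j => Int.fract (l j), fun j => Int.fract_nonneg _,
      fun j => (Int.fract_lt_one _).le⟩, ψ (κ t, π t)), ?_, rfl⟩
    refine ce 0 1 (-⌊l 2⌋) _ _ _ (ce 2 0 (-⌊l 1⌋) _ _ _ (ce 1 2 (-⌊l 0⌋) _ _ t ⟨ht, rfl, rfl⟩ _ rfl)
      _ rfl) (Φ (fun j => Int.fract (l j), ψ (κ t, π t))) ?_
    generalize κ t = c' at hl ⊢
    generalize π t = n' at hl ⊢
    rw [← hl]
    simp only [Φ, ψ, Fin.sum_univ_three, Pi.add_apply, cr, Int.fract, cons_val]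
    push_cast
    module
  have hD : Continuous fun y : (Fin 3 → ℂ) × (ι → ℂ) => cp y.1 ⬝ᵥ cp y.1 :=
    (cont_cp.comp continuous_fst).dotProduct (cont_cp.comp continuous_fst)
  have hψ : ContinuousAt ψ (c, n) :=
    (continuousAt_fst.prodMk (hD.continuousAt.inv₀ (cp_ne hc))).prodMk continuousAt_snd
  obtain ⟨⟨l, p⟩, ⟨⟨t1, t2, t3⟩, t4, t5⟩, t6⟩ : ψ (c, n) ∈ S := by
    refine hS.closure_subset (hψ.continuousWithinAt.mem_closure
      ((isOpen_ne_fun hD continuous_const).inter_closure ⟨cp_ne hc, hn⟩) ?_)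
    rintro _ ⟨h0, t, t1, t2, t3, rfl⟩
    exact hm t ⟨t1, t2, t3⟩ h0
  obtain rfl : p = ψ (c, n) := t6
  exact ⟨_, t1, t2, t3, congrFun t4, t5⟩

end Vale.Agent.P290Z.Orb
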