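import Vale.Agent.P290Z.Orb.Basic

/-! # P290Z, orbit closures of periods: admissible frames with independent coordinates -/

set_option linter.all false
set_option linter.unusedSectionVars false

open Set Filter Topology Matrix

noncomputable section

namespace Vale.Agent.P290Z.Orb

open Vale.Agent.P290.H726

namespace Ind

variable {ι : Type} [Fintype ι] [DecidableEq ι] {G : Matrix ι ι ℤ} {s : ι → ℂ}
  {u w e f : Fin 3 → ι → ℤ} {a b : Fin 3} {m : ℤ}

/-- the value of `s` on an integral vector -/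
def vl (G : Matrix ι ι ℤ) (s : ι → ℂ) (y : ι → ℤ) : ℂ := bil G s (ic y)

theorem vl_add (x y : ι → ℤ) : vl G s (x + y) = vl G s x + vl G s y := by
  rw [vl, ic_add, bil_add_right, vl, vl]

theorem vl_sub (x y : ι → ℤ) : vl G s (x - y) = vl G s x - vl G s y := by
  rw [vl, ic_sub, bil_sub_right, vl, vl]

theorem vl_smul (k : ℤ) (x : ι → ℤ) : vl G s (k • x) = k * vl G s x := by
  rw [vl, ic_smul, bil_smul_right, vl]

theorem vl_sum (x : Fin 3 → ι → ℤ) : vl G s (∑ j, x j) = ∑ j, vl G s (x j) := by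
  simp only [Fin.sum_univ_three, vl_add]

theorem int_mem {C : Submodule ℚ ℂ} (k : ℤ) {z : ℂ} (h : z ∈ C) : (k : ℂ) * z ∈ C := by
  simpa only [zsmul_eq_mul] using zsmul_mem h k

/-- the coordinates are values -/
theorem exists_dual (hG : IsUnit G.det) (s : ι → ℂ) (i : ι) : ∃ y, vl G s y = s i := by
  refine ⟨G⁻¹ *ᵥ Pi.single i 1, ?_⟩
  have h : G.map (Int.cast : ℤ → ℂ) *ᵥ ic (G⁻¹ *ᵥ Pi.single i 1) = Pi.single i 1 := by
    rw [← act, act_ic, mulVec_mulVec, mul_nonsing_inv G hG, one_mulVec]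
    funext j
    simp [ic, Pi.single_apply]
  rw [vl, bil_eq_dot, h, dotProduct_single_one]

theorem no_rat (hG : Lat G) (hs : Per G s) (hi : Irr s) {z : ℂ} (hz : z ≠ 0)
    (h : ∀ i, ∃ q : ℚ, (z * s i).im = q) : False := by
  choose q hq using h
  obtain ⟨N, hN⟩ := IsLocalization.exist_integer_multiples_of_finite (nonZeroDivisors ℤ) q
  choose v hv using hN
  have hN0 : ((N : ℤ) : ℂ) ≠ 0 := Int.cast_ne_zero.2 (nonZeroDivisors.coe_ne_zero N)
  have h1 : ∀ i, (((N : ℤ) : ℂ) * z * s i).im = v i := fun i => by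
    have h2 : ((v i : ℚ) : ℝ) = (((N : ℤ) • q i : ℚ) : ℝ) := congrArg _ (hv i)
    rw [mul_assoc, ← Complex.ofReal_intCast, Complex.im_ofReal_mul, hq]
    simpa using h2.symm
  have h0 : v = 0 := hi v ⟨_, h1⟩
  have h3 := hs.smul (mul_ne_zero hN0 hz)
  rw [← re_add_im (_ • s), per_iff hG.symm] at h3
  have h4 : (fun i => (((((N : ℤ) : ℂ) * z) • s) i).im) = 0 := funext fun i => by
    simpa [h0] using h1 i
  rw [h4, bil_zero_left] at h3
  exact h3.2.2.ne' h3.1

theorem not_two (hG : Lat G) (hs : Per G s) (hi : Irr s) (α β : ℂ) :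
    ∃ y, vl G s y ∉ Submodule.span ℚ {α, β} := by
  by_contra! h
  have h1 : ∀ i, ∃ p q : ℚ, p • α + q • β = s i := fun i => by
    obtain ⟨y, hy⟩ := exists_dual hG.unit s i
    exact Submodule.mem_span_pair.1 (hy ▸ h y)
  obtain ⟨z, hz, hα⟩ : ∃ z : ℂ, z ≠ 0 ∧ (z * α).im = 0 := by
    rcases eq_or_ne α 0 with rfl | h0
    · exact ⟨1, one_ne_zero, by simp⟩
    · exact ⟨α⁻¹, inv_ne_zero h0, by rw [inv_mul_cancel₀ h0, Complex.one_im]⟩
  have h2 : ∀ i, ∃ q : ℚ, (z * s i).im = q * (z * β).im := fun i => by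
    obtain ⟨p, q, hpq⟩ := h1 i
    refine ⟨q, ?_⟩
    rw [← hpq, mul_add, mul_smul_comm, mul_smul_comm, Complex.add_im, Rat.smul_def, Rat.smul_def,
      ← Complex.ofReal_ratCast, ← Complex.ofReal_ratCast, Complex.im_ofReal_mul,
      Complex.im_ofReal_mul, hα, mul_zero, zero_add]
  rcases eq_or_ne (z * β).im 0 with h0 | h0
  · exact no_rat hG hs hi hz fun i => (h2 i).imp' (fun _ => 0) fun q hq => by simp [hq, h0]
  · refine no_rat hG hs hi (z := ((z * β).im⁻¹ : ℝ) * z)
      (mul_ne_zero (Complex.ofReal_ne_zero.2 (inv_ne_zero h0)) hz) fun i => (h2 i).imp fun q hq => ?_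
    rw [mul_assoc, Complex.im_ofReal_mul, hq, mul_comm, mul_inv_cancel_right₀ h0]

/-- the rational span of the coordinates -/
def sp (G : Matrix ι ι ℤ) (s : ι → ℂ) (e : Fin 3 → ι → ℤ) : Submodule ℚ ℂ :=
  Submodule.span ℚ (range fun j => vl G s (e j))

theorem mem_sp (j : Fin 3) : vl G s (e j) ∈ sp G s e := Submodule.subset_span ⟨j, rfl⟩

theorem sp_le {C : Submodule ℚ ℂ} (h : ∀ j, vl G s (e j) ∈ C) : sp G s e ≤ C :=
  Submodule.span_le.2 (range_subset_iff.2 h)

/-- the elementary move -/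
def mv (e : Fin 3 → ι → ℤ) (a b : Fin 3) (m : ℤ) : Fin 3 → ι → ℤ :=
  Function.update e a (e a + m • e b)

theorem mv_self : mv e a b m a = e a + m • e b := Function.update_self _ _ _

theorem mv_ne {j : Fin 3} (h : j ≠ a) : mv e a b m j = e j := Function.update_of_ne h _ _

theorem frame_mv (F : Frame G e f) (hab : a ≠ b) : Frame G (mv e a b m) (mv f b a (-m)) := by
  refine ⟨fun i j => ?_, fun i j => ?_, fun i j => ?_⟩
  · by_cases hi : i = a <;> by_cases hj : j = a <;>
      simp only [mv, Function.update_apply, hi, hj, bil_add_left, bil_add_right, bil_smul_left,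
        bil_smul_right, F.ee, if_true, if_false] <;> ring
  · by_cases hi : i = b <;> by_cases hj : j = b <;>
      simp only [mv, Function.update_apply, hi, hj, bil_add_left, bil_add_right, bil_smul_left,
        bil_smul_right, F.ff, if_true, if_false] <;> ring
  · by_cases hi : i = a <;> by_cases hj : j = b <;>
      simp only [mv, Function.update_apply, hi, hj, bil_add_left, bil_add_right, bil_smul_left,
        bil_smul_right, F.ef, if_true, if_false, hab, hab.symm, eq_comm (a := b)] <;> ring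

theorem adm_mv (h : Adm G u w e) : Adm G u w (mv e a b m) := h.of_span fun j => by
  by_cases hj : j = a
  · exact ⟨Pi.single a 1 + Pi.single b m, by
      simp [hj, mv_self, add_smul, Finset.sum_add_distrib, Pi.single_apply]⟩
  · exact ⟨Pi.single j 1, by simp [mv_ne hj, Pi.single_apply]⟩

theorem sp_mv (hab : a ≠ b) : sp G s (mv e a b m) = sp G s e := by
  have h1 : ∀ j, j ≠ a → vl G s (e j) ∈ sp G s (mv e a b m) := fun j hj =>
    mv_ne (e := e) (b := b) (m := m) hj ▸ mem_sp j
  refine le_antisymm (sp_le fun j => ?_) (sp_le fun j => ?_) <;> by_cases hj : j = a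
  · rw [hj, mv_self, vl_add, vl_smul]
    exact add_mem (mem_sp _) (int_mem _ (mem_sp _))
  · rw [mv_ne hj]
    exact mem_sp j
  · have h2 := sub_mem (mem_sp (e := mv e a b m) a) (int_mem m (h1 b hab.symm))
    rw [mv_self, vl_add, vl_smul, add_sub_cancel_right] at h2
    rwa [hj]
  · exact h1 j hj

theorem ind_iff : (LinearIndependent ℚ fun j => vl G s (e j)) ↔ 3 = Module.finrank ℚ (sp G s e) :=
  linearIndependent_iff_card_eq_finrank_span

/-- the coordinate `a` depends on the other ones -/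
def Dep (G : Matrix ι ι ℤ) (s : ι → ℂ) (e : Fin 3 → ι → ℤ) (a : Fin 3) : Prop :=
  ∀ C : Submodule ℚ ℂ, (∀ j, j ≠ a → vl G s (e j) ∈ C) → vl G s (e a) ∈ C

/-- there is a better frame -/
def Imp (G : Matrix ι ι ℤ) (u w : Fin 3 → ι → ℤ) (s : ι → ℂ) (C : Submodule ℚ ℂ) : Prop :=
  ∃ e' f', Frame G e' f' ∧ Adm G u w e' ∧ C < sp G s e'

theorem imp_swap (hG : Lat G) (F : Frame G e f) (A : Adm G u w e) (hd : Dep G s e a) {x : ι → ℤ}
    {k : ℤ} (hx : Ort G e f Finset.univ x) (hk : bil G x x = 2 * k)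
    (hn : vl G s (f a + x - k • e a) ∉ sp G s e) : Imp G u w s (sp G s e) := by
  have h1 : ∀ j, j ≠ a → vl G s (e j) ∈ sp G s (Function.update e a (f a + x - k • e a)) :=
    fun j hj => Function.update_of_ne hj _ e ▸ mem_sp j
  refine ⟨_, _, F.swap hG.symm a hx hk, A.swap hG F a hx hk, lt_of_le_of_ne (sp_le fun j => ?_)
    fun h => hn ?_⟩
  · by_cases hj : j = a
    · exact hj ▸ hd _ h1
    · exact h1 j hj
  · have h2 := mem_sp (G := G) (s := s) (e := Function.update e a (f a + x - k • e a)) a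
    rwa [Function.update_self, ← h] at h2

theorem imp_swap0 (hG : Lat G) (F : Frame G e f) (A : Adm G u w e) (hd : Dep G s e a)
    (hn : vl G s (f a) ∉ sp G s e) : Imp G u w s (sp G s e) :=
  imp_swap hG F A hd (x := 0) (k := 0) (fun _ _ => ⟨bil_zero_left _ _, bil_zero_left _ _⟩)
    (bil_zero_left _ _) (by simpa using hn)

theorem imp (hG : Lat G) (F : Frame G e f) (A : Adm G u w e) (hs : Per G s) (hi : Irr s)
    (hd : ¬ LinearIndependent ℚ fun j => vl G s (e j)) : Imp G u w s (sp G s e) := by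
  obtain ⟨a, ha⟩ : ∃ a, Dep G s e a := by
    rw [linearIndependent_iff_notMem_span] at hd
    push Not at hd
    refine hd.imp fun a ha C hC => Submodule.span_le.2 ?_ ha
    rintro _ ⟨j, hj, rfl⟩
    exact hC j hj.2
  by_contra hn
  have h1 : vl G s (f a) ∈ sp G s e := by_contra fun h => hn (imp_swap0 hG F A ha h)
  have h2 : ∀ x, Ort G e f Finset.univ x → vl G s x ∈ sp G s e := fun x hx => by
    obtain ⟨k, hk⟩ := hG.even x
    have h3 : vl G s (f a + x - k • e a) ∈ sp G s e :=
      by_contra fun h => hn (imp_swap hG F A ha hx (hk.trans (two_mul k).symm) h)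
    rw [vl_sub, vl_add, vl_smul] at h3
    simpa using sub_mem (add_mem h3 (int_mem k (mem_sp a))) h1
  obtain ⟨b, hb⟩ : ∃ b, vl G s (f b) ∉ sp G s e := by
    by_contra! h
    obtain ⟨y, hy⟩ := not_two hG hs hi (vl G s (e (a + 1))) (vl G s (e (a + 2)))
    have h4 : ∀ j, j ≠ a → vl G s (e j) ∈
        Submodule.span ℚ {vl G s (e (a + 1)), vl G s (e (a + 2))} := fun j hj => by
      have : j = a + 1 ∨ j = a + 2 :=
        (by decide : ∀ a j : Fin 3, j ≠ a → j = a + 1 ∨ j = a + 2) a j hj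
      rcases this with rfl | rfl <;> exact Submodule.subset_span (by simp)
    refine hy (sp_le (G := G) (s := s) (e := e) (fun j => ?_) ?_)
    · by_cases hj : j = a
      · exact hj ▸ ha _ h4
      · exact h4 j hj
    · rw [decomp G e f Finset.univ y, vl_add, vl_sum]
      refine add_mem (h2 _ (ort_prj hG.symm F y)) (sum_mem fun j _ => ?_)
      rw [vl_add, vl_smul, vl_smul]
      exact add_mem (int_mem _ (mem_sp j)) (int_mem _ (h j))
  have hab : a ≠ b := fun h => hb (h ▸ h1)
  obtain ⟨l, d, hd, hl⟩ := Submodule.mem_span_insert.1 (ha (Submodule.span ℚ (insert (vl G s (e b))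
    ((fun j => vl G s (e j)) '' {j | j ≠ a ∧ j ≠ b}))) fun j hj => Submodule.subset_span (by
      by_cases h : j = b
      · exact Or.inl (h ▸ rfl)
      · exact Or.inr ⟨j, ⟨hj, h⟩, rfl⟩))
  obtain ⟨m, hm⟩ : ∃ m : ℤ, l + m ≠ 0 := by
    rcases eq_or_ne l 0 with h | h
    · exact ⟨1, by simp [h]⟩
    · exact ⟨0, by simpa using h⟩
  refine hn (sp_mv (G := G) (s := s) (e := e) (m := m) hab ▸
    imp_swap0 (a := b) hG (frame_mv F hab) (adm_mv A) (fun C hC => ?_) fun h => hb ?_)
  · have h5 : d ∈ C := Submodule.span_le.2 (by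
      rintro _ ⟨j, hj, rfl⟩
      have := hC j hj.2
      rwa [mv_ne hj.1] at this) hd
    have h6 := C.smul_mem (l + m)⁻¹ (sub_mem (hC a hab) h5)
    rw [mv_self, vl_add, vl_smul, hl, show l • vl G s (e b) + d + m * vl G s (e b) - d =
      (l + m) • vl G s (e b) by rw [add_smul, Int.cast_smul_eq_zsmul, zsmul_eq_mul]; ring,
      inv_smul_smul₀ hm] at h6
    rwa [mv_ne hab.symm]
  · rw [sp_mv hab, mv_self, vl_add, vl_smul] at h
    simpa using sub_mem h (int_mem (-m) h1)

theorem exists_ind (hG : Lat G) (hs : Per G s) (hi : Irr s) (n : ℕ) :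
    ∀ e f, Frame G e f → Adm G u w e → 3 ≤ Module.finrank ℚ (sp G s e) + n →
      ∃ e' f', Frame G e' f' ∧ Adm G u w e' ∧ LinearIndependent ℚ fun j => vl G s (e' j) := by
  induction n with
  | zero =>
    exact fun e f F A h => ⟨e, f, F, A, ind_iff.2 (le_antisymm h (finrank_range_le_card _))⟩
  | succ n ih =>
    intro e f F A h
    by_cases hd : LinearIndependent ℚ fun j => vl G s (e j)
    · exact ⟨e, f, F, A, hd⟩
    obtain ⟨e', f', F', A', hlt⟩ := imp hG F A hs hi hd
    haveI : FiniteDimensional ℚ (sp G s e') := FiniteDimensional.span_of_finite ℚ (finite_range _)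
    have := Submodule.finrank_lt_finrank_of_lt hlt
    exact ih e' f' F' A' (by omega)

theorem euclid (z : ℂ) (n : ℕ) : ∀ e f (k : Fin 3 → ℤ), Frame G e f → Adm G u w e →
    (LinearIndependent ℚ fun j => vl G s (e j)) → (∀ j, (z * vl G s (e j)).im = k j) →
    ∑ j, (k j).natAbs = n → ∃ e' f', Frame G e' f' ∧ Adm G u w e' ∧
      (∀ j, j ≠ 2 → (z * vl G s (e' j)).im = 0) ∧ LinearIndependent ℚ fun j => vl G s (e' j) := by
  induction n using Nat.strong_induction_on with
  | h n ih =>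
    intro e f k F A hl hk hn
    by_cases h : ∃ a b, a ≠ b ∧ k b ≠ 0 ∧ (k b).natAbs ≤ (k a).natAbs
    · obtain ⟨a, b, hab, h0, h1⟩ := h
      obtain ⟨m, hm⟩ : ∃ m : ℤ, (k a + m * k b).natAbs < (k a).natAbs := by
        by_contra! h2
        have h3 := h2 1
        have h4 := h2 (-1)
        omega
      refine ih _ ?_ _ _ (Function.update k a (k a + m * k b)) (frame_mv (m := m) F hab) (adm_mv A)
        (ind_iff.2 (sp_mv (G := G) (s := s) (e := e) (m := m) hab ▸ ind_iff.1 hl))
        (fun j => ?_) rfl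
      · rw [← hn]
        refine Finset.sum_lt_sum (fun j _ => ?_) ⟨a, Finset.mem_univ _, by simpa using hm⟩
        by_cases hj : j = a
        · simpa [hj] using hm.le
        · rw [Function.update_of_ne hj]
      · by_cases hj : j = a
        · rw [hj, mv_self, vl_add, vl_smul, mul_add, Complex.add_im, mul_left_comm,
            ← Complex.ofReal_intCast, Complex.im_ofReal_mul, hk, hk, Function.update_self]
          push_cast
          rfl
        · rw [mv_ne hj, Function.update_of_ne hj, hk]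
    · push Not at h
      obtain ⟨j, hj⟩ : ∃ j, ∀ i, i ≠ j → k i = 0 := by
        by_cases h0 : ∃ b, k b ≠ 0
        · refine h0.imp fun b hb a hab => by_contra fun ha => ?_
          exact lt_asymm (h a b hab hb) (h b a hab.symm ha)
        · push Not at h0
          exact ⟨0, fun i _ => h0 i⟩
      refine ⟨_, _, F.perm (Equiv.swap 2 j), A.perm _, fun i hi => ?_,
        hl.comp _ (Equiv.swap 2 j).injective⟩
      rw [Function.comp_apply, hk, hj _ fun h' => hi ((Equiv.swap 2 j).injective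
        (h'.trans (Equiv.swap_apply_left 2 j).symm)), Int.cast_zero]

end Ind

open Ind in
theorem ind : StKr → StInd := by
  intro hK ι _ _ G u w e f s hG F A hs hi
  obtain ⟨e₁, f₁, F₁, A₁, h₁⟩ := exists_ind hG hs hi 3 e f F A (Nat.le_add_left _ _)
  rcases hK.1 _ h₁ with h | ⟨z, k, hz, hk⟩
  · exact Or.inl (A₁ s hs h)
  · obtain ⟨e₂, f₂, F₂, A₂, h₂, h₃⟩ := euclid z _ e₁ f₁ k F₁ A₁ h₁ hk rfl
    exact Or.inr ⟨e₂, f₂, z, F₂, A₂, hz, h₂, h₃⟩

end Vale.Agent.P290Z.Orb
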