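import Vale.Agent.P290Z.Orb.Spec

/-! # P290Z, block (O): Kronecker's theorem for three complex numbers -/

open Set Filter Topology Metric

noncomputable section

namespace Vale.Agent.P290Z.Orb

namespace KrAux

/-- three independent numbers generate a group which is not discrete -/
theorem small {c : Fin 3 → ℂ} (hc : LinearIndependent ℚ c) {ε : ℝ} (hε : 0 < ε) :
    ∃ a ∈ Submodule.span ℤ (range c), a ≠ 0 ∧ ‖a‖ < ε := by
  by_contra! h
  have h1 : DiscreteTopology (Submodule.span ℤ (range c)) := by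
    refine discreteTopology_of_isOpen_singleton_zero ?_
    have : ({0} : Set (Submodule.span ℤ (range c))) = Subtype.val ⁻¹' ball 0 ε := by
      ext a
      simp only [mem_singleton_iff, mem_preimage, mem_ball_zero_iff]
      exact ⟨fun e => by simpa [e], fun e => by_contra fun e' =>
        (h a a.2 fun e'' => e' (Subtype.ext e'')).not_gt e⟩
    rw [this]
    exact isOpen_ball.preimage continuous_subtype_val
  have h2 := Real.finrank_eq_int_finrank_of_discrete h1
  have h3 := finrank_span_eq_card ((LinearIndependent.iff_fractionRing ℤ ℚ).2 hc)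
  have h4 := Submodule.finrank_le (Submodule.span ℝ (range c))
  rw [Complex.finrank_real_complex] at h4
  rw [Set.finrank, Set.finrank, h3, Fintype.card_fin] at h2
  omega

/-- the closure of a group which is not discrete contains a line -/
theorem line {A : Submodule ℤ ℂ} (h : ∀ ε > 0, ∃ a ∈ A, a ≠ 0 ∧ ‖a‖ < ε) :
    ∃ w : ℂ, ‖w‖ = 1 ∧ ∀ t : ℝ, t • w ∈ closure (A : Set ℂ) := by
  choose a ha h0 h1 using fun n : ℕ => h _ (Nat.one_div_pos_of_nat (n := n))
  have hp : ∀ n, 0 < ‖a n‖ := fun n => norm_pos_iff.2 (h0 n)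
  obtain ⟨w, hw, φ, hφ, hl⟩ := (isCompact_sphere (0 : ℂ) 1).tendsto_subseq
    (x := fun n => ‖a n‖⁻¹ • a n) fun n => by simp [(hp n).ne']
  refine ⟨w, by simpa using hw, fun t => ?_⟩
  have h2 : Tendsto (fun n => ‖a (φ n)‖) atTop (𝓝 0) :=
    (squeeze_zero (fun n => norm_nonneg _) (fun n => (h1 n).le)
      tendsto_one_div_add_atTop_nhds_zero_nat).comp hφ.tendsto_atTop
  have h3 : Tendsto (fun n => (⌊t / ‖a (φ n)‖⌋ : ℝ) * ‖a (φ n)‖) atTop (𝓝 t) := by
    refine tendsto_of_tendsto_of_tendsto_of_le_of_le (g := fun n => t - ‖a (φ n)‖)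
      (by simpa using h2.const_sub t) tendsto_const_nhds (fun n => ?_) fun n => ?_
    · have := mul_le_mul_of_nonneg_right (Int.sub_one_lt_floor (t / ‖a (φ n)‖)).le (hp (φ n)).le
      rwa [sub_mul, div_mul_cancel₀ _ (hp _).ne', one_mul] at this
    · exact (le_div_iff₀ (hp _)).1 (Int.floor_le _)
  refine mem_closure_of_tendsto (h3.smul hl) (Eventually.of_forall fun n => ?_)
  rw [Function.comp_apply, smul_smul, mul_inv_cancel_right₀ (hp _).ne', Int.cast_smul_eq_zsmul]
  exact A.smul_mem _ (ha _)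

theorem alt {c : Fin 3 → ℂ} (hc : LinearIndependent ℚ c) : Dns c ∨
    ∃ (z : ℂ) (k : Fin 3 → ℤ), z ≠ 0 ∧ ∀ j, (z * c j).im = k j := by
  obtain ⟨w, hw, hl⟩ := line fun ε hε => small hc hε
  have hw0 : (starRingEnd ℂ) w ≠ 0 := by
    rw [map_ne_zero, ← norm_ne_zero_iff, hw]
    exact one_ne_zero
  have hww : w * (starRingEnd ℂ) w = 1 := by
    rw [Complex.mul_conj, Complex.normSq_eq_norm_sq, hw]
    simp
  set A := Submodule.span ℤ (range c) with hA
  let l : ℂ →+ ℝ := Complex.imAddGroupHom.comp (AddMonoidHom.mulLeft ((starRingEnd ℂ) w))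
  have hmem : ∀ j, ((starRingEnd ℂ) w * c j).im ∈ A.toAddSubgroup.map l := fun j =>
    ⟨c j, Submodule.subset_span (mem_range_self j), rfl⟩
  rcases AddSubgroup.dense_or_cyclic (A.toAddSubgroup.map l) with h | ⟨a, h⟩
  · left
    have h1 : range (fun m : Fin 3 → ℤ => ∑ j, (m j : ℂ) * c j) = A := by
      ext x
      simp [hA, Submodule.mem_span_range_iff_exists_fun]
    rw [Dns, DenseRange, h1, ← dense_closure]
    intro x
    refine Metric.mem_closure_iff.2 fun ε hε => ?_
    obtain ⟨_, ⟨a, ha, rfl⟩, h2⟩ := Metric.mem_closure_iff.1 (h (l x)) ε hε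
    refine ⟨a + ((starRingEnd ℂ) w * (x - a)).re • w,
      A.toAddSubgroup.topologicalClosure.add_mem (subset_closure ha) (hl _), ?_⟩
    have h3 : x - (a + ((starRingEnd ℂ) w * (x - a)).re • w)
        = ((l x - l a : ℝ) : ℂ) * Complex.I * w := by
      have h4 := Complex.re_add_im ((starRingEnd ℂ) w * (x - a))
      have h5 : l x - l a = ((starRingEnd ℂ) w * (x - a)).im := (map_sub l x a).symm
      rw [h5, Complex.real_smul]
      linear_combination (-w) * h4 - (x - a) * hww
    rwa [dist_eq_norm, h3, norm_mul, norm_mul, hw, Complex.norm_I, Complex.norm_real, mul_one,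
      mul_one, ← dist_eq_norm]
  · right
    simp only [h, AddSubgroup.mem_closure_singleton] at hmem
    choose k hk using hmem
    by_cases ha : a = 0
    · exact ⟨_, 0, hw0, fun j => by simp [← hk j, ha]⟩
    · refine ⟨(a⁻¹ : ℝ) * (starRingEnd ℂ) w, k, mul_ne_zero (by simpa) hw0, fun j => ?_⟩
      rw [mul_assoc, Complex.im_ofReal_mul, ← hk j, zsmul_eq_mul, mul_comm, mul_inv_cancel_right₀ ha]

theorem dense_ne {f : (Fin 3 → ℂ) → ℝ} (hf : ContDiff ℝ ⊤ f) (h : ∃ c, f c ≠ 0) :
    Dense {c | f c ≠ 0} := by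
  refine dense_iff_inter_open.2 fun U hU ⟨x, hx⟩ => by_contra fun h1 => ?_
  obtain ⟨c, hc⟩ := h
  refine hc (hf.analyticOnNhd.eqOn_zero_of_preconnected_of_eventuallyEq_zero isPreconnected_univ
    (mem_univ x) ?_ (mem_univ c))
  filter_upwards [hU.mem_nhds hx] with y hy
  exact by_contra fun h2 => h1 ⟨y, hy, h2⟩

/-- the determinant of the real part, the imaginary part and `k` -/
def dt (k : Fin 3 → ℤ) (c : Fin 3 → ℂ) : ℝ :=
  k 0 * ((c 1).re * (c 2).im - (c 2).re * (c 1).im) +
    k 1 * ((c 2).re * (c 0).im - (c 0).re * (c 2).im) +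
    k 2 * ((c 0).re * (c 1).im - (c 1).re * (c 0).im)

theorem dense_dns : Dense {c | Dns c} := by
  have re : ∀ j, ContDiff ℝ ⊤ fun c : Fin 3 → ℂ => (c j).re := fun j =>
    Complex.reCLM.contDiff.comp (contDiff_apply ℝ ℂ j)
  have im : ∀ j, ContDiff ℝ ⊤ fun c : Fin 3 → ℂ => (c j).im := fun j =>
    Complex.imCLM.contDiff.comp (contDiff_apply ℝ ℂ j)
  have s1 : ∀ k : Fin 3 → ℤ, ContDiff ℝ ⊤ fun c : Fin 3 → ℂ => ∑ j, (k j : ℝ) * (c j).re :=
    fun k => ContDiff.sum fun j _ => contDiff_const.mul (re j)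
  have s2 : ∀ k, ContDiff ℝ ⊤ (dt k) := fun k =>
    ((contDiff_const.mul (((re 1).mul (im 2)).sub ((re 2).mul (im 1)))).add
      (contDiff_const.mul (((re 2).mul (im 0)).sub ((re 0).mul (im 2))))).add
      (contDiff_const.mul (((re 0).mul (im 1)).sub ((re 1).mul (im 0))))
  have h := dense_iInter_of_isOpen (f := fun k : {k : Fin 3 → ℤ // k ≠ 0} =>
    {c : Fin 3 → ℂ | ∑ j, (k.1 j : ℝ) * (c j).re ≠ 0} ∩ {c | dt k.1 c ≠ 0})
    (fun k => (isOpen_ne_fun (s1 _).continuous continuous_const).inter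
      (isOpen_ne_fun (s2 _).continuous continuous_const)) fun k => by
      obtain ⟨j, hj⟩ := Function.ne_iff.1 k.2
      refine (dense_ne (s1 _) ⟨Pi.single j 1, ?_⟩).inter_of_isOpen_left (dense_ne (s2 _) ?_)
        (isOpen_ne_fun (s1 _).continuous continuous_const)
      · rw [Finset.sum_eq_single j (fun i _ hi => by simp [hi]) (by simp)]
        simpa using hj
      · by_contra! h
        have h0 := h ![0, 1, Complex.I]
        have h1 := h ![Complex.I, 0, 1]
        have h2 := h ![1, Complex.I, 0]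
        simp [dt] at h0 h1 h2
        exact k.2 (funext fun i => by fin_cases i <;> assumption)
  refine h.mono fun c hc => ?_
  simp only [mem_iInter, mem_inter_iff, mem_ofPred_eq, Subtype.forall] at hc
  have h1 : LinearIndependent ℚ c := by
    refine (LinearIndependent.iff_fractionRing ℤ ℚ).1 (Fintype.linearIndependent_iff.2 fun k hk => ?_)
    by_contra h2
    refine (hc k fun e => h2 (congrFun e)).1 ?_
    simpa using congrArg Complex.re hk
  refine (alt h1).resolve_right ?_
  rintro ⟨z, k, hz, hk⟩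
  simp only [Complex.mul_im] at hk
  by_cases h2 : k = 0
  · have h3 := (hc ![1, 0, 0] fun e => by simpa using congrFun e 0).2
    simp only [h2, Pi.zero_apply, Int.cast_zero] at hk
    have h4 : dt ![1, 0, 0] c = (c 1).re * (c 2).im - (c 2).re * (c 1).im := by simp [dt]
    rw [h4] at h3
    refine hz (Complex.ext (mul_right_cancel₀ h3 ?_) (mul_right_cancel₀ h3 ?_))
    · rw [Complex.zero_re]
      linear_combination (c 1).re * hk 2 - (c 2).re * hk 1
    · rw [Complex.zero_im]
      linear_combination (c 2).im * hk 1 - (c 1).im * hk 2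
  · refine (hc k h2).2 ?_
    rw [dt, ← hk 0, ← hk 1, ← hk 2]
    ring

end KrAux

theorem kr : StKr := ⟨fun _ => KrAux.alt, KrAux.dense_dns⟩

end Vale.Agent.P290Z.Orb
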