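import Vale.Agent.P290Z.Orb.Basic

/-!
# P290Z, block (U3): the unipotent group of an isotropic space of rank three
-/

set_option linter.all false

open Set Filter Topology Matrix

noncomputable section

namespace Vale.Agent.P290Z.Orb

open Vale.Agent.P290.H726

namespace U3

/-- the cross product of a real vector and a complex vector -/
def cr (l : Fin 3 → ℝ) (c : Fin 3 → ℂ) : Fin 3 → ℂ :=
  ![l 1 * c 2 - l 2 * c 1, l 2 * c 0 - l 0 * c 2, l 0 * c 1 - l 1 * c 0]

theorem real_sec {a b : Fin 3 → ℝ} (h : a ⨯₃ b ≠ 0) : ∃ u v : Fin 3 → ℝ, ∀ p q : Fin 3 → ℝ,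
    ∃ l : Fin 3 → ℝ, p = (p ⬝ᵥ a) • u + l ⨯₃ a ∧
      q = (p ⬝ᵥ b + q ⬝ᵥ a) • u + (q ⬝ᵥ b) • v + l ⨯₃ b := by
  have hD : (a ⨯₃ b) ⬝ᵥ (a ⨯₃ b) ≠ 0 := fun h0 => h (dotProduct_self_eq_zero.1 h0)
  obtain ⟨r, hr⟩ : ∃ r, r * ((a ⨯₃ b) ⬝ᵥ (a ⨯₃ b)) = 1 := ⟨_, inv_mul_cancel₀ hD⟩
  refine ⟨r • (b ⨯₃ (a ⨯₃ b)), r • ((a ⨯₃ b) ⨯₃ a), fun p q => ⟨r • ((q ⬝ᵥ (a ⨯₃ b)) • a -
    (p ⬝ᵥ (a ⨯₃ b)) • b + (p ⬝ᵥ b) • (a ⨯₃ b)), ?_, ?_⟩⟩
  · funext j
    fin_cases j <;> simp [cross_apply, dotProduct, Fin.sum_univ_three, vecHead, vecTail] at hr ⊢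
    exacts [by linear_combination (-p 0) * hr, by linear_combination (-p 1) * hr,
      by linear_combination (-p 2) * hr]
  · funext j
    fin_cases j <;> simp [cross_apply, dotProduct, Fin.sum_univ_three, vecHead, vecTail] at hr ⊢
    exacts [by linear_combination (-q 0) * hr, by linear_combination (-q 1) * hr,
      by linear_combination (-q 2) * hr]

theorem sec {c : Fin 3 → ℂ} (hc : ∃ i j, (c i * star (c j)).im ≠ 0) :
    ∃ σ : ℂ × ℝ → Fin 3 → ℂ, Continuous σ ∧ ∀ z : Fin 3 → ℂ, ∃ l,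
      z = σ (∑ j, z j * c j, (∑ j, z j * star (c j)).re) + cr l c := by
  have h : (fun j => (c j).re) ⨯₃ (fun j => (c j).im) ≠ 0 := fun h0 => by
    obtain ⟨i, j, hij⟩ := hc
    have h1 := congrFun h0 0
    have h2 := congrFun h0 1
    have h3 := congrFun h0 2
    simp [cross_apply] at h1 h2 h3
    refine hij ?_
    fin_cases i <;> fin_cases j <;> simp <;> linarith
  obtain ⟨u, v, huv⟩ := real_sec h
  refine ⟨fun y j => ((y.2 + y.1.re) / 2 * u j : ℝ) +
    ((y.1.im * u j + (y.2 - y.1.re) / 2 * v j : ℝ) : ℂ) * Complex.I, by fun_prop, fun z => ?_⟩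
  obtain ⟨l, h1, h2⟩ := huv (fun j => (z j).re) fun j => (z j).im
  refine ⟨l, funext fun j => ?_⟩
  have h3 := congrFun h1 j
  have h4 := congrFun h2 j
  refine Complex.ext ?_ ?_ <;> fin_cases j <;>
    simp [cr, cross_apply, dotProduct, Fin.sum_univ_three] at h3 h4 ⊢ <;> linarith

variable {ι : Type} [Fintype ι] [DecidableEq ι] {G : Matrix ι ι ℤ} {e f : Fin 3 → ι → ℤ}

theorem star_ic (x : ι → ℤ) : star (ic x) = ic x := funext fun i => by simp [ic]

theorem bil_star (s t : ι → ℂ) : bil G (star s) (star t) = star (bil G s t) :=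
  Vale.Agent.P290.H726.bil_map G (starRingEnd ℂ) s t

theorem bil_pp (hs : ∀ i j, G i j = G j i) (F : Frame G e f) (s t : ι → ℂ) :
    bil G (prj G e f Finset.univ s) (prj G e f Finset.univ t) = bil G s t -
      ∑ j, (bil G s (ic (f j)) * bil G t (ic (e j)) + bil G s (ic (e j)) * bil G t (ic (f j))) := by
  rw [bil_symm G hs, bil_prj, Finset.sum_eq_zero fun j _ => ?_, sub_zero, bil_symm G hs, bil_prj]
  · simp only [bil_symm G hs _ t]
    rfl
  · rw [bil_symm G hs _ (prj G e f _ s), bil_symm G hs _ (prj G e f _ s), bil_prj_e hs F,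
      bil_prj_f F]
    simp

theorem prj_eich (F : Frame G e f) (j : Fin 3) (x t : ι → ℂ) (k : ℂ) :
    prj G e f Finset.univ (eich G (ic (e j)) x k t) =
      prj G e f Finset.univ t + bil G t (ic (e j)) • prj G e f Finset.univ x := by
  have h : prj G e f Finset.univ (ic (e j)) = 0 := prj_e F (Finset.mem_univ j)
  simp only [eich, prj_add, prj_sub, prj_smul, h, smul_zero, sub_zero]

end U3

open U3 in
theorem u3 : StU3 := by
  intro ι _ _ G e f s n hL hF hs hc hn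
  have hy := hL.symm
  obtain ⟨σ, hσ, hsec⟩ := sec hc
  set c : Fin 3 → ℂ := fun j => bil G s (ic (e j)) with hcd
  set π : (ι → ℂ) → ι → ℂ := prj G e f Finset.univ with hπ
  have cπ : Continuous π := continuous_prj
  let Z : Set (ι → ℂ) := {t | t ∈ Orb G s ∧ (∀ j, bil G t (ic (e j)) = c j) ∧ bil G t t = 0 ∧
    bil G t (star t) = bil G s (star s)}
  have hZ : IsClosed Z := by
    refine isClosed_orb.inter (IsClosed.inter ?_ ((isClosed_eq
      (continuous_bil continuous_id continuous_id) continuous_const).inter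
      (isClosed_eq (continuous_bil continuous_id continuous_star) continuous_const)))
    have h := isClosed_eq (f := fun t j => bil G t (ic (e j))) (g := fun _ => c)
      (continuous_pi fun j => continuous_bil continuous_id continuous_const) continuous_const
    simp only [funext_iff] at h
    exact h
  have st : ∀ j (x : ι → ℤ) (k : ℤ), (∀ i, bil G x (e i) = 0) → bil G x x = 2 * k →
      ∀ t ∈ Z, eich G (ic (e j)) (ic x) k t ∈ Z := by
    rintro j x k h0 hk t ⟨t1, t2, t3, t4⟩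
    obtain ⟨g, g1, g2, -⟩ := exists_eich hL (hF.ee j j) (h0 j) hk
    refine ⟨g2 t ▸ orb_act t1 g1, fun i => ?_, ?_, ?_⟩
    · rw [bil_eich, bil_ic, bil_ic, hF.ee, h0, t2]
      simp
    · rw [← g2, bil_act g1, t3]
    · rw [← g2, act_star, bil_act g1, t4]
  have ce : ∀ a b (m : ℤ), ∀ t ∈ Z, t + (m : ℂ) • (c a • ic (e b) - c b • ic (e a)) ∈ Z := by
    intro a b m t ht
    have h1 := st a (m • e b) 0 (fun i => by rw [bil_smul_left, hF.ee, mul_zero])
      (by simp only [bil_smul_left, bil_smul_right, hF.ee, mul_zero]) t ht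
    rw [eich, ic_smul, bil_smul_right, ht.2.1, ht.2.1] at h1
    refine (congrArg (· ∈ Z) ?_).mp h1
    push_cast
    module
  let Φ : (Fin 3 → ℝ) × (ι → ℂ) → ι → ℂ := fun p => p.2 + ∑ j, ((σ (-bil G p.2 p.2 / 2,
    ((bil G s (star s)).re - (bil G p.2 (star p.2)).re) / 2) + cr p.1 c) j • ic (e j) +
      c j • ic (f j))
  have hΦ : Continuous Φ := by
    have h1 : Continuous fun p : (Fin 3 → ℝ) × (ι → ℂ) => bil G p.2 p.2 :=
      continuous_bil continuous_snd continuous_snd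
    have h2 : Continuous fun p : (Fin 3 → ℝ) × (ι → ℂ) => bil G p.2 (star p.2) :=
      continuous_bil continuous_snd continuous_snd.star
    have h3 : Continuous fun p : (Fin 3 → ℝ) × (ι → ℂ) => cr p.1 c := by
      unfold cr
      fun_prop
    fun_prop
  have key : ∀ t ∈ Z, ∃ l, Φ (l, π t) = t := by
    rintro t ⟨-, t2, t3, t4⟩
    obtain ⟨l, hl⟩ := hsec fun j => bil G t (ic (f j))
    have h1 := bil_pp hy hF t t
    have h2 := bil_pp hy hF t (star t)
    have h3 : ∀ x, bil G (star t) (ic x) = star (bil G t (ic x)) := fun x => by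
      rw [← bil_star, star_ic]
    have h4 : prj G e f Finset.univ (star t) = star (π t) := prj_map (starRingEnd ℂ) t
    simp only [t2, t3, t4, h3, h4] at h1 h2
    have h5 : -bil G (π t) (π t) / 2 = ∑ j, bil G t (ic (f j)) * c j := by
      rw [h1]
      simp only [Fin.sum_univ_three]
      ring
    have h6 : ((bil G s (star s)).re - (bil G (π t) (star (π t))).re) / 2 =
        (∑ j, bil G t (ic (f j)) * star (c j)).re := by
      rw [h2]
      simp [Fin.sum_univ_three]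
      ring
    refine ⟨l, ?_⟩
    change _ = σ (∑ j, bil G t (ic (f j)) * c j, (∑ j, bil G t (ic (f j)) * star (c j)).re) +
      cr l c at hl
    simp only [Φ, h5, h6, ← hl]
    simp only [← t2]
    exact (decomp G e f Finset.univ t).symm
  let S : Set (ι → ℂ) := Prod.snd ''
    {p : Icc (0 : Fin 3 → ℝ) 1 × (ι → ℂ) | Φ (p.1, p.2) ∈ Z ∧ π (Φ (p.1, p.2)) = p.2}
  have hS : IsClosed S := isClosedMap_snd_of_compactSpace _
    ((hZ.preimage (by fun_prop)).inter (isClosed_eq (by fun_prop) (by fun_prop)))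
  have hm : ∀ t ∈ Z, π t ∈ S := fun t ht => by
    obtain ⟨l, hl⟩ := key t ht
    have h1 := ce 0 1 (-⌊l 2⌋) _ (ce 2 0 (-⌊l 1⌋) _ (ce 1 2 (-⌊l 0⌋) t ht))
    have h2 : Φ (fun j => Int.fract (l j), π t) = t +
        ((-⌊l 0⌋ : ℤ) : ℂ) • (c 1 • ic (e 2) - c 2 • ic (e 1)) +
        ((-⌊l 1⌋ : ℤ) : ℂ) • (c 2 • ic (e 0) - c 0 • ic (e 2)) +
        ((-⌊l 2⌋ : ℤ) : ℂ) • (c 0 • ic (e 1) - c 1 • ic (e 0)) := by
      nth_rewrite 2 [← hl]
      simp only [Φ, Fin.sum_univ_three, Pi.add_apply, cr, Int.fract, cons_val]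
      push_cast
      module
    refine ⟨(⟨fun j => Int.fract (l j), fun j => Int.fract_nonneg _,
      fun j => (Int.fract_lt_one _).le⟩, π t), ?_, rfl⟩
    show Φ (fun j => Int.fract (l j), π t) ∈ Z ∧ π (Φ (fun j => Int.fract (l j), π t)) = π t
    have h3 : ∀ j, prj G e f Finset.univ (ic (e j)) = 0 := fun j => prj_e hF (Finset.mem_univ j)
    rw [h2]
    exact ⟨h1, by simp only [hπ, prj_add, prj_smul, prj_sub, h3, smul_zero, sub_zero, add_zero]⟩
  obtain ⟨⟨l, _⟩, ⟨⟨t1, t2, t3, t4⟩, t6⟩, rfl⟩ : n ∈ S := by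
    refine closure_minimal ?_ hS hn
    rintro _ ⟨x, hx, rfl⟩
    have hk : ∀ j, ∃ k : ℤ, bil G (x j) (x j) = 2 * k := fun j =>
      (hL.even (x j)).imp fun k hk => by omega
    choose k hk using hk
    have h0 : ∀ j i, bil G (x j) (e i) = 0 := fun j i => (hx j i (Finset.mem_univ _)).1
    have h1 : ∀ j, prj G e f Finset.univ (ic (x j)) = ic (x j) := fun j => prj_cast_ort (hx j)
    have a0 := st 0 _ _ (h0 0) (hk 0) s ⟨mem_orb_self, fun _ => rfl, hs.1, rfl⟩
    have a1 := st 1 _ _ (h0 1) (hk 1) _ a0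
    have a2 := hm _ (st 2 _ _ (h0 2) (hk 2) _ a1)
    rw [hπ, prj_eich hF, a1.2.1, prj_eich hF, a0.2.1, prj_eich hF, h1, h1, h1] at a2
    rw [Fin.sum_univ_three, ← add_assoc, ← add_assoc]
    exact a2
  exact ⟨_, t1, ⟨t3, t4 ▸ hs.2⟩, t2, t6⟩

end Vale.Agent.P290Z.Orb
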