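import Vale.Agent.P290Z.Orb.Spec2
import Vale.Agent.P290Z.Orb.Kr
import Vale.Agent.P290Z.Orb.Fr
import Vale.Agent.P290Z.Orb.U2
import Vale.Agent.P290Z.Orb.U3
import Vale.Agent.P290Z.Orb.Ind
import Vale.Agent.P290Z.Orb.Hyp.Abs

/-! # P290Z, orbit closures of periods: the imaginary part is orthogonal to an isotropic plane -/

set_option linter.all false
set_option linter.unusedSectionVars false

open Set Filter Topology Matrix

noncomputable section

namespace Vale.Agent.P290Z.Orb

open Vale.Agent.P290.H726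

namespace Sit

/-- a triple with one real member which is not dense -/
theorem not_dns {c : Fin 3 → ℂ} {τ : ℝ} (h0 : (c 0).im = 0) (h0' : (c 0).re ≠ 0)
    (h2 : (c 2).im ≠ 0) (h1 : (c 1).im = τ * (c 2).im) (hτ : Irrational τ) (h : ¬ Dns c) :
    ∃ q : ℚ × ℚ, (c 1).re = τ * (c 2).re + (c 0).re * (q.1 + q.2 * τ) := by
  have hr : ∀ p q : ℚ, (p : ℝ) * τ + q = 0 → p = 0 := fun p q e => by
    by_contra hp
    have : (p : ℝ) ≠ 0 := by exact_mod_cast hp
    exact hτ ⟨-q / p, by push_cast; field_simp; linarith⟩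
  have hl : LinearIndependent ℚ c := by
    rw [Fintype.linearIndependent_iff]
    intro g hg
    have e1 := congrArg Complex.im hg
    have e2 := congrArg Complex.re hg
    simp only [Fin.sum_univ_three, Rat.smul_def, Complex.add_im, Complex.add_re, Complex.mul_im,
      Complex.mul_re, Complex.ratCast_re, Complex.ratCast_im, h0, h1, Complex.zero_im,
      Complex.zero_re] at e1 e2
    have g1 : g 1 = 0 := hr _ (g 2) (mul_right_cancel₀ h2 (by linarith))
    have g2 : g 2 = 0 := by
      have : (g 2 : ℝ) * (c 2).im = 0 := by simpa [g1] using e1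
      exact_mod_cast (mul_eq_zero.1 this).resolve_right h2
    have g0 : g 0 = 0 := by
      have : (g 0 : ℝ) * (c 0).re = 0 := by simpa [g1, g2] using e2
      exact_mod_cast (mul_eq_zero.1 this).resolve_right h0'
    intro i
    fin_cases i
    exacts [g0, g1, g2]
  obtain ⟨z, k, hz, hk⟩ := (kr.1 c hl).resolve_left h
  have k0 := hk 0
  have k1 := hk 1
  have k2 := hk 2
  simp only [Complex.mul_im, h0, h1] at k0 k1 k2
  have hk0 : (k 0 : ℝ) ≠ 0 := fun e => by
    have hv : z.im = 0 := (mul_eq_zero.1 (by linarith : z.im * (c 0).re = 0)).resolve_right h0'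
    have := hr (k 2) (-k 1) (by push_cast; rw [← k1, ← k2, hv]; ring)
    have h3 : (k 2 : ℝ) = 0 := by exact_mod_cast this
    have hu : z.re = 0 := (mul_eq_zero.1 (by rw [hv] at k2; linarith :
      z.re * (c 2).im = 0)).resolve_right h2
    exact hz (Complex.ext hu hv)
  refine ⟨(k 1 / k 0, -k 2 / k 0), ?_⟩
  push_cast
  field_simp
  rw [← k0, ← k1, ← k2]
  ring

theorem exists_not_mem (φ : ℚ × ℚ → ℝ) : ∃ θ, ∀ q, θ ≠ φ q := by
  obtain ⟨θ, hθ⟩ := ((countable_range φ).dense_compl ℝ).nonempty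
  exact ⟨θ, fun q e => hθ ⟨q, e.symm⟩⟩

variable {ι : Type} [Fintype ι] [DecidableEq ι] {G : Matrix ι ι ℤ} {e f : Fin 3 → ι → ℤ}
  {a b : ι → ℝ} {s t : ι → ℂ}

theorem HasGen.of_orb (h : HasGen G t) (ht : t ∈ Orb G s) : HasGen G s :=
  h.imp fun _ h => ⟨orb_trans ht h.1, h.2⟩

theorem val (a b : ι → ℝ) (x : ι → ℤ) : bil G (rc a + Complex.I • rc b) (ic x) =
    (bil G a (ir x) : ℝ) + Complex.I * (bil G b (ir x) : ℝ) := by
  rw [← rc_ir, bil_re_im]

/-- the coordinates of the points of the orbit closure with a given component in `N` -/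
def Tr (G : Matrix ι ι ℤ) (e f : Fin 3 → ι → ℤ) (s n : ι → ℂ) : Set (Fin 3 → ℂ) :=
  {c | ∃ t ∈ Orb G s, bil G t t = 0 ∧ bil G t (star t) = bil G s (star s) ∧
    (c, n) = (fun j => bil G t (ic (e j)), prj G e f Finset.univ t)}

theorem Tr.eich (hG : Lat G) (F : Frame G e f) {c : Fin 3 → ℂ} {n : ι → ℂ} (h : c ∈ Tr G e f s n)
    (j : Fin 3) {x : ι → ℤ} (hx : bil G x (e j) = 0) :
    (fun i => c i + c j * (bil G x (e i) : ℤ)) ∈
      Tr G e f s (n + c j • ic (prj G e f Finset.univ x)) := by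
  obtain ⟨t, t1, t2, t3, t4⟩ := h
  obtain ⟨rfl, rfl⟩ := Prod.ext_iff.1 t4
  obtain ⟨k, hk⟩ := hG.even x
  obtain ⟨g, g1, g2, -⟩ := exists_eich hG (F.ee j j) hx (k := k) (by omega)
  refine ⟨act g t, orb_act t1 g1, by rw [bil_act g1, t2], by rw [act_star, bil_act g1, t3], ?_⟩
  rw [g2, U3.prj_eich F, prj_ic]
  congr 1
  funext i
  rw [bil_eich, bil_ic, bil_ic, F.ee]
  simp

theorem elem (hG : Lat G) (F : Frame G e f) (n : ι → ℂ) : Elem (Tr G e f s n) := by
  intro c hc i j hij m
  have h := Tr.eich hG F hc i (x := m • f j) (by rw [bil_smul_left, F.fe hG.symm]; simp [hij.symm])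
  have h1 : prj G e f Finset.univ (m • f j) = 0 := by
    rw [prj_smul, show prj G e f Finset.univ (f j) = 0 from prj_f hG.symm F (Finset.mem_univ j),
      smul_zero]
  rw [h1, show ic (0 : ι → ℤ) = 0 from funext fun _ => Int.cast_zero, smul_zero, add_zero] at h
  convert h using 1
  funext l
  rw [bil_smul_left, F.fe hG.symm]
  rcases eq_or_ne l j with rfl | hl
  · simp [mul_comm]
  · simp [hl, hl.symm]

/-- the imaginary part is not rational on `N` -/
theorem case1 (hP : StProp) (hl : StGl) (hG : Lat G) (F : Frame G e f)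
    (hs : Per G (rc a + Complex.I • rc b)) (h0 : bil G b (ir (e 0)) = 0)
    (h1 : bil G b (ir (e 1)) = 0) (h2 : bil G b (ir (e 2)) ≠ 0)
    (hi : ∀ p q : ℤ, p * bil G a (ir (e 0)) + q * bil G a (ir (e 1)) = 0 → p = 0 ∧ q = 0)
    {x : ι → ℤ} (hx : Ort G e f Finset.univ x) {τ : ℝ} (hτ : Irrational τ)
    (hb : bil G b (ir x) = τ * bil G b (ir (e 2))) : HasGen G (rc a + Complex.I • rc b) := by
  set s := rc a + Complex.I • rc b with hsd
  set β := bil G b (ir (e 2)) with hβ
  have hxx : ((bil G x x : ℤ) : ℝ) ≠ 0 := Int.cast_ne_zero.2 fun h => by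
    rw [Fr.definite hG F hx h, show ir (0 : ι → ℤ) = 0 from funext fun _ => Int.cast_zero,
      bil_zero_right] at hb
    exact hτ.ne_zero ((mul_eq_zero.1 hb.symm).resolve_right h2)
  obtain ⟨θ, hθ⟩ := exists_not_mem fun q => (q.1 + q.2 * τ - bil G a (ir x)) / (bil G x x : ℤ)
  have hc : (![1, 0, β * Complex.I], θ • ir x) ∈ closure {p : (Fin 3 → ℂ) × (ι → ℝ) |
      p.1 ∈ Tr G e f s (prj G e f Finset.univ s) ∧ ∃ (r : ℝ) (y : ι → ℤ), p.1 1 = r ∧
        p.2 = r • ir y} := by
    refine Metric.mem_closure_iff.2 fun ε hε => ?_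
    obtain ⟨c, c1, -, c2, c3, -, c4⟩ := (hl _ (fun j => bil G s (ic (e j))) ε
      (elem hG F (prj G e f Finset.univ s)) ⟨s, mem_orb_self, hs.1, rfl, rfl⟩ hε).2
      (by simp [hsd, val, h0]) (by simp [hsd, val, h1]) fun p q hpq => hi p q (by
        simp only [hsd, val, h0, h1, Complex.ofReal_zero, mul_zero, add_zero] at hpq
        exact_mod_cast hpq)
    have c5 : (bil G s (ic (e 2))).im = β := by simp [hsd, val, hβ]
    have c6 : c 1 = ((c 1).re : ℝ) := Complex.ext rfl (by simp [c2])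
    have c7 : (c 1).re ≠ 0 := fun h => c3 (by rw [c6, h, Complex.ofReal_zero])
    have c8 : |(c 1).re| < ε := by
      have := (norm_le_pi_norm (c - ![1, 0, ((bil G s (ic (e 2))).im : ℂ) * Complex.I]) 1).trans_lt c4
      simp only [Pi.sub_apply, cons_val_one, cons_val_zero, sub_zero] at this
      exact (Complex.abs_re_le_norm _).trans_lt this
    refine ⟨(c, (c 1).re • ir fun i => round (θ * x i / (c 1).re)), ⟨c1, _, _, c6, rfl⟩, ?_⟩
    rw [Prod.dist_eq, max_lt_iff, dist_comm, dist_eq_norm, ← c5]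
    refine ⟨c4, (dist_pi_lt_iff hε).2 fun i => ?_⟩
    have h3 := abs_sub_round (θ * x i / (c 1).re)
    have h4 : θ * x i - (c 1).re * round (θ * x i / (c 1).re) =
        (c 1).re * (θ * x i / (c 1).re - round (θ * x i / (c 1).re)) := by field_simp
    simp only [Real.dist_eq, Pi.smul_apply, ir, smul_eq_mul, h4, abs_mul]
    nlinarith [abs_nonneg (c 1).re]
  obtain ⟨t, t1, t2, t3, t4, t5⟩ := hP ι G e f (Orb G s) (bil G s (star s)) ![1, 0, β * Complex.I]
    (prj G e f Finset.univ s + prj G e f Finset.univ (rc (θ • ir x))) hG F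
    ⟨isClosed_orb, fun g hg t ht => orb_act ht hg⟩ ⟨0, 2, by simpa using h2⟩
    (map_mem_closure (f := fun p : (Fin 3 → ℂ) × (ι → ℝ) =>
      (p.1, prj G e f Finset.univ s + prj G e f Finset.univ (rc p.2)))
      (continuous_fst.prodMk (continuous_const.add
        (continuous_prj.comp (continuous_rc.comp continuous_snd)))) hc (by
      rintro ⟨c, _⟩ ⟨c1, r, y, c2, rfl⟩
      have h3 := ort_prj hG.symm F (J := Finset.univ) y
      have h4 := Tr.eich hG F c1 1 (h3 1 (Finset.mem_univ _)).1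
      simp only [fun i => (h3 i (Finset.mem_univ _)).1, Int.cast_zero, mul_zero, add_zero] at h4
      rw [show prj G e f Finset.univ (prj G e f Finset.univ y) = prj G e f Finset.univ y from
        prj_cast_ort h3] at h4
      change c 1 = r at c2
      change c ∈ Tr G e f s (prj G e f Finset.univ s + prj G e f Finset.univ (rc (r • ir y)))
      rw [rc_smul, rc_ir, prj_smul, prj_ic, ← c2]
      exact h4))
  have t6 : bil G t (ic x) = bil G s (ic x) + θ * (bil G x x : ℤ) := by
    have := congrArg (fun y => bil G y (ic x)) t5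
    simp only [bil_add_left] at this
    rw [show bil G (prj G e f Finset.univ t) (ic x) = _ from bil_prj_ort hG.symm t hx,
      show bil G (prj G e f Finset.univ s) (ic x) = _ from bil_prj_ort hG.symm s hx,
      show bil G (prj G e f Finset.univ (rc (θ • ir x))) (ic x) = _ from
        bil_prj_ort hG.symm _ hx, rc_smul, rc_ir, bil_smul_left] at this
    exact this.trans (congrArg (_ + (θ : ℂ) * ·) (bil_ic x x))
  have hd : Dns ![1, bil G t (ic x), β * Complex.I] := by
    by_contra h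
    obtain ⟨q, hq⟩ := not_dns (τ := τ) (by simp) (by simp) (by simpa using h2)
      (by simp [t6, hsd, val, hb]) hτ h
    refine hθ q ?_
    simp [t6, hsd, val] at hq
    field_simp
    linarith
  refine ⟨t, t1, ⟨t2, t3 ▸ hs.2⟩, e 1, fun h => ?_, F.ee 1 1, by simp [t4], hd.mono ?_⟩
  · simpa [h, bil_zero_left] using F.ef 1 1
  · rintro _ ⟨m, rfl⟩
    refine ⟨m 0 • e 0 + m 1 • x + m 2 • e 2, ?_, ?_⟩
    · simp only [bil_add_left, bil_smul_left, F.ee, (hx 1 (Finset.mem_univ _)).1]
      simp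
    · simp only [ic_add, ic_smul, bil_add_right, bil_smul_right, t4, Fin.sum_univ_three]
      simp

/-- the imaginary part is rational on the complement of the first two planes -/
theorem case2 (hg : StGenPt) (hG : Lat G) (F : Frame G e f)
    (hs : Per G (rc a + Complex.I • rc b)) (h0 : bil G b (ir (e 0)) = 0)
    (h1 : bil G b (ir (e 1)) = 0) (h2 : bil G b (ir (e 2)) ≠ 0)
    (hi : ∀ p q : ℤ, p * bil G a (ir (e 0)) + q * bil G a (ir (e 1)) = 0 → p = 0 ∧ q = 0)
    {x : ι → ℤ} (hx : Ort G e f Finset.univ x) (hxx : bil G x x ≠ 0) {ρ : ℚ}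
    (hρ : bil G b (ir x) = ρ * bil G b (ir (e 2))) {τ : ℝ} (hτ : Irrational τ)
    (hb : bil G b (ir (f 1)) = τ * bil G b (ir (e 2))) : HasGen G (rc a + Complex.I • rc b) := by
  have hy := hG.symm
  set β := bil G b (ir (e 2)) with hβ
  obtain ⟨k, hk⟩ := hG.even x
  have hI : HypA.Ind (bil G a (ir (e 0))) (bil G a (ir (e 1))) := fun p q hpq => by
    have h3 : (p.den : ℝ) ≠ 0 := by exact_mod_cast p.den_nz
    have h4 : (q.den : ℝ) ≠ 0 := by exact_mod_cast q.den_nz
    have := hi (p.num * q.den) (q.num * p.den) (by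
      rw [Rat.cast_def, Rat.cast_def] at hpq
      field_simp at hpq
      push_cast
      linarith)
    simpa [p.den_nz, q.den_nz] using this
  have hx' := fun j => hx j (Finset.mem_univ j)
  obtain ⟨ξ, hξ⟩ : ∃ ξ : ι → ℤ, ξ = (ρ.den : ℤ) • x - ρ.num • e 2 := ⟨_, rfl⟩
  have x1 : Ort G e f {0, 1} ξ := fun j hj => by
    have : (2 : Fin 3) ≠ j := by rintro rfl; simp at hj
    simp only [hξ, bil_sub_left, bil_smul_left, hx', F.ee, F.ef, this]
    simp
  have x2 : bil G b (ir ξ) = 0 := by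
    rw [hξ, ir_sub, ir_smul, ir_smul, bil_sub_right, bil_smul_right, bil_smul_right, hρ,
      Rat.cast_def]
    have h3 : (ρ.den : ℝ) ≠ 0 := by exact_mod_cast ρ.den_nz
    push_cast
    field_simp
    ring
  have x3 : bil G ξ (e 2) = 0 := by
    simp only [hξ, bil_sub_left, bil_smul_left, hx', F.ee]
    simp
  have x4 : ((bil G ξ x : ℤ) : ℝ) ≠ 0 := by
    simp only [hξ, bil_sub_left, bil_smul_left, bil_symm G hy (e 2), hx']
    simp [hxx, ρ.den_nz]
  obtain ⟨θ, hθ⟩ := exists_not_mem fun q => (k * bil G a (ir (e 1)) - bil G a (ir x) +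
    ρ * bil G a (ir (e 2)) + bil G a (ir (e 0)) * (q.1 + q.2 * τ)) / (bil G ξ x : ℤ)
  obtain ⟨t, t1, t2, t3, t4, t5⟩ := u2 ι G e f a b (prj G e f {0, 1} a + θ • ir ξ)
    {t | rc t + Complex.I • rc b ∈ Orb G (rc a + Complex.I • rc b)} hG F
    (isClosed_orb.preimage (continuous_rc.add continuous_const)) mem_orb_self
    (fun j hj y l y1 y2 y3 t ht => by
      have h3 : bil G b (ir (e j)) = 0 := by
        fin_cases j
        exacts [h0, h1, absurd rfl hj]
      have := orb_eich hG (F.ee j j) y1 y2 ht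
      rwa [eich_re_im _ _ h3 y3] at this)
    (fun j hj => by
      fin_cases j
      exacts [h0, h1, absurd rfl hj]) ⟨0, by decide, hI.ne⟩
    (map_mem_closure (f := fun r : ℝ => prj G e f {0, 1} a + r • ir ξ) (by fun_prop) (hI.dense θ)
      (by
        rintro _ ⟨n, rfl⟩
        have h3 : ∀ m : ℤ, Ort G e f {0, 1} (m • ξ) := fun m j hj => by
          simp only [bil_smul_left, x1 j hj, mul_zero, and_self]
        have h4 : ∀ m : ℤ, bil G b (ir (m • ξ)) = 0 := fun m => by
          rw [ir_smul, bil_smul_right, x2, mul_zero]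
        refine ⟨_, _, h3 n.1, h3 n.2, h4 _, h4 _, ?_⟩
        simp only [ir_smul]
        module))
  have hp : Per G (rc t + Complex.I • rc b) := by
    rw [per_iff hy] at hs ⊢
    rwa [t4, t5]
  have t6 : bil G t (ir (e 2)) = bil G a (ir (e 2)) := by
    have := congrArg (fun y => bil G y (ir (e 2))) t3
    simp only [bil_add_left, bil_smul_left, bil_ir, x3] at this
    rw [show bil G (prj G e f {0, 1} t) (ir (e 2)) = _ from bil_prj_e hy F t 2,
      show bil G (prj G e f {0, 1} a) (ir (e 2)) = _ from bil_prj_e hy F a 2, if_neg (by decide),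
      if_neg (by decide), Int.cast_zero, mul_zero, add_zero] at this
    exact this
  have t7 : bil G t (ir x) = bil G a (ir x) + θ * (bil G ξ x : ℤ) := by
    have := congrArg (fun y => bil G y (ir x)) t3
    simp only [bil_add_left, bil_smul_left, bil_ir] at this
    rwa [show bil G (prj G e f {0, 1} t) (ir x) = bil G t (ir x) from
      bil_prj_ort hy t fun j _ => hx' j, show bil G (prj G e f {0, 1} a) (ir x) = bil G a (ir x) from
      bil_prj_ort hy a fun j _ => hx' j] at this
  have key : ∀ (y : ι → ℤ) (l : ℤ) (σ : ℚ), Ort G e f Finset.univ y → bil G y y = 2 * l →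
      bil G b (ir y) = σ * β → HasGen G (rc a + Complex.I • rc b) ∨ ∃ q : ℚ × ℚ,
        bil G t (ir (f 1)) + bil G t (ir y) - l * bil G a (ir (e 1)) =
          (τ + σ) * bil G a (ir (e 2)) + bil G a (ir (e 0)) * (q.1 + q.2 * (τ + σ)) := by
    intro y l σ y1 y2 y3
    refine or_iff_not_imp_left.2 fun hn => ?_
    have := not_dns (τ := τ + σ) (c := fun j => bil G (rc t + Complex.I • rc b)
      (ic (Function.update e 1 (f 1 + y - l • e 1) j))) (by simp [val, h0])
      (by simpa [val, t2] using hI.ne) (by simpa [val] using h2) (by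
        simp only [Function.update_self, val, ir_add, ir_sub, ir_smul, bil_add_right, bil_sub_right,
          bil_smul_right, h1, hb, y3]
        simp [val, ← hβ]
        ring) (hτ.add_ratCast σ)
      fun h => hn (HasGen.of_orb (hg ι G _ _ _ hG (F.swap hy 1 y1 y2) hp h) t1)
    simp only [Function.update_self, val, ir_add, ir_sub, ir_smul, bil_add_right, bil_sub_right,
      bil_smul_right] at this
    simpa [val, t2, t6] using this
  rcases key 0 0 0 (fun j _ => ⟨bil_zero_left _ _, bil_zero_left _ _⟩) (bil_zero_left _ _) (by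
    rw [show ir (0 : ι → ℤ) = 0 from funext fun _ => Int.cast_zero, bil_zero_right]; simp) with
    h | ⟨q, hq⟩
  · exact h
  rcases key x k ρ hx (by omega) hρ with h | ⟨q', hq'⟩
  · exact h
  refine absurd ?_ (hθ (q'.1 - q.1 + q'.2 * ρ, q'.2 - q.2))
  rw [show ir (0 : ι → ℤ) = 0 from funext fun _ => Int.cast_zero, bil_zero_right] at hq
  rw [t7] at hq'
  push_cast at hq ⊢
  field_simp
  linarith

end Sit

open Sit in
theorem sit2 (hP : StProp) (hl : StGl) (hg : StGenPt) : StSit2 := by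
  intro ι _ _ G e f s hG F hs hr him hi
  have hy := hG.symm
  obtain ⟨a, b, rfl⟩ : ∃ a b, s = rc a + Complex.I • rc b := ⟨_, _, (re_add_im s).symm⟩
  have h0 : bil G b (ir (e 0)) = 0 := by simpa [val] using him 0 (by decide)
  have h1 : bil G b (ir (e 1)) = 0 := by simpa [val] using him 1 (by decide)
  have hi' : ∀ p q : ℤ, p * bil G a (ir (e 0)) + q * bil G a (ir (e 1)) = 0 → p = 0 ∧ q = 0 :=
    fun p q h => hi p q (by
      simp only [val, h0, h1, Complex.ofReal_zero, mul_zero, add_zero]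
      exact_mod_cast h)
  obtain ⟨f1, -, x, -, hx, -, -, hxx, -⟩ := (fr ι G hG).2 e f F
  have h2 : bil G b (ir (e 2)) ≠ 0 := fun h => by
    have h3 := (per_iff hy a b).1 hs
    refine (f1 b fun j => ?_).not_gt (h3.1 ▸ h3.2.2)
    fin_cases j
    exacts [h0, h1, h]
  set β := bil G b (ir (e 2)) with hβ
  have hd : ∀ y, bil G b (ir y) = bil G b (ir y) / β * β := fun y => (div_mul_cancel₀ _ h2).symm
  by_cases c1 : ∃ y, Ort G e f Finset.univ y ∧ Irrational (bil G b (ir y) / β)
  · obtain ⟨y, y1, y2⟩ := c1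
    exact case1 hP hl hG F hs h0 h1 h2 hi' y1 y2 (hd y)
  have c1' : ∀ y, Ort G e f Finset.univ y → ∃ q : ℚ, bil G b (ir y) = q * β := fun y hy' => by
    obtain ⟨q, hq⟩ : ∃ q : ℚ, (q : ℝ) = bil G b (ir y) / β := not_not.1 fun h => c1 ⟨y, hy', h⟩
    exact ⟨q, by rw [hq, ← hd]⟩
  obtain ⟨ρ, hρ⟩ := c1' x hx
  have hx' := fun j => hx j (Finset.mem_univ j)
  by_cases c2 : Irrational (bil G b (ir (f 2)) / β)
  · obtain ⟨m, hm⟩ : ∃ m : ℤ, ρ - m * bil G x x ≠ 0 := by
      rcases eq_or_ne ρ 0 with h | h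
      · exact ⟨1, by simpa [h] using hxx⟩
      · exact ⟨0, by simpa using h⟩
    obtain ⟨k, hk⟩ := hG.even (m • x)
    have h3 : Ort G e f Finset.univ (m • x) := fun j _ => by
      simp only [bil_smul_left, hx', mul_zero, and_self]
    have h4 := c2.add_ratCast (m * ρ - k)
    have h5 : bil G b (ir (f 2 + m • x - k • e 2)) =
        (bil G b (ir (f 2)) / β + (m * ρ - k : ℚ)) * β := by
      simp only [ir_add, ir_sub, ir_smul, bil_add_right, bil_sub_right, bil_smul_right, hρ, ← hβ]
      push_cast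
      field_simp
      ring
    refine case1 hP hl hG (F.swap hy 2 h3 (k := k) (by omega)) hs h0 h1
      (by rw [Function.update_self, h5]; exact mul_ne_zero h4.ne_zero h2) hi'
      (x := x - (m * bil G x x) • e 2) (fun j _ => ?_)
      ((h4.inv).ratCast_mul hm) ?_
    · fin_cases j <;>
        simp [-zsmul_eq_mul, bil_sub_left, bil_smul_left, bil_add_right, bil_sub_right,
          bil_smul_right, hx', F.ee, F.ef, bil_symm G hy (e 2) x]
    · rw [Function.update_self, h5, ir_sub, ir_smul, bil_sub_right, bil_smul_right, hρ, ← hβ,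
        mul_assoc, inv_mul_cancel_left₀ h4.ne_zero]
      push_cast
      ring
  by_cases c3 : Irrational (bil G b (ir (f 1)) / β)
  · exact case2 hg hG F hs h0 h1 h2 hi' hx hxx hρ c3 (hd _)
  by_cases c4 : Irrational (bil G b (ir (f 0)) / β)
  · exact case2 hg hG (F.perm (Equiv.swap 0 1)) hs h1 h0 h2
      (fun p q h => (hi' q p (by rw [add_comm]; exact h)).symm) (fun j _ => hx' _) hxx hρ c4 (hd _)
  refine (Ind.no_rat hG hs hr (z := (β⁻¹ : ℝ)) (by simpa using h2) fun i => ?_).elim
  obtain ⟨y, hy'⟩ := Ind.exists_dual hG.unit (rc a + Complex.I • rc b) i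
  obtain ⟨q, hq⟩ := c1' _ (ort_prj hy F y)
  obtain ⟨q0, e0⟩ := not_not.1 c4
  obtain ⟨q1, e1⟩ := not_not.1 c3
  obtain ⟨q2, e2⟩ := not_not.1 c2
  rw [← hy', Complex.im_ofReal_mul, Ind.vl, val]
  have h3 := congrArg (bil G b) (decomp G e f Finset.univ (ir y))
  rw [prj_ir, bil_add_right, hq, bil_sum_right, Fin.sum_univ_three] at h3
  simp only [bil_add_right, bil_smul_right] at h3
  change bil G b (ir y) = q * β + ((bil G (ir y) (ir (f 0)) * bil G b (ir (e 0)) +
    bil G (ir y) (ir (e 0)) * bil G b (ir (f 0))) + (bil G (ir y) (ir (f 1)) * bil G b (ir (e 1)) +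
    bil G (ir y) (ir (e 1)) * bil G b (ir (f 1))) + (bil G (ir y) (ir (f 2)) * β +
    bil G (ir y) (ir (e 2)) * bil G b (ir (f 2)))) at h3
  rw [h0, h1, hd (f 0), hd (f 1), hd (f 2), ← e0, ← e1, ← e2] at h3
  simp only [bil_ir] at h3
  refine ⟨q + bil G y (e 0) * q0 + bil G y (e 1) * q1 + bil G y (f 2) + bil G y (e 2) * q2, ?_⟩
  simp only [Complex.add_im, Complex.ofReal_im, Complex.mul_im, Complex.I_re, Complex.I_im,
    Complex.ofReal_re, h3]
  push_cast
  field_simp
  ring

end Vale.Agent.P290Z.Orb
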