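import Vale.Agent.P290Z.Orb.Bridge
import Vale.Agent.P290Z.Orb.OrbA
import Vale.Agent.P290Z.Orb.OrbB
import Vale.Agent.P290Z.Orb.Cl
import Vale.Agent.P290Z.Orb.Prop
import Vale.Agent.P290Z.Orb.Ind2
import Vale.Agent.P290Z.Orb.Move
import Vale.Agent.P290Z.Orb.Conn
import Vale.Agent.P290Z.Orb.GenPt
import Vale.Agent.P290Z.Orb.Sit
import Vale.Agent.P290Z.Lat.Comp
import Vale.Agent.P290Z.Lat.Diag
import Vale.Agent.P290Z.Lat.Rec
import Vale.Agent.P290Z.Lat.Mod

/-! # P290Z, part III: the lattice is unique, and the orbits of periods are dense -/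

namespace Vale.Agent.P290Z.Orb

/-- density of the orbit of a period without rational vectors in its plane -/
theorem stOrbA : StOrbA :=
  orbA (ind2 kr) (sit2 prop gl (genPt fr prop gl)) (genPt fr prop gl) (move cl conn)

/-- uniqueness of the even unimodular lattice of signature `(3, 19)` -/
theorem stIso : Lat.StIso :=
  Lat.iso (Lat.hyp Lat.comp) (Lat.diag (Lat.hyp Lat.comp)) Lat.syl _root_.Vale.Agent.P290Z.Lat.rec

theorem stLatEich : Lat.StEich := latEich stIso Lat.model

theorem stLatOrbA : Lat.StOrbA := latOrbA stIso Lat.model stOrbA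

theorem stLatOrbB : Lat.StOrbB := latOrbB stIso Lat.model orbB

theorem stOrbC : Top.StOrbC := latOrbC stIso Lat.model (hyp2 fr u2)

end Vale.Agent.P290Z.Orb
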