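import Vale.Agent.P290Z.Orb.Spec2
import Vale.Agent.P290Z.Orb.Eich
import Vale.Agent.P290Z.Lat.Basic
import Vale.Agent.P290Z.Lat.Model
import Vale.Agent.P290Z.Spec3L

/-!
# P290Z, orbit closures of periods: the bridge to the statements of the lattice part
-/

set_option linter.all false

open Set Filter Topology Matrix

noncomputable section

namespace Vale.Agent.P290Z.Orb

open Vale.Agent.P290.H726

variable {ι : Type} [Fintype ι] [DecidableEq ι] {G g : Matrix ι ι ℤ}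

theorem lat_of (h : Lat.IsK3L G) : Lat G := by
  refine ⟨h.symm, h.even, h.unit, fun v hv => ?_, by rw [h.card]; norm_num⟩
  by_contra! hp
  obtain ⟨w, -, hw⟩ := h.sig
  let T : (Fin 4 → ℝ) →ₗ[ℝ] Fin 3 → ℝ := Matrix.mulVecLin (of fun j i => bil G (v i) (w j))
  obtain ⟨a, ha, h0⟩ := Submodule.exists_mem_ne_zero_of_ne_bot
    (LinearMap.ker_ne_bot_of_finrank_lt (f := T) (by simp))
  have h1 : bil G (∑ i, a i • v i) (∑ i, a i • v i) = ∑ i, a i ^ 2 * bil G (v i) (v i) := by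
    rw [bil_sum_left]
    refine Finset.sum_congr rfl fun i _ => ?_
    rw [bil_smul_left, bil_sum_right, Finset.sum_eq_single i (fun j _ hj => by
      rw [bil_smul_right, hv i j hj.symm, mul_zero]) (by simp), bil_smul_right]
    ring
  have h2 : 0 < bil G (∑ i, a i • v i) (∑ i, a i • v i) := by
    obtain ⟨i, hi⟩ := Function.ne_iff.1 h0
    rw [h1]
    exact Finset.sum_pos' (fun j _ => mul_nonneg (sq_nonneg _) (hp j).le)
      ⟨i, Finset.mem_univ i, mul_pos (sq_pos_of_ne_zero hi) (hp i)⟩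
  refine h2.not_gt (hw _ (fun h3 => h2.ne' (by rw [h3, bil_zero_left])) fun j => ?_)
  simpa [T, bil_sum_left, bil_smul_left, mulVec, dotProduct, mul_comm] using congrFun ha j

theorem frame_of (hI : Lat.StIso) (hM : Lat.StMod) (h : Lat.IsK3L G) : ∃ e f, Frame G e f := by
  obtain ⟨N, -, hN⟩ := hM
  obtain ⟨g, hg⟩ := hI _ _ G _ h hN
  refine ⟨fun j => Lat.act g (Pi.single (.inl j) 1), fun j => Lat.act g
    (Pi.single (.inr (.inl j)) 1), fun i j => ?_, fun i j => ?_, fun i j => ?_⟩ <;>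
    rw [hg.bil, Lat.bil_single] <;> rfl

theorem isom_iff : Lat.Isom G G g ↔ Isom G g := by
  refine ⟨fun h => ⟨?_, h.bil⟩, fun h => ⟨h.gram, h.inv.imp fun _ h => ⟨h.2.2, h.2.1⟩⟩⟩
  obtain ⟨k, hk, -⟩ := h.inv
  exact isUnit_det_of_right_inverse hk

theorem act_eq_lat (g : Matrix ι ι ℤ) (s : ι → ℂ) : Lat.act g s = act g s := rfl

theorem pt_eq_lat (v : ι → ℤ) (b : ι → ℝ) : Lat.pt v b = ic v + Complex.I • rc b := rfl

theorem per_iff_lat {s : ι → ℂ} : Lat.IsPer G s ↔ Per G s := Iff.rfl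

theorem irr_of {s : ι → ℂ} (h : Lat.NoInt s) : Irr s := by
  rintro v ⟨z, hz⟩
  refine h v (-Complex.I * z) (funext fun i => ?_)
  simp [Lat.cs, Lat.vre, ← hz]

theorem noInt_of {s : ι → ℂ} (h : Irr s) : Lat.NoInt s := fun x l hx =>
  h x ⟨Complex.I * l, fun i => by simpa [Lat.cs, Lat.vre, mul_assoc] using (congrFun hx i).symm⟩

theorem prim_of {v : ι → ℤ} (h : Lat.Prim G v) : Prim v := by
  rintro d y rfl
  obtain ⟨w, hw⟩ := h
  rw [bil_smul_left] at hw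
  exact IsUnit.of_mul_eq_one _ hw

theorem cl_eq (Fx : Set (ι → ℤ)) (s : ι → ℂ) : Lat.Cl G Fx s =
    closure {t | ∃ g, Isom G g ∧ (∀ v ∈ Fx, g *ᵥ v = v) ∧ t = act g s} := by
  simp only [← isom_iff]
  rfl

theorem exists_norm (hI : Lat.StIso) (hM : Lat.StMod) (h : Lat.IsK3L G) :
    ∃ e f, Frame G e f ∧ ∀ (v : ι → ℤ) (d : ℤ), Lat.Prim G v → bil G v v = 2 * d →
      ∃ g, Lat.Isom G G g ∧ Lat.act g v = d • e 2 + f 2 := by
  obtain ⟨e, f, F⟩ := frame_of hI hM h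
  exact ⟨e, f, F, fun v d hv hd => (eichler ι G e f (lat_of h) F v d (prim_of hv) hd).imp
    fun g hg => ⟨isom_iff.2 hg.1, hg.2⟩⟩

theorem latEich (hI : Lat.StIso) (hM : Lat.StMod) : Lat.StEich := by
  intro ι _ _ G h v v' hv hv' hn
  obtain ⟨e, f, -, hE⟩ := exists_norm hI hM h
  obtain ⟨d, hd⟩ := h.even v
  obtain ⟨g, g1, g2⟩ := hE v d hv (by omega)
  obtain ⟨g', g1', g2'⟩ := hE v' d hv' (by omega)
  obtain ⟨k, k1, -, -, -, k2⟩ := g1'.symm
  exact ⟨k * g, k1.comp g1, by rw [Lat.act_mul, g2, ← g2', k2]⟩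

theorem latOrbA (hI : Lat.StIso) (hM : Lat.StMod) (hA : StOrbA) : Lat.StOrbA := by
  intro ι _ _ G h s p hs _ hn h1 h2
  obtain ⟨e, f, F⟩ := frame_of hI hM h
  have h3 : bil G p (star p) = bil G s (star s) := h2
  rw [cl_eq]
  refine closure_mono ?_ (hA ι G e f s p (lat_of h) F hs (irr_of hn) ⟨h1, h3 ▸ hs.2⟩ h3)
  rintro _ ⟨g, hg, rfl⟩
  exact ⟨g, hg, fun _ h => h.elim, rfl⟩

theorem latOrbB (hI : Lat.StIso) (hM : Lat.StMod) (hB : StOrbB) : Lat.StOrbB := by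
  intro ι _ _ G h v b b' hv hs hn hp
  obtain ⟨e, f, F⟩ := frame_of hI hM h
  rw [cl_eq]
  refine closure_mono ?_ (hB ι G e f v b b' (lat_of h) F (prim_of hv) hs hn hp)
  rintro _ ⟨g, hg, h1, rfl⟩
  exact ⟨g, hg, fun _ h => h ▸ h1, rfl⟩

theorem latOrbC (hI : Lat.StIso) (hM : Lat.StMod) (hH : StHyp2) : Top.StOrbC := by
  intro ι _ _ G h v b b' hv hs hn hp
  obtain ⟨e, f, F, hE⟩ := exists_norm hI hM h
  obtain ⟨d, hd⟩ := h.even v
  obtain ⟨g, g1, g2⟩ := hE v d hv (by omega)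
  obtain ⟨k, k1, -, -, -, k2⟩ := g1.symm
  obtain ⟨s1, s2, s3⟩ := (Lat.isPer_pt_iff h.symm v b).1 hs
  obtain ⟨p1, p2, -⟩ := (Lat.isPer_pt_iff h.symm v b').1 hp
  have h1 : ∀ a : ι → ℝ, bil G (Lat.cs ℝ v) a = 0 →
      bil G (Lat.act g a) (ir (d • e 2 + f 2)) = 0 := fun a ha => by
    rw [← g2, bil_symm G h.symm, ← ha, ← g1.bil (Lat.cs ℝ v), Lat.act_cs]
    rfl
  have h2 : ∀ a : ι → ℝ, ((bil G v v : ℤ) : ℝ) = bil G a a →
      bil G (Lat.act g a) (Lat.act g a) = 2 * d := fun a ha => by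
    rw [g1.bil, ← ha, hd]
    push_cast
    ring
  have h3 := hH ι G e f d {t | Lat.pt (d • e 2 + f 2) t ∈ Lat.Cl G ∅ (Lat.pt v b)} (Lat.act g b)
    (Lat.act g b') (lat_of h) F (by omega)
    ((Lat.isClosed_cl _ _ _).preimage (f := Lat.pt (d • e 2 + f 2))
      (continuous_const.add (Lat.continuous_cr.const_smul Complex.I)))
    (fun g' hg' hv' t ht => by
      have h4 := Lat.Cl.act' ht (isom_iff.2 hg')
      rwa [Lat.act_pt, Lat.act_int, hv'] at h4)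
    (by
      have h4 := Lat.Cl.act' (Lat.self_mem_cl G ∅ (Lat.pt v b)) g1
      rwa [Lat.act_pt, g2] at h4) (h1 b s2) (h2 b s1) (h1 b' p2) (h2 b' p1)
    fun r x hx => hn r (Lat.act k x) (by
      rw [← Lat.act_cs, show Lat.cs ℝ x = _ from hx.symm, Lat.act_smul, k2])
  have h5 := Lat.Cl.act' h3 k1
  rwa [← g2, ← Lat.act_pt, k2] at h5

end Vale.Agent.P290Z.Orb
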