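import Vale.Agent.P290Z.Orb.UC
import Vale.Agent.P290Z.Orb.Basic

/-!
# P290Z, block (C): the orbits of the generic periods of the Kummer lattice are dense
-/

set_option linter.all false

open Set Filter Topology Matrix

noncomputable section

namespace Vale.Agent.P290Z.Orb

open Vale.Agent.P290.H726

namespace CAux

theorem dense_ne {E : Type} [NormedAddCommGroup E] [NormedSpace ℂ E] {F : E → ℂ}
    (hF : Differentiable ℂ F) {x₁ : E} (h : F x₁ ≠ 0) : Dense {x | F x ≠ 0} := by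
  intro x₀
  by_contra hn
  rw [mem_closure_iff_frequently, not_frequently] at hn
  have hg : Differentiable ℂ fun t : ℂ => F (x₀ + t • (x₁ - x₀)) := by fun_prop
  have h1 : Tendsto (fun t : ℂ => x₀ + t • (x₁ - x₀)) (𝓝 0) (𝓝 x₀) :=
    Continuous.tendsto' (by fun_prop) _ _ (by simp)
  have := (hg.differentiableOn.analyticOnNhd isOpen_univ
    ).eqOn_zero_of_preconnected_of_eventuallyEq_zero isPreconnected_univ (mem_univ 0)
    ((h1.eventually hn).mono fun t ht => not_not.1 ht) (mem_univ 1)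
  exact h (by simpa using this)

theorem all_zero (j : Fin 3) (α β : Fin 3 → ℂ)
    (h : ∀ a b : Fin 3 → ℂ, b j * ∑ i, (a i * α i + b i * β i) - (∑ i, a i * b i) * α j = 0)
    (i : Fin 3) : α i = 0 ∧ β i = 0 := by
  have h1 : β j = 0 := by simpa [Pi.single_apply] using h 0 (Pi.single j 1)
  obtain ⟨k, hk⟩ := exists_ne j
  have h2 : α j = 0 := by
    simpa [Pi.single_apply, hk.symm] using h (Pi.single k 1) (Pi.single k 1)
  by_cases hi : i = j
  · exact hi ▸ ⟨h2, h1⟩
  · constructor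
    · have := h (Pi.single i 1) (Pi.single j 1)
      simpa [Pi.single_apply, Finset.sum_add_distrib, h1, h2] using this
    · have := h 0 (Pi.single j 1 + Pi.single i 1)
      simpa [Pi.single_apply, Finset.sum_add_distrib, add_mul, h1, h2, Ne.symm hi] using this

variable {ι : Type} [Fintype ι] [DecidableEq ι] {G : Matrix ι ι ℤ} {u w f : Fin 3 → ι → ℤ}

/-- the correction which makes a vector isotropic -/
def iso (G : Matrix ι ι ℤ) (a q : ι → ℂ) : ι → ℂ := q - (bil G q q / (2 * bil G q a)) • a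

theorem iso_of {a q : ι → ℂ} (h : bil G q q = 0) : iso G a q = q := by simp [iso, h]

theorem bil_iso (a q y : ι → ℂ) :
    bil G (iso G a q) y = bil G q y - bil G q q / (2 * bil G q a) * bil G a y := by
  rw [iso, bil_sub_left, bil_smul_left]

theorem iso_iso (hs : ∀ i j, G i j = G j i) {a q : ι → ℂ} (ha : bil G a a = 0)
    (h : bil G q a ≠ 0) : bil G (iso G a q) (iso G a q) = 0 := by
  rw [bil_iso, bil_symm G hs q, bil_symm G hs a, bil_iso, bil_iso, ha, bil_symm G hs a q]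
  field_simp
  ring

theorem isOpen_iso (a : ι → ℂ) (g : Matrix ι ι ℤ) {O : Set (ι → ℂ)} (hO : IsOpen O) :
    IsOpen ({q | bil G q a ≠ 0} ∩ (fun q => act g (iso G a q)) ⁻¹' O) := by
  refine ContinuousOn.isOpen_inter_preimage ((continuous_act g).comp_continuousOn ?_)
    (isOpen_ne_fun (by fun_prop) (by fun_prop)) hO
  exact continuousOn_id.sub (ContinuousOn.smul (ContinuousOn.div (by fun_prop) (by fun_prop)
    fun q hq => mul_ne_zero two_ne_zero hq) continuousOn_const)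

theorem step (hL : Lat G) (hf : Frame G u f) (k : Fin 3) {x : ι → ℤ} (hx : Ort G u f Finset.univ x)
    (t : ι → ℂ) : ∃ g, Isom G g ∧ (∀ i, bil G (act g t) (ic (u i)) = bil G t (ic (u i))) ∧
      UC.prjL G u f Finset.univ (act g t) =
        UC.prjL G u f Finset.univ t - bil G t (ic (u k)) • ic x := by
  obtain ⟨n, hn⟩ := hL.even x
  obtain ⟨g, h1, h2, -⟩ := exists_eich hL (e := u k) (x := -x) (k := n) (hf.ee k k)
    (by rw [bil_neg_left, (hx k (Finset.mem_univ _)).1, neg_zero])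
    (by rw [bil_neg_left, bil_neg_right, neg_neg, hn, two_mul])
  refine ⟨g, h1, fun i => ?_, ?_⟩
  · simp [h2, bil_eich, bil_ic, hf.ee, bil_neg_left, (hx i (Finset.mem_univ _)).1]
  · rw [h2, ic_neg]
    refine (UC.prj_eich hL.symm hf (Finset.mem_univ k) _ _ _).trans ?_
    rw [map_neg, smul_neg, ← sub_eq_add_neg]
    exact congrArg (fun y => _ - _ • y) (UC.prj_ort hx)

/-- the span of the Kummer lattice -/
def par (u w : Fin 3 → ι → ℤ) (θ : (Fin 3 → ℂ) × (Fin 3 → ℂ)) : ι → ℂ :=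
  ∑ i, (θ.1 i • ic (u i) + θ.2 i • ic (w i))

theorem bil_par (θ : (Fin 3 → ℂ) × (Fin 3 → ℂ)) (y : ι → ℂ) : bil G (par u w θ) y =
    ∑ i, (θ.1 i * bil G (ic (u i)) y + θ.2 i * bil G (ic (w i)) y) := by
  simp only [par, bil_sum_left, bil_add_left, bil_smul_left]

theorem par_u (hs : ∀ i j, G i j = G j i) (hU : Kum G u w) (θ : (Fin 3 → ℂ) × (Fin 3 → ℂ))
    (j : Fin 3) : bil G (par u w θ) (ic (u j)) = 2 * θ.2 j := by
  simp [bil_par, bil_ic, hU.uu, bil_symm G hs (w _) (u j), hU.uw, mul_comm]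

theorem par_w (hU : Kum G u w) (θ : (Fin 3 → ℂ) × (Fin 3 → ℂ)) (j : Fin 3) :
    bil G (par u w θ) (ic (w j)) = 2 * θ.1 j := by
  simp [bil_par, bil_ic, hU.ww, hU.uw, mul_comm]

theorem par_par (hs : ∀ i j, G i j = G j i) (hU : Kum G u w) (θ : (Fin 3 → ℂ) × (Fin 3 → ℂ)) :
    bil G (par u w θ) (par u w θ) = 4 * ∑ i, θ.1 i * θ.2 i := by
  rw [bil_par, Finset.mul_sum]
  refine Finset.sum_congr rfl fun i _ => ?_
  rw [bil_symm G hs (ic (u i)), bil_symm G hs (ic (w i)), par_u hs hU, par_w hU]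
  ring

theorem generic (hs : ∀ i j, G i j = G j i) (hU : Kum G u w) (j : Fin 3) :
    Dense {θ | ∀ x : ι → ℤ, bil G (par u w θ) (ic (u j)) ≠ 0 →
      bil G (iso G (ic (u j)) (par u w θ)) (ic x) = 0 →
      ∀ i, bil G x (u i) = 0 ∧ bil G x (w i) = 0} := by
  let F : (ι → ℤ) → (Fin 3 → ℂ) × (Fin 3 → ℂ) → ℂ := fun x θ =>
    θ.2 j * ∑ i, (θ.1 i * bil G x (u i) + θ.2 i * bil G x (w i)) -
      (∑ i, θ.1 i * θ.2 i) * bil G x (u j)
  have hF : ∀ x, Differentiable ℂ (F x) := fun x => by fun_prop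
  refine (dense_iInter_of_isOpen (f := fun x : {x : ι → ℤ // ∃ θ, F x θ ≠ 0} => {θ | F x θ ≠ 0})
    (fun x => isOpen_ne_fun (hF x).continuous continuous_const)
    fun x => dense_ne (hF x) x.2.choose_spec).mono fun θ hθ x h1 h2 i => ?_
  by_cases hx : ∃ θ, F x θ ≠ 0
  · refine absurd ?_ (mem_iInter.1 hθ ⟨x, hx⟩)
    rw [bil_iso, par_par hs hU, bil_par θ (ic x), par_u hs hU] at h2
    rw [par_u hs hU] at h1
    have h3 : θ.2 j ≠ 0 := right_ne_zero_of_mul h1
    simp only [bil_ic, bil_symm G hs _ x] at h2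
    field_simp at h2
    simp only [F]
    linear_combination h2 / 4
  · push Not at hx
    have := all_zero j (fun i => (bil G x (u i) : ℤ)) (fun i => (bil G x (w i) : ℤ))
      (fun a b => hx (a, b)) i
    exact_mod_cast this

end CAux

open CAux

theorem orbC (hK : StKr) (hF : StFr) : StC := by
  intro ι _ _ G u w p hL hU hp
  have hs := hL.symm
  obtain ⟨f, hf⟩ := (hF ι G hL).1 u w hU
  obtain ⟨j, hj⟩ : ∃ j, bil G p (ic (u j)) ≠ 0 := by
    by_contra hn
    push Not at hn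
    have h1 := ((hF ι G hL).2 u f hf).1 (fun i => (p i).re) fun j => by
      rw [← bil_re, rc_ir, hn, Complex.zero_re]
    rw [← re_add_im p, per_iff hs] at hp
    exact h1.not_gt hp.2.2
  have uj : ∀ i, bil G (ic (u j)) (ic (u i)) = 0 := fun i => by rw [bil_ic, hU.uu, Int.cast_zero]
  refine mem_closure_iff.2 fun O hO hpO => ?_
  have hO' : IsOpen (O ∩ {t | 0 < (bil G t (star t)).re}) :=
    hO.inter (isOpen_lt continuous_const (by fun_prop))
  have hV := isOpen_iso (G := G) (ic (u j)) 1 hO'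
  simp only [act_one] at hV
  set π : (ι → ℂ) →ₗ[ℂ] ι → ℂ := UC.prjL G u f Finset.univ with hπ
  have πu : ∀ t i, bil G (π t) (ic (u i)) = 0 := fun t i =>
    UC.bil_prj_e hs hf (Finset.mem_univ i) t
  obtain ⟨c, hc, h1⟩ := hK.2.exists_mem_open (hV.preimage (f := fun c : Fin 3 → ℂ =>
    p + ∑ k, (c k - bil G p (ic (u k))) • ic (f k)) (by fun_prop))
    ⟨fun k => bil G p (ic (u k)), by simpa [iso_of hp.1] using ⟨hj, hpO, hp.2⟩⟩
  set q₁ := p + ∑ k, (c k - bil G p (ic (u k))) • ic (f k) with hq₁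
  have c1 : ∀ i, bil G q₁ (ic (u i)) = c i := fun i => by
    simp [hq₁, bil_add_left, bil_sum_left, bil_smul_left, bil_ic, hf.fe hs]
  set W := par u w (0, fun k => c k / 2) with hW
  obtain ⟨z, h2⟩ := (DenseRange.piMap fun _ : ι => hc).exists_mem_open
    (hV.preimage (f := fun v => q₁ + π (v - (q₁ - W))) (by fun_prop)) ⟨q₁ - W, by simpa using h1⟩
  have ez : (Pi.map (fun (_ : ι) (m : Fin 3 → ℤ) => ∑ j, (m j : ℂ) * c j) z) =
      ∑ k, c k • ic fun i => z i k := funext fun i => by simp [ic, Finset.sum_apply, mul_comm]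
  rw [mem_preimage, ez] at h2
  set q₂ := q₁ + π (∑ k, c k • ic (fun i => z i k) - (q₁ - W)) with hq₂
  let x : Fin 3 → ι → ℤ := fun k => UC.prjL G u f Finset.univ fun i => z i k
  have hx : ∀ k, Ort G u f Finset.univ (x k) := fun k => UC.ort_prj hs hf _
  set p₂ := iso G (ic (u j)) q₂ with hp₂
  have c2 : ∀ i, bil G p₂ (ic (u i)) = c i := fun i => by
    rw [hp₂, bil_iso, uj, hq₂, bil_add_left, πu, c1]
    simp
  have π2 : π p₂ = π W + ∑ k, c k • ic (x k) := by
    have k1 : π (ic (u j)) = 0 := UC.prj_e hs hf (Finset.mem_univ j)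
    have k2 : ∀ t, π (π t) = π t := UC.prj_prj hs hf
    have k3 : ∀ k, π (ic fun i => z i k) = ic (x k) := fun k => UC.prj_cs _
    rw [hp₂, iso, map_sub, map_smul, k1, smul_zero, sub_zero, hq₂, map_add, k2]
    simp only [map_sub, map_smul, map_sum, k3]
    abel
  have P2 : Per G p₂ := ⟨iso_iso hs (uj j) h2.1, h2.2.2⟩
  obtain ⟨g₀, a0, b0, d0⟩ := step hL hf 0 (hx 0) p₂
  obtain ⟨g₁, a1, b1, d1⟩ := step hL hf 1 (hx 1) (act g₀ p₂)
  obtain ⟨g₂, a2, b2, d2⟩ := step hL hf 2 (hx 2) (act g₁ (act g₀ p₂))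
  rw [d1, d0, ← hπ, π2] at d2
  simp only [b1, b0, c2, Fin.sum_univ_three] at b2 d2
  rw [← act_mul, ← act_mul] at b2 d2
  have hh := (a2.mul a1).mul a0
  obtain ⟨g, hg, g1, g2⟩ := hh.inv
  set q₃ := act (g₂ * g₁ * g₀) p₂ with hq₃
  have e3 : par u w (fun k => bil G (q₃ - W) (ic (f k)), fun k => c k / 2) = q₃ := by
    have k1 : π (q₃ - W) = 0 := by
      rw [map_sub, d2]
      abel
    have k2 : ∀ k, bil G (q₃ - W) (ic (u k)) = 0 := fun k => by
      rw [bil_sub_left, b2, hW, par_u hs hU]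
      ring
    have k3 : q₃ - W = ∑ k, (bil G (q₃ - W) (ic (f k)) • ic (u k) +
      bil G (q₃ - W) (ic (u k)) • ic (f k)) := sub_eq_zero.1 k1
    rw [eq_comm, ← sub_add_cancel q₃ W]
    nth_rewrite 1 [k3]
    simp only [k2]
    simp [hW, par, Finset.sum_add_distrib]
  obtain ⟨θ, t1, t2, t3, t4⟩ := (generic hs hU j).exists_mem_open
    ((isOpen_iso (G := G) (ic (u j)) g hO').preimage (f := par u w) (by unfold par; fun_prop))
    ⟨_, by
      rw [mem_preimage, e3]
      refine ⟨?_, ?_⟩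
      · show bil G q₃ (ic (u j)) ≠ 0
        have k : bil G q₂ (ic (u j)) ≠ 0 := h2.1
        rwa [hq₂, bil_add_left, πu, add_zero, c1, ← b2] at k
      · rw [mem_preimage, iso_of (P2.act hh).1, ← act_mul, g1, act_one]
        exact h2.2⟩
  refine ⟨_, t3, g, _, hg, ?_, ⟨θ.1 - Pi.single j (bil G (par u w θ) (par u w θ) /
    (2 * bil G (par u w θ) (ic (u j)))), θ.2, ?_⟩, fun x => t1 x t2, rfl⟩
  · have := Per.act (G := G) ⟨by rw [bil_act hg, iso_iso hs (uj j) t2], t4⟩ hh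
    rwa [← act_mul, g2, act_one] at this
  · rw [iso]
    generalize bil G (par u w θ) (par u w θ) / (2 * bil G (par u w θ) (ic (u j))) = a
    simp [par, sub_smul, Finset.sum_add_distrib, Pi.single_apply]
    abel

end Vale.Agent.P290Z.Orb
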