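import Vale.Agent.P290Z.Orb.Spec2
import Vale.Agent.P290Z.Orb.Hyp.Abs

/-!
# P290Z, step GL: elementary moves of triples of complex numbers
-/

set_option linter.all false

open Set Filter Topology Matrix

noncomputable section

namespace Vale.Agent.P290Z.Orb

namespace GlA

/-- Euclid's algorithm -/
theorem euc {T : ℂ → ℂ → Prop} (h1 : ∀ x y (m : ℤ), T x y → T (x + m * y) y)
    (h2 : ∀ x y (m : ℤ), T x y → T x (y + m * x)) (n : ℕ) : ∀ (p q : ℤ) x y, p.natAbs = n → T x y →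
    ∃ x' y', ∃ g : ℤ, T x' y' ∧ g * y' = p * x + q * y := by
  have rot : ∀ u v, T u v → T v (-u) := fun u v h => by
    have := h1 _ _ 1 (h2 _ _ (-1) (h1 _ _ 1 h))
    rwa [show v + ((-1 : ℤ) : ℂ) * (u + ((1 : ℤ) : ℂ) * v) = -u by push_cast; ring,
      show u + ((1 : ℤ) : ℂ) * v + ((1 : ℤ) : ℂ) * -u = v by push_cast; ring] at this
  induction n using Nat.strong_induction_on with
  | _ n ih =>
  intro p q x y hn h
  rcases eq_or_ne p 0 with rfl | hp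
  · exact ⟨x, y, q, h, by simp⟩
  · obtain ⟨x', y', g, h3, h4⟩ := ih (q % p).natAbs (by
      have h5 := Int.emod_lt_abs q hp
      have h6 := Int.emod_nonneg q hp
      rw [Int.abs_eq_natAbs] at h5
      generalize q % p = r at h5 h6
      omega) (q % p) (-p) _ _ rfl (rot _ _ (h1 _ _ (q / p) h))
    refine ⟨x', y', g, h3, h4.trans ?_⟩
    have h5 : ((q % p : ℤ) : ℂ) = q - p * (q / p : ℤ) := by exact_mod_cast Int.emod_def q p
    rw [h5]
    push_cast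
    ring

theorem norm_le_of {g : ℤ} {y : ℂ} (h : (g : ℂ) * y ≠ 0) : y ≠ 0 ∧ ‖y‖ ≤ ‖(g : ℂ) * y‖ := by
  refine ⟨right_ne_zero_of_mul h, ?_⟩
  have h1 : g ≠ 0 := by exact_mod_cast left_ne_zero_of_mul h
  rw [norm_mul, Complex.norm_intCast]
  exact le_mul_of_one_le_left (norm_nonneg _) (by exact_mod_cast Int.one_le_abs h1)

variable {S : Set (Fin 3 → ℂ)} {x y z : ℂ} {δ : ℝ}

theorem mv (h : Elem S) (hc : ![x, y, z] ∈ S) (m : ℤ) :
    ![x + m * y, y, z] ∈ S ∧ ![x + m * z, y, z] ∈ S ∧ ![x, y + m * x, z] ∈ S ∧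
      ![x, y + m * z, z] ∈ S ∧ ![x, y, z + m * x] ∈ S ∧ ![x, y, z + m * y] ∈ S := by
  have u0 : ∀ v, Function.update ![x, y, z] 0 v = ![v, y, z] := fun v => by
    funext j; fin_cases j <;> simp
  have u1 : ∀ v, Function.update ![x, y, z] 1 v = ![x, v, z] := fun v => by
    funext j; fin_cases j <;> simp
  have u2 : ∀ v, Function.update ![x, y, z] 2 v = ![x, y, v] := fun v => by
    funext j; fin_cases j <;> simp
  exact ⟨u0 _ ▸ h _ hc 1 0 (by decide) m, u0 _ ▸ h _ hc 2 0 (by decide) m,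
    u1 _ ▸ h _ hc 0 1 (by decide) m, u1 _ ▸ h _ hc 2 1 (by decide) m,
    u2 _ ▸ h _ hc 0 2 (by decide) m, u2 _ ▸ h _ hc 1 2 (by decide) m⟩

theorem eta (c : Fin 3 → ℂ) : c = ![c 0, c 1, c 2] := by
  funext j; fin_cases j <;> rfl

theorem elem_dns (h : Elem S) : Elem {c | c ∈ S ∧ Dns c} := fun c hc a b hab m =>
  ⟨h c hc.1 a b hab m, hc.2.of_subset fun j => by
    rcases eq_or_ne j b with rfl | hj
    · exact ⟨Pi.single j 1 - Pi.single a m, by
        simp [Pi.single_apply, sub_mul, Finset.sum_sub_distrib, hab]⟩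
    · exact ⟨Pi.single j 1, by simp [Pi.single_apply, hj]⟩⟩

theorem elem_smul (h : Elem S) (v : ℂ) : Elem {c | v • c ∈ S} := fun c hc a b hab m => by
  have e : v • Function.update c b (c b + m * c a)
      = Function.update (v • c) b ((v • c) b + m * (v • c) a) := by
    funext j
    rcases eq_or_ne j b with rfl | hj
    · simp only [Pi.smul_apply, Function.update_self, smul_eq_mul]
      ring
    · simp only [Pi.smul_apply, Function.update_of_ne hj]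
  exact mem_setOf.2 (e ▸ h _ hc a b hab m)

theorem dns_smul {c : Fin 3 → ℂ} (h : Dns c) {w : ℂ} (hw : w ≠ 0) : Dns (w • c) := by
  have h1 := (mul_left_surjective₀ hw).denseRange.comp h (continuous_const.mul continuous_id)
  have e : (fun m : Fin 3 → ℤ => ∑ j, (m j : ℂ) * (w • c) j)
      = (fun a => w * a) ∘ fun m : Fin 3 → ℤ => ∑ j, (m j : ℂ) * c j := funext fun m => by
    simp only [Function.comp, Finset.mul_sum, Pi.smul_apply, smul_eq_mul, mul_left_comm]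
  rw [Dns, e]
  exact h1

theorem norm_vec {ε : ℝ} (h0 : ‖x‖ < ε) (h1 : ‖y‖ < ε) (h2 : ‖z‖ < ε) : ‖![x, y, z]‖ < ε :=
  (pi_norm_lt_iff ((norm_nonneg _).trans_lt h0)).2 fun j => by fin_cases j <;> assumption

theorem red (a u : ℝ) {b : ℝ} (hb : b ≠ 0) (h : |b| < δ) : ∃ n : ℤ, |a + n * b - u| < δ := by
  obtain ⟨n, hn⟩ := HypA.exists_red (a - u) hb
  refine ⟨n, ?_⟩
  rw [add_sub_right_comm]
  linarith [abs_nonneg b]

/-- a small last member -/
theorem small (h : Elem S) (hc : ![x, y, z] ∈ S) (hd : Dns ![x, y, z]) (hδ : 0 < δ) :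
    ∃ x y z, ![x, y, z] ∈ S ∧ z ≠ 0 ∧ ‖z‖ < δ := by
  obtain ⟨m, hm⟩ := hd.exists_dist_lt ((δ / 2 : ℝ) : ℂ) (half_pos hδ)
  obtain ⟨x', y', g, h1, h2⟩ := euc (T := fun x y => ![x, y, z] ∈ S)
    (fun _ _ m h1 => (mv h h1 m).1) (fun _ _ m h1 => (mv h h1 m).2.2.1) _ (m 0) (m 1) x y rfl hc
  obtain ⟨y'', z', g', h3, h4⟩ := euc (T := fun y z => ![x', y, z] ∈ S)
    (fun _ _ m h1 => (mv h h1 m).2.2.2.1) (fun _ _ m h1 => (mv h h1 m).2.2.2.2.2) _ g (m 2) y' z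
    rfl h1
  have e : ∑ j, (m j : ℂ) * ![x, y, z] j = g' * z' := by
    rw [h4, h2, Fin.sum_univ_three]
    rfl
  rw [e, dist_eq_norm] at hm
  have h5 : ‖((δ / 2 : ℝ) : ℂ)‖ = δ / 2 := Complex.norm_of_nonneg (half_pos hδ).le
  obtain ⟨h6, h7⟩ := norm_le_of (g := g') (y := z') fun h0 => by
    rw [h0, sub_zero, h5] at hm
    exact lt_irrefl _ hm
  refine ⟨x', y'', z', h3, h6, h7.trans_lt ?_⟩
  linarith [norm_sub_norm_le ((g' : ℂ) * z') ((δ / 2 : ℝ) : ℂ), norm_sub_rev ((g' : ℂ) * z')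
    ((δ / 2 : ℝ) : ℂ)]

theorem near (h : Elem S) {r : ℝ} (hc : ![x, y, r] ∈ S) (hd : Dns ![x, y, r]) (hr : r ≠ 0)
    (hδ : |r| < δ) : ∃ c ∈ S, ‖c - ![Complex.I, 1, 0]‖ < 2 * δ := by
  have h0 : 0 < δ := (abs_nonneg r).trans_lt hδ
  obtain ⟨m, hm⟩ := hd.exists_dist_lt ((δ / 2 : ℝ) * Complex.I) (half_pos h0)
  obtain ⟨x', y', g, h1, h2⟩ := euc (T := fun x y => ![x, y, (r : ℂ)] ∈ S)
    (fun _ _ m h1 => (mv h h1 m).1) (fun _ _ m h1 => (mv h h1 m).2.2.1) _ (m 0) (m 1) x y rfl hc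
  have e : ∑ j, (m j : ℂ) * ![x, y, r] j = g * y' + m 2 * r := by
    rw [h2, Fin.sum_univ_three]
    rfl
  rw [e, dist_eq_norm] at hm
  have h3 : |δ / 2 - g * y'.im| < δ / 2 := by
    simpa using (Complex.abs_im_le_norm _).trans_lt hm
  rw [abs_lt] at h3
  obtain ⟨h4, h5⟩ := norm_le_of (g := g) (y := y'.im) (by
    rw [← Complex.ofReal_intCast, ← Complex.ofReal_mul, Complex.ofReal_ne_zero]
    linarith)
  rw [← Complex.ofReal_intCast, ← Complex.ofReal_mul, Complex.norm_real, Complex.norm_real,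
    Real.norm_of_nonneg (by linarith : 0 ≤ g * y'.im), Real.norm_eq_abs] at h5
  have h6 : |y'.im| < δ := by linarith
  obtain ⟨k, hk⟩ := red x'.im 1 (Complex.ofReal_ne_zero.1 h4) h6
  obtain ⟨k', hk'⟩ := red (x' + k * y').re 0 hr hδ
  obtain ⟨l, hl⟩ := red y'.re 1 hr hδ
  refine ⟨_, (mv h (mv h (mv h h1 k).1 k').2.1 l).2.2.2.1, ?_⟩
  simp only [Matrix.cons_sub_cons, Matrix.empty_sub_empty]
  refine norm_vec ((Complex.norm_le_abs_re_add_abs_im _).trans_lt ?_)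
    ((Complex.norm_le_abs_re_add_abs_im _).trans_lt ?_) ?_
  · rw [two_mul]
    exact add_lt_add (by simpa using hk') (by simpa using hk)
  · rw [two_mul]
    exact add_lt_add (by simpa using hl) (by simpa using h6)
  · rw [sub_zero, Complex.norm_real, Real.norm_eq_abs]
    linarith

theorem two (h : Elem S) {a b : ℝ} (hc : ![(a : ℂ), b, z] ∈ S)
    (hi : ∀ p q : ℤ, p * (a : ℂ) + q * b = 0 → p = 0 ∧ q = 0) (hδ : 0 < δ) :
    ∃ a b : ℝ, ![(a : ℂ), b, z] ∈ S ∧ b ≠ 0 ∧ |b| < δ := by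
  have hb : b ≠ 0 := fun h0 => by simpa using (hi 0 1 (by simp [h0])).2
  obtain ⟨n, hn⟩ := exists_nat_gt (|b| / δ)
  obtain ⟨j, k, hk, -, h1⟩ := Real.exists_int_int_abs_mul_sub_le (a / b) n.succ_pos
  obtain ⟨x', y', g, ⟨h2, h3, h4⟩, h5⟩ := euc
    (T := fun x y => ![x, y, z] ∈ S ∧ x.im = 0 ∧ y.im = 0)
    (fun _ _ m h1 => ⟨(mv h h1.1 m).1, by simp [h1.2.1, h1.2.2], h1.2.2⟩)
    (fun _ _ m h1 => ⟨(mv h h1.1 m).2.2.1, h1.2.1, by simp [h1.2.1, h1.2.2]⟩) _ k (-j) a b rfl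
    ⟨hc, Complex.ofReal_im a, Complex.ofReal_im b⟩
  obtain ⟨h6, h7⟩ := norm_le_of (g := g) (y := y') fun h0 => hk.ne' (hi _ _ (h5 ▸ h0)).1
  lift x' to ℝ using h3
  lift y' to ℝ using h4
  refine ⟨x', y', h2, Complex.ofReal_ne_zero.1 h6, ?_⟩
  rw [h5, show (k : ℂ) * a + (-j : ℤ) * b = (((k * (a / b) - j) * b : ℝ) : ℂ) by
    rw [sub_mul, mul_assoc, div_mul_cancel₀ _ hb]; push_cast; ring, Complex.norm_real,
    Complex.norm_real, Real.norm_eq_abs, Real.norm_eq_abs, abs_mul] at h7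
  refine (h7.trans (mul_le_mul_of_nonneg_right h1 (abs_nonneg b))).trans_lt ?_
  rw [div_lt_iff₀ hδ] at hn
  rw [one_div, inv_mul_lt_iff₀ (by positivity)]
  push_cast
  nlinarith

end GlA

open GlA

theorem gl : StGl := by
  intro S c ε h hc hε
  refine ⟨fun hd => ?_, fun h0 h1 hi => ?_⟩
  · obtain ⟨x, y, z, h1, hz, h2⟩ := small (elem_dns h) (x := c 0) (y := c 1) (z := c 2)
      (eta c ▸ ⟨hc, hd⟩) (eta c ▸ hd) (half_pos hε)
    have h3 : ((‖z‖ : ℝ) : ℂ) ≠ 0 := Complex.ofReal_ne_zero.2 (norm_ne_zero_iff.2 hz)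
    have hw : (‖z‖ : ℂ) / z ≠ 0 := div_ne_zero h3 hz
    have e : ((‖z‖ : ℂ) / z) • ![x, y, z] = ![‖z‖ / z * x, ‖z‖ / z * y, (‖z‖ : ℝ)] := by
      simp only [Matrix.smul_cons, Matrix.smul_empty, smul_eq_mul, div_mul_cancel₀ _ hz]
    obtain ⟨c', h4, h5⟩ := near (elem_smul (elem_dns h) ((‖z‖ : ℂ) / z)⁻¹) (δ := ε / 2)
      (e ▸ mem_setOf.2 (by rwa [inv_smul_smul₀ hw])) (e ▸ dns_smul h1.2 hw)
      (norm_ne_zero_iff.2 hz) (by rwa [abs_norm])
    refine ⟨_, h4.1, ‖z‖ / z, ?_, h4.2, ?_⟩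
    · rw [norm_div, Complex.norm_real, norm_norm, div_self (norm_ne_zero_iff.2 hz)]
    · rw [smul_inv_smul₀ hw]
      linarith
  · rw [eta c] at hc
    generalize c 2 = z at hc ⊢
    generalize c 0 = x at hc h0 hi
    generalize c 1 = y at hc h1 hi
    lift x to ℝ using h0
    lift y to ℝ using h1
    obtain ⟨a, b, h2, hb, h3⟩ := two h hc hi hε
    obtain ⟨k, hk⟩ := red a 1 hb h3
    obtain ⟨l, hl⟩ := red z.re 0 hb h3
    refine ⟨_, (mv h (mv h h2 k).1 l).2.2.2.2.2, by simp, by simp, by simpa using hb, by simp, ?_⟩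
    simp only [Matrix.cons_sub_cons, Matrix.empty_sub_empty]
    refine norm_vec ((Complex.norm_le_abs_re_add_abs_im _).trans_lt (by simpa using hk))
      (by simpa using h3) ((Complex.norm_le_abs_re_add_abs_im _).trans_lt (by simpa using hl))

end Vale.Agent.P290Z.Orb
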