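import Vale.Agent.P290Z.Orb.Basic
import Vale.Agent.P290Z.Orb.Hyp.Abs

/-! P290Z, block O, step HYP: density of an orbit in the hyperboloid. -/

set_option linter.dupNamespace false
set_option linter.unusedSectionVars false

open Set Filter Topology Matrix

noncomputable section

namespace Vale.Agent.P290Z.Orb

open Vale.Agent.P290.H726 HypA

variable {ι : Type} [Fintype ι] [DecidableEq ι] {G : Matrix ι ι ℤ} {e f : Fin 3 → ι → ℤ}

namespace HypB

/-- closed subsets of the hyperboloid which are stable under the stabiliser of `v` -/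
structure Stab (G : Matrix ι ι ℤ) (v : ι → ℤ) (D : ℝ) (Z : Set (ι → ℝ)) : Prop where
  cl : IsClosed Z
  ov : ∀ t ∈ Z, bil G t (ir v) = 0
  sq : ∀ t ∈ Z, bil G t t = D
  ei : ∀ (p x : ι → ℤ) (k : ℤ), bil G p p = 0 → bil G x p = 0 → bil G x x = 2 * k →
    bil G p v = 0 → bil G x v = 0 → ∀ t ∈ Z, eich G (ir p) (ir x) k t ∈ Z
  re : ∀ r : ι → ℤ, bil G r r = -2 → bil G r v = 0 → ∀ t ∈ Z, refl G (ir r) t ∈ Z

theorem stab (hG : Lat G) (v : ι → ℤ) (D : ℝ) (s : ι → ℂ) : Stab G v D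
    {t | rc t + Complex.I • rc (ir v) ∈ Orb G s ∧ bil G t (ir v) = 0 ∧ bil G t t = D} where
  cl := (isClosed_orb.preimage (continuous_rc.add continuous_const)).inter
    ((isClosed_eq (continuous_bil continuous_id continuous_const) continuous_const).inter
      (isClosed_eq (continuous_bil continuous_id continuous_id) continuous_const))
  ov _ h := h.2.1
  sq _ h := h.2.2
  ei p x k h1 h2 h3 h4 h5 t h := by
    refine ⟨?_, ?_, ?_⟩
    · rw [← eich_re_im k t (by rw [bil_ir, bil_symm G hG.symm, h4, Int.cast_zero])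
        (by rw [bil_ir, bil_symm G hG.symm, h5, Int.cast_zero])]
      exact orb_eich hG h1 h2 h3 h.1
    · simp [bil_eich, bil_ir, h4, h5, h.2.1]
    · rw [bil_eich_eich hG.symm (by simp [bil_ir, h1]) (by simp [bil_ir, h2])
        (by simp [bil_ir, h3]), h.2.2]
  re r h1 h2 t h := by
    refine ⟨?_, ?_, ?_⟩
    · rw [← refl_re_im t (by rw [bil_ir, bil_symm G hG.symm, h2, Int.cast_zero])]
      exact orb_refl hG h1 h.1
    · simp [bil_refl, bil_ir, h2, h.2.1]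
    · rw [bil_refl_refl hG.symm (by simp [bil_ir, h1]), h.2.2]

theorem coord (hG : IsUnit G.det) (t : ι → ℝ) (i : ι) :
    bil G t (ir (G⁻¹ *ᵥ Pi.single i 1)) = t i := by
  have h : ir (G⁻¹ *ᵥ Pi.single i 1) = G⁻¹.map (Int.cast : ℤ → ℝ) *ᵥ Pi.single i 1 := by
    funext j
    simp [ir]
  rw [bil_eq_dot, h, mulVec_mulVec, ← map_cast_mul, mul_nonsing_inv _ hG,
    Matrix.map_one _ (by simp) (by simp), one_mulVec]
  simp

/-- a vector whose line is not rational -/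
theorem irr (hG : IsUnit G.det) {a : ι → ℝ} (h : ∀ (r : ℝ) (x : ι → ℤ), r • a = ir x → r = 0)
    {c : ℝ} (hc : c ≠ 0) : ∃ y : ι → ℤ, ∀ q : ℚ, bil G a (ir y) ≠ q * c := by
  by_contra! h1
  choose q hq using fun i => h1 (G⁻¹ *ᵥ Pi.single i 1)
  simp only [coord hG] at hq
  have h2 : ∀ i, ∃ k : ℤ, ((∏ j, (q j).den : ℕ) : ℝ) * q i = k := fun i => by
    obtain ⟨k, hk⟩ := Finset.dvd_prod_of_mem (fun j => (q j).den) (Finset.mem_univ i)
    refine ⟨k * (q i).num, ?_⟩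
    have : ((q i).den : ℝ) ≠ 0 := by exact_mod_cast (q i).den_ne_zero
    rw [hk, Rat.cast_def]
    push_cast
    field_simp
  choose k hk using h2
  have h3 : ((∏ j, (q j).den : ℕ) : ℝ) ≠ 0 :=
    Nat.cast_ne_zero.2 (Finset.prod_ne_zero_iff.2 fun j _ => (q j).den_ne_zero)
  refine div_ne_zero h3 hc (h _ k (funext fun i => ?_))
  rw [Pi.smul_apply, hq, ir, ← hk, smul_eq_mul]
  field_simp

variable {d : ℤ} {Z : Set (ι → ℝ)}

theorem ev (F : Frame G e f) {j : Fin 3} (hj : j ≠ 2) : bil G (e j) (d • e 2 + f 2) = 0 := by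
  simp [bil_add_right, bil_smul_right, F.ee, F.ef, hj, -zsmul_eq_mul]

theorem fv (hG : Lat G) (F : Frame G e f) {j : Fin 3} (hj : j ≠ 2) :
    bil G (f j) (d • e 2 + f 2) = 0 := by
  simp [bil_add_right, bil_smul_right, F.ff, F.fe hG.symm, hj, -zsmul_eq_mul]

theorem vv (hG : Lat G) (F : Frame G e f) : bil G (d • e 2 + f 2) (d • e 2 + f 2) = 2 * d := by
  simp only [bil_add_right, bil_smul_right, bil_add_left, bil_smul_left, F.ff, F.fe hG.symm, F.ee,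
    F.ef, if_true]
  ring

theorem two (hG : Lat G) (F : Frame G e f) (S : Stab G (d • e 2 + f 2) (2 * d) Z) {j k : Fin 3}
    (hjk : j ≠ k) (hk : k ≠ 2) {t : ι → ℝ} (ht : t ∈ Z) (h0 : bil G t (ir (e j)) ≠ 0)
    (h : ∀ q : ℚ, bil G t (ir (f k)) ≠ q * bil G t (ir (e j))) :
    ∃ t ∈ Z, Ind (bil G t (ir (e j))) (bil G t (ir (e k))) := by
  refine ⟨_, S.re (e k - f k) (F.sq_sub hG.symm k)
    (by rw [bil_sub_left, ev F hk, fv hG F hk, sub_zero]) t ht, ?_⟩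
  simpa [bil_refl, ir_sub, bil_sub_left, bil_sub_right, bil_ir, F.ee, F.fe hG.symm, hjk.symm]
    using Ind.of h0 h

theorem key (hG : Lat G) (F : Frame G e f) (hd : 0 < d) (S : Stab G (d • e 2 + f 2) (2 * d) Z)
    {j k : Fin 3} (hjk : j ≠ k) (hk : k ≠ 2) {t : ι → ℝ} (ht : t ∈ Z)
    (h0 : bil G t (ir (e j)) ≠ 0) {y : ι → ℤ}
    (h : ∀ q : ℚ, bil G t (ir y) ≠ q * bil G t (ir (e j))) :
    ∃ t ∈ Z, Ind (bil G t (ir (e j))) (bil G t (ir (e k))) := by
  by_cases h1 : ∀ q : ℚ, bil G t (ir (e k)) ≠ q * bil G t (ir (e j))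
  · exact ⟨t, ht, Ind.of h0 h1⟩
  by_cases h2 : ∀ q : ℚ, bil G t (ir (f k)) ≠ q * bil G t (ir (e j))
  · exact two hG F S hjk hk ht h0 h2
  push Not at h1 h2
  obtain ⟨r, hr⟩ := h1
  obtain ⟨s, hs⟩ := h2
  obtain ⟨w, w1, w2, w3⟩ : ∃ w : ι → ℤ, bil G w (e k) = 0 ∧ bil G w (d • e 2 + f 2) = 0 ∧
      bil G t (ir w) = 2 * d * bil G t (ir y) - 2 * d * bil G y (e k) * bil G t (ir (f k)) := by
    refine ⟨(2 * d) • y - bil G y (d • e 2 + f 2) • (d • e 2 + f 2) -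
      (2 * d * bil G y (e k)) • f k, ?_, ?_, ?_⟩
    · rw [bil_sub_left, bil_sub_left, bil_smul_left, bil_smul_left, bil_smul_left,
        bil_symm G hG.symm _ (e k), bil_symm G hG.symm (d • e 2 + f 2), ev F hk, F.fe hG.symm]
      simp
    · rw [bil_sub_left, bil_sub_left, bil_smul_left, bil_smul_left, bil_smul_left, vv hG F,
        fv hG F hk]
      ring
    · rw [ir_sub, ir_sub, ir_smul, ir_smul, ir_smul, bil_sub_right, bil_sub_right, bil_smul_right,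
        bil_smul_right, bil_smul_right, S.ov t ht]
      push_cast
      ring
  obtain ⟨n, hn⟩ := hG.even w
  obtain ⟨ε, e1, e2⟩ : ∃ ε : ℤ, ε * ε = 1 ∧ (1 + ε * r * bil G w (e j) : ℝ) ≠ 0 := by
    by_cases h : (1 + r * bil G w (e j) : ℝ) = 0
    · exact ⟨-1, by simp, fun h' => by push_cast at h'; linarith⟩
    · exact ⟨1, by simp, by simpa using h⟩
  have e3 : (ε : ℝ) * ε = 1 := by exact_mod_cast e1
  have a1 := S.ei (e k) (ε • w) n (F.ee k k) (by rw [bil_smul_left, w1, mul_zero])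
    (by rw [bil_smul_left, bil_smul_right, ← mul_assoc, e1, hn]; ring) (ev F hk)
    (by rw [bil_smul_left, w2, mul_zero]) t ht
  have a2 : bil G (eich G (ir (e k)) (ir (ε • w)) n t) (ir (e j)) =
      (1 + ε * r * bil G w (e j)) * bil G t (ir (e j)) := by
    simp only [bil_eich, bil_ir, F.ee, bil_smul_left, hr]
    push_cast
    ring
  refine two hG F S hjk hk a1 (by rw [a2]; exact mul_ne_zero e2 h0) fun q hq => ?_
  have hd' : (d : ℝ) ≠ 0 := by exact_mod_cast hd.ne'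
  rw [a2, bil_eich, ir_smul, bil_smul_right, bil_smul_left, w3, bil_ir, bil_ir, F.ef, hr, hs] at hq
  refine h (bil G y (e k) * s + ε * (s + r * ε * bil G w (f k) - n * r -
    q * (1 + ε * r * bil G w (e j))) / (2 * d)) ?_
  push_cast
  simp only [if_true, Int.cast_one] at hq
  field_simp
  linear_combination (-ε) * hq - (2 * d * bil G t (ir y) -
    2 * d * (bil G y (e k) : ℤ) * (s * bil G t (ir (e j)))) * e3

/-- the point with the given coordinates -/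
def pt (e f : Fin 3 → ι → ℤ) (c₀ c₁ i₀ i₁ : ℝ) (m : ι → ℝ) : ι → ℝ :=
  m + ((i₀ • ir (e 0) + c₀ • ir (f 0)) + (i₁ • ir (e 1) + c₁ • ir (f 1)))

theorem pt_eq (t : ι → ℝ) : pt e f (bil G t (ir (e 0))) (bil G t (ir (e 1))) (bil G t (ir (f 0)))
    (bil G t (ir (f 1))) (prj G e f {0, 1} t) = t := by
  have h := decomp G e f {0, 1} t
  rw [Finset.sum_pair (by decide)] at h
  exact h.symm

/-- the orthogonal complement of the two planes and of `v` -/
def O (G : Matrix ι ι ℤ) (e f : Fin 3 → ι → ℤ) (d : ℤ) : Set (ι → ℝ) :=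
  {m | (∀ j ∈ ({0, 1} : Finset (Fin 3)), bil G m (ir (e j)) = 0 ∧ bil G m (ir (f j)) = 0) ∧
    bil G m (ir (d • e 2 + f 2)) = 0}

theorem bil_pt (c₀ c₁ i₀ i₁ : ℝ) (m : ι → ℝ) (y : ι → ℤ) : bil G (pt e f c₀ c₁ i₀ i₁ m) (ir y) =
    bil G m (ir y) + ((i₀ * bil G (e 0) y + c₀ * bil G (f 0) y) +
      (i₁ * bil G (e 1) y + c₁ * bil G (f 1) y)) := by
  simp only [pt, bil_add_left, bil_smul_left, bil_ir]

theorem co (hG : Lat G) (F : Frame G e f) (c₀ c₁ i₀ i₁ : ℝ) {m : ι → ℝ} (hm : m ∈ O G e f d) :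
    (bil G (pt e f c₀ c₁ i₀ i₁ m) (ir (e 0)) = c₀ ∧ bil G (pt e f c₀ c₁ i₀ i₁ m) (ir (e 1)) = c₁) ∧
    bil G (pt e f c₀ c₁ i₀ i₁ m) (ir (f 0)) = i₀ ∧ bil G (pt e f c₀ c₁ i₀ i₁ m) (ir (f 1)) = i₁ := by
  simp [bil_pt, F.ee, F.ff, F.ef, F.fe hG.symm, hm.1 0, hm.1 1]

theorem pt_sq (hG : Lat G) (F : Frame G e f) (c₀ c₁ i₀ i₁ : ℝ) {m : ι → ℝ} (hm : m ∈ O G e f d) :
    bil G (pt e f c₀ c₁ i₀ i₁ m) (pt e f c₀ c₁ i₀ i₁ m) = bil G m m + 2 * (c₀ * i₀ + c₁ * i₁) := by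
  obtain ⟨⟨h1, h2⟩, h3, h4⟩ := co hG F c₀ c₁ i₀ i₁ hm
  have h5 : bil G (pt e f c₀ c₁ i₀ i₁ m) m = bil G m m := by
    rw [bil_symm G hG.symm]
    simp [pt, bil_add_right, bil_smul_right, hm.1 0, hm.1 1]
  nth_rewrite 2 [pt]
  simp only [bil_add_right, bil_smul_right, h1, h2, h3, h4, h5]
  ring

theorem ort_v (hG : Lat G) (F : Frame G e f) : Ort G e f {0, 1} (d • e 2 + f 2) := fun j hj => by
  have hj : j ≠ 2 := by rintro rfl; simp at hj
  exact ⟨by rw [bil_symm G hG.symm, ev F hj], by rw [bil_symm G hG.symm, fv hG F hj]⟩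

theorem prj_mem (hG : Lat G) (F : Frame G e f) {t : ι → ℝ} (ht : bil G t (ir (d • e 2 + f 2)) = 0) :
    prj G e f {0, 1} t ∈ O G e f d :=
  ⟨fun j hj => ⟨(bil_prj_e hG.symm F t j).trans (if_pos hj), (bil_prj_f F t j).trans (if_pos hj)⟩,
    (bil_prj_ort hG.symm t (ort_v hG F)).trans ht⟩

theorem dens (hG : Lat G) (F : Frame G e f) (hd : 0 < d) {c₀ c₁ : ℝ} (hc : Ind c₀ c₁)
    {m m' : ι → ℝ} (hm : m ∈ O G e f d) (hm' : m' ∈ O G e f d) :
    m' ∈ closure {y | ∃ x₀ x₁ : ι → ℤ, Ort G e f {0, 1} x₀ ∧ Ort G e f {0, 1} x₁ ∧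
      bil G (ir (d • e 2 + f 2)) (ir x₀) = 0 ∧ bil G (ir (d • e 2 + f 2)) (ir x₁) = 0 ∧
      y = m + c₀ • ir x₀ + c₁ • ir x₁} := by
  set v := d • e 2 + f 2 with hv
  have hd' : (2 * d : ℝ) ≠ 0 := by exact_mod_cast (mul_pos two_pos hd).ne'
  have h1 : ∀ x : ι → ℤ, Ort G e f {0, 1} ((2 * d) • prj G e f {0, 1} x - bil G x v • v) ∧
      bil G (ir v) (ir ((2 * d) • prj G e f {0, 1} x - bil G x v • v)) = 0 := fun x => by
    refine ⟨fun j hj => ?_, ?_⟩
    · simp only [bil_sub_left, bil_smul_left, ort_prj hG.symm F x j hj, ort_v hG F j hj, hv]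
      simp
    · rw [bil_ir, bil_symm G hG.symm, bil_sub_left, bil_smul_left, bil_smul_left, vv hG F,
        show bil G (prj G e f {0, 1} x) v = bil G x v from
          bil_prj_ort (R := ℤ) hG.symm x (ort_v hG F)]
      simp [mul_comm]
  have h2 := (DenseRange.piMap fun _ : ι => hc.dense) ((2 * d : ℝ)⁻¹ • (m' - m))
  have h3 := map_mem_closure (f := fun y => m + ((2 * d : ℝ) • prj G e f {0, 1} y -
    bil G y (ir v) • ir v)) (t := {y | ∃ x₀ x₁ : ι → ℤ, Ort G e f {0, 1} x₀ ∧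
      Ort G e f {0, 1} x₁ ∧ bil G (ir v) (ir x₀) = 0 ∧ bil G (ir v) (ir x₁) = 0 ∧
      y = m + c₀ • ir x₀ + c₁ • ir x₁}) (continuous_const.add (Continuous.sub
      (by exact continuous_prj.const_smul (2 * d : ℝ)) (by
        exact (continuous_bil continuous_id continuous_const).smul continuous_const))) h2 (by
    rintro _ ⟨n, rfl⟩
    refine ⟨_, _, (h1 fun i => (n i).1).1, (h1 fun i => (n i).2).1, (h1 _).2, (h1 _).2, ?_⟩
    have : (Pi.map (fun (_ : ι) (n : ℤ × ℤ) => n.1 * c₀ + n.2 * c₁) n) =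
        c₀ • ir (fun i => (n i).1) + c₁ • ir fun i => (n i).2 := by
      funext i
      simp [ir, mul_comm]
    simp only [this, prj_add, prj_smul, bil_add_left, bil_smul_left, ir_sub, ir_smul, prj_ir,
      bil_ir]
    push_cast
    module)
  have h4 : prj G e f {0, 1} m = m := prj_of_ort hm.1
  have h5 : prj G e f {0, 1} m' = m' := prj_of_ort hm'.1
  have h6 : bil G m (ir v) = 0 := hm.2
  have h7 : bil G m' (ir v) = 0 := hm'.2
  rw [prj_smul, prj_sub, bil_smul_left, bil_sub_left, h4, h5, h6, h7, smul_smul,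
    mul_inv_cancel₀ hd'] at h3
  simpa using h3

theorem sys (hU : StU2) (hG : Lat G) (F : Frame G e f) (hd : 0 < d)
    (S : Stab G (d • e 2 + f 2) (2 * d) Z) {x : ι → ℤ} (hx : Ort G e f Finset.univ x)
    (hxx : bil G x x ≠ 0) (h0 : ∃ t ∈ Z, Ind (bil G t (ir (e 0))) (bil G t (ir (e 1)))) :
    Sys (fun c₀ c₁ i₀ i₁ m => m ∈ O G e f d ∧ pt e f c₀ c₁ i₀ i₁ m ∈ Z) (O G e f d)
      (fun m => bil G m m) (fun m => bil G m (ir x)) (2 * d) (ir x) (bil G x x : ℤ) := by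
  have xv : bil G x (d • e 2 + f 2) = 0 := by
    simp [bil_add_right, bil_smul_right, hx 2, -zsmul_eq_mul]
  have e0 := ev (d := d) F (j := 0) (by decide)
  have e1 := ev (d := d) F (j := 1) (by decide)
  have f0 := fv (d := d) hG F (j := 0) (by decide)
  have f1 := fv (d := d) hG F (j := 1) (by decide)
  refine ⟨IsClosed.inter ?_ (S.cl.preimage (by unfold pt; fun_prop)),
    continuous_bil continuous_id continuous_id, by exact_mod_cast hxx, fun m ε => ?_,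
    fun m hm ε => ?_, fun h => ?_, ?_, ?_, ?_, ?_, ?_, ?_⟩
  · have hc : ∀ y : ι → ℝ, IsClosed {p : (ℝ × ℝ) × (ℝ × ℝ) × (ι → ℝ) | bil G p.2.2 y = 0} :=
      fun y => isClosed_eq (continuous_bil (by fun_prop) continuous_const) continuous_const
    refine IsClosed.inter (s₁ := {p : (ℝ × ℝ) × (ℝ × ℝ) × (ι → ℝ) | ∀ j ∈ ({0, 1} : Finset (Fin 3)),
      bil G p.2.2 (ir (e j)) = 0 ∧ bil G p.2.2 (ir (f j)) = 0}) ?_ (hc _)
    simp only [ofPred_forall]
    exact isClosed_iInter fun j => isClosed_iInter fun _ => (hc _).inter (hc _)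
  · rw [bil_add_left, bil_smul_left, bil_ir]
  · exact ⟨fun j hj => by simp [bil_add_left, bil_smul_left, bil_ir, hm.1 j hj, hx j],
      by rw [bil_add_left, bil_smul_left, bil_ir, hm.2, xv]; simp⟩
  · rw [← pt_sq hG F _ _ _ _ h.1, S.sq _ h.2]
  · intro c₀ c₁ i₀ i₁ m n h
    obtain ⟨⟨h1, h2⟩, h3, h4⟩ := co hG F c₀ c₁ i₀ i₁ h.1
    have := S.ei (e 0) (n • f 1) 0 (F.ee _ _) (by simp [bil_smul_left, F.fe hG.symm, -zsmul_eq_mul])
      (by simp [bil_smul_left, bil_smul_right, F.ff, -zsmul_eq_mul]) e0 (by rw [bil_smul_left, f1, mul_zero]) _ h.2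
    rw [eich, ir_smul, bil_smul_right, h1, h4] at this
    exact ⟨h.1, mem_of_eq_of_mem (by unfold pt; push_cast; module) this⟩
  · intro c₀ c₁ i₀ i₁ m n h
    obtain ⟨⟨h1, h2⟩, h3, h4⟩ := co hG F c₀ c₁ i₀ i₁ h.1
    have := S.ei (e 1) (n • f 0) 0 (F.ee _ _) (by simp [bil_smul_left, F.fe hG.symm, -zsmul_eq_mul])
      (by simp [bil_smul_left, bil_smul_right, F.ff, -zsmul_eq_mul]) e1 (by rw [bil_smul_left, f0, mul_zero]) _ h.2
    rw [eich, ir_smul, bil_smul_right, h2, h3] at this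
    exact ⟨h.1, mem_of_eq_of_mem (by unfold pt; push_cast; module) this⟩
  · intro c₀ c₁ i₀ i₁ m n h
    obtain ⟨⟨h1, h2⟩, h3, h4⟩ := co hG F c₀ c₁ i₀ i₁ h.1
    have := S.ei (e 0) (n • e 1) 0 (F.ee _ _) (by simp [bil_smul_left, F.ee, -zsmul_eq_mul])
      (by simp [bil_smul_left, bil_smul_right, F.ee, -zsmul_eq_mul]) e0 (by rw [bil_smul_left, e1, mul_zero]) _ h.2
    rw [eich, ir_smul, bil_smul_right, h1, h2] at this
    exact ⟨h.1, mem_of_eq_of_mem (by unfold pt; push_cast; module) this⟩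
  · intro c₀ i₀ i₁ m n h
    obtain ⟨⟨h1, h2⟩, h3, h4⟩ := co hG F c₀ 0 i₀ i₁ h.1
    obtain ⟨k, hk⟩ := hG.even x
    have := S.ei (e 1) ((-n) • x) (n * n * k) (F.ee _ _) (by rw [bil_smul_left]; simp [hx 1])
      (by rw [bil_smul_left, bil_smul_right, hk]; ring) e1 (by rw [bil_smul_left, xv, mul_zero]) _ h.2
    have h5 : bil G (pt e f c₀ 0 i₀ i₁ m) (ir x) = bil G m (ir x) := by
      simp [bil_pt, bil_symm G hG.symm _ x, hx 0, hx 1]
    rw [eich, ir_smul, bil_smul_right, h2, h5] at this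
    exact ⟨h.1, mem_of_eq_of_mem (by unfold pt; push_cast; module) this⟩
  · intro c₀ c₁ i₀ i₁ m hc h m' hm'
    obtain ⟨⟨h1, h2⟩, h3, h4⟩ := co hG F c₀ c₁ i₀ i₁ h.1
    have h5 : prj G e f {0, 1} (pt e f c₀ c₁ i₀ i₁ m) = m := by
      have := pt_eq (G := G) (e := e) (f := f) (pt e f c₀ c₁ i₀ i₁ m)
      rw [h1, h2, h3, h4] at this
      exact add_right_cancel this
    obtain ⟨t, t1, t2, t3, -⟩ := hU ι G e f _ (ir (d • e 2 + f 2)) m' Z hG F S.cl h.2
      (fun j hj y k y1 y2 y3 => S.ei _ y k (F.ee _ _) y1 y2 (ev F hj)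
        (by rw [bil_ir, bil_symm G hG.symm] at y3; exact_mod_cast y3))
      (fun j hj => by rw [bil_ir, bil_symm G hG.symm, ev F hj, Int.cast_zero])
      ⟨0, by decide, by rw [h1]; exact hc.ne⟩ (by rw [h1, h2, h5]; exact dens hG F hd hc h.1 hm')
    refine ⟨bil G t (ir (f 0)), bil G t (ir (f 1)), hm', ?_⟩
    rwa [← h1, ← t2 0 (by decide), ← h2, ← t2 1 (by decide), ← t3, pt_eq]
  · obtain ⟨t, t1, t2⟩ := h0
    exact ⟨_, _, _, _, _, t2, prj_mem hG F (S.ov t t1), by rwa [pt_eq]⟩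

end HypB

open HypB

theorem hyp (hF : StFr) (hU : StU2) : StHyp := by
  intro ι _ _ G e f d a a₀ hG F hd a1 a2 b1 b2 ha
  obtain ⟨-, h1, x, -, hx, -, -, hxx, -⟩ := (hF ι G hG).2 e f F
  have hd' : (0 : ℝ) < 2 * d := by exact_mod_cast mul_pos two_pos hd
  have h2 : ∀ t : ι → ℝ, bil G t (ir (d • e 2 + f 2)) = 0 → bil G t t = 2 * d →
      bil G t (ir (e 0)) ≠ 0 ∨ bil G t (ir (e 1)) ≠ 0 := fun t t1 t2 => by
    by_contra! h
    refine (h1 t (ir (d • e 2 + f 2)) (fun j hj => ⟨?_, ?_⟩) ?_ t1).not_gt (t2 ▸ hd')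
    · fin_cases j
      exacts [h.1, h.2, absurd rfl hj]
    · rw [bil_ir, bil_symm G hG.symm, ev F hj, Int.cast_zero]
    · rw [bil_ir, vv hG F]; exact_mod_cast hd'
  have S := stab hG (d • e 2 + f 2) (2 * d) (rc a + Complex.I • rc (ir (d • e 2 + f 2)))
  have S' := sys hU hG F hd S hx hxx (by
    rcases h2 a a1 a2 with h | h
    · obtain ⟨y, hy⟩ := irr hG.unit ha h
      exact key hG F hd S (by decide) (by decide) ⟨mem_orb_self, a1, a2⟩ h hy
    · obtain ⟨y, hy⟩ := irr hG.unit ha h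
      obtain ⟨t, t1, t2⟩ := key hG F hd S (k := 0) (by decide) (by decide)
        ⟨mem_orb_self, a1, a2⟩ h hy
      exact ⟨t, t1, t2.symm⟩)
  have h3 := (S'.all (h2 a₀ b1 b2) (bil G a₀ (ir (f 0))) (bil G a₀ (ir (f 1))) _ (prj_mem hG F b1)
    (by rw [← pt_sq hG F _ _ _ _ (prj_mem hG F b1), pt_eq, b2])).2
  rw [pt_eq] at h3
  simpa only [rc_ir] using h3.1

end Vale.Agent.P290Z.Orb
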