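import Vale.Agent.P290Z.Orb.Spec2
import Vale.Agent.P290Z.Orb.Hyp

/-! P290Z, block O, step HYP2: the stabiliser of `v` has dense orbits on the hyperboloid. -/

set_option linter.dupNamespace false
set_option linter.unusedSectionVars false

open Set Filter Topology Matrix

noncomputable section

namespace Vale.Agent.P290Z.Orb

open Vale.Agent.P290.H726 HypA HypB

variable {ι : Type} [Fintype ι] [DecidableEq ι] {G : Matrix ι ι ℤ}

namespace Hyp2

theorem rc_inj {s t : ι → ℝ} (h : rc s = rc t) : s = t :=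
  funext fun i => Complex.ofReal_injective (congrFun h i)

theorem rc_zero : rc (0 : ι → ℝ) = 0 := funext fun _ => Complex.ofReal_zero

theorem stab2 (hG : Lat G) (v : ι → ℤ) (D : ℝ) {Z : Set (ι → ℝ)} (hZ : IsClosed Z)
    (h : ∀ g, Isom G g → g *ᵥ v = v → ∀ t ∈ Z, g.map (Int.cast : ℤ → ℝ) *ᵥ t ∈ Z) :
    Stab G v D {t | t ∈ Z ∧ bil G t (ir v) = 0 ∧ bil G t t = D} where
  cl := hZ.inter
    ((isClosed_eq (continuous_bil continuous_id continuous_const) continuous_const).inter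
      (isClosed_eq (continuous_bil continuous_id continuous_id) continuous_const))
  ov _ h := h.2.1
  sq _ h := h.2.2
  ei p x k h1 h2 h3 h4 h5 t ht := by
    refine ⟨?_, ?_, ?_⟩
    · obtain ⟨g, g1, g2, g3⟩ := exists_eich hG h1 h2 h3
      have h6 := eich_re_im (G := G) (e := p) (x := x) k t (b := 0) (bil_zero_left _ _)
        (bil_zero_left _ _)
      rw [rc_zero, smul_zero, add_zero, add_zero, ← g2, act_rc] at h6
      rw [← rc_inj h6]
      refine h g g1 ?_ t ht.1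
      simp [g3, eich, bil_symm G hG.symm v, h4, h5]
    · simp [bil_eich, bil_ir, h4, h5, ht.2.1]
    · rw [bil_eich_eich hG.symm (by simp [bil_ir, h1]) (by simp [bil_ir, h2])
        (by simp [bil_ir, h3]), ht.2.2]
  re r h1 h2 t ht := by
    refine ⟨?_, ?_, ?_⟩
    · obtain ⟨g, g1, g2, g3⟩ := exists_refl hG h1
      have h6 := refl_re_im (G := G) (d := r) t (b := 0) (bil_zero_left _ _)
      rw [rc_zero, smul_zero, add_zero, add_zero, ← g2, act_rc] at h6
      rw [← rc_inj h6]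
      refine h g g1 ?_ t ht.1
      simp [g3, refl, bil_symm G hG.symm v, h2]
    · simp [bil_refl, bil_ir, h2, ht.2.1]
    · rw [bil_refl_refl hG.symm (by simp [bil_ir, h1]), ht.2.2]

end Hyp2

theorem hyp2 (hF : StFr) (hU : StU2) : StHyp2 := by
  intro ι _ _ G e f d Z a a₀ hG F hd hZ hst haZ a1 a2 b1 b2 ha
  obtain ⟨-, h1, x, -, hx, -, -, hxx, -⟩ := (hF ι G hG).2 e f F
  have hd' : (0 : ℝ) < 2 * d := by exact_mod_cast mul_pos two_pos hd
  have h2 : ∀ t : ι → ℝ, bil G t (ir (d • e 2 + f 2)) = 0 → bil G t t = 2 * d →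
      bil G t (ir (e 0)) ≠ 0 ∨ bil G t (ir (e 1)) ≠ 0 := fun t t1 t2 => by
    by_contra! h
    refine (h1 t (ir (d • e 2 + f 2)) (fun j hj => ⟨?_, ?_⟩) ?_ t1).not_gt (t2 ▸ hd')
    · fin_cases j
      exacts [h.1, h.2, absurd rfl hj]
    · rw [bil_ir, bil_symm G hG.symm, ev F hj, Int.cast_zero]
    · rw [bil_ir, vv hG F]; exact_mod_cast hd'
  have S := Hyp2.stab2 hG (d • e 2 + f 2) (2 * d) hZ hst
  have S' := sys hU hG F hd S hx hxx (by
    rcases h2 a a1 a2 with h | h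
    · obtain ⟨y, hy⟩ := irr hG.unit ha h
      exact key hG F hd S (by decide) (by decide) ⟨haZ, a1, a2⟩ h hy
    · obtain ⟨y, hy⟩ := irr hG.unit ha h
      obtain ⟨t, t1, t2⟩ := key hG F hd S (k := 0) (by decide) (by decide) ⟨haZ, a1, a2⟩ h hy
      exact ⟨t, t1, t2.symm⟩)
  have h3 := (S'.all (h2 a₀ b1 b2) (bil G a₀ (ir (f 0))) (bil G a₀ (ir (f 1))) _ (prj_mem hG F b1)
    (by rw [← pt_sq hG F _ _ _ _ (prj_mem hG F b1), pt_eq, b2])).2
  rw [pt_eq] at h3
  exact h3.1

end Vale.Agent.P290Z.Orb
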