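import Vale.Agent.P290.H726.Dens

/-!
# P290Z, part III, blocks (O) and (C): orbit closures of periods. Definitions and statements.

The lattice is `ι → ℤ` with the Gram matrix `G`. For a frame `(e, f)` (three hyperbolic planes) a
vector `s` has the coordinates `c j = s.e j`, `i j = s.f j` and the component `pN s` in the
orthogonal complement `N` of the frame.
-/

set_option linter.dupNamespace false

open Set Filter Topology Matrix

noncomputable section

namespace Vale.Agent.P290Z.Orb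

open Vale.Agent.P290.H726 (bil)

variable {ι : Type} [Fintype ι] [DecidableEq ι]

/-- integral vectors as complex vectors -/
def ic (x : ι → ℤ) : ι → ℂ := fun i => (x i : ℂ)

/-- integral vectors as real vectors -/
def ir (x : ι → ℤ) : ι → ℝ := fun i => (x i : ℝ)

/-- real vectors as complex vectors -/
def rc (x : ι → ℝ) : ι → ℂ := fun i => (x i : ℂ)

/-- `g` is an isometry of the lattice -/
def Isom (G g : Matrix ι ι ℤ) : Prop :=
  IsUnit g.det ∧ ∀ x y : ι → ℤ, bil G (g *ᵥ x) (g *ᵥ y) = bil G x y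

/-- the action on complex vectors -/
def act (g : Matrix ι ι ℤ) (s : ι → ℂ) : ι → ℂ := g.map (Int.cast : ℤ → ℂ) *ᵥ s

/-- period vectors -/
def Per (G : Matrix ι ι ℤ) (s : ι → ℂ) : Prop := bil G s s = 0 ∧ 0 < (bil G s (star s)).re

/-- the closure of the orbit of the line of `s` -/
def Orb (G : Matrix ι ι ℤ) (s : ι → ℂ) : Set (ι → ℂ) :=
  closure {t | ∃ (z : ℂ) (g : Matrix ι ι ℤ), Isom G g ∧ t = z • act g s}

/-- even unimodular, at most three positive directions, rank at least eight -/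
structure Lat (G : Matrix ι ι ℤ) : Prop where
  symm : ∀ i j, G i j = G j i
  even : ∀ x : ι → ℤ, Even (bil G x x)
  unit : IsUnit G.det
  sig : ∀ v : Fin 4 → ι → ℝ, (∀ i j, i ≠ j → bil G (v i) (v j) = 0) → ∃ i, bil G (v i) (v i) ≤ 0
  card : 8 ≤ Fintype.card ι

/-- three orthogonal hyperbolic planes -/
structure Frame (G : Matrix ι ι ℤ) (e f : Fin 3 → ι → ℤ) : Prop where
  ee : ∀ i j, bil G (e i) (e j) = 0
  ff : ∀ i j, bil G (f i) (f j) = 0
  ef : ∀ i j, bil G (e i) (f j) = if i = j then 1 else 0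

/-- a copy of `U(2)³` with the basis `u`, `w`; the span of `u` is a direct summand -/
structure Kum (G : Matrix ι ι ℤ) (u w : Fin 3 → ι → ℤ) : Prop where
  uu : ∀ i j, bil G (u i) (u j) = 0
  ww : ∀ i j, bil G (w i) (w j) = 0
  uw : ∀ i j, bil G (u i) (w j) = if i = j then 2 else 0
  dual : ∃ f : Fin 3 → ι → ℤ, ∀ i j, bil G (u i) (f j) = if i = j then 1 else 0

/-- `t` belongs to the complex span of `u`, `w` -/
def InT (u w : Fin 3 → ι → ℤ) (t : ι → ℂ) : Prop :=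
  ∃ p q : Fin 3 → ℂ, t = ∑ i, (p i • ic (u i) + q i • ic (w i))

/-- primitive vectors -/
def Prim (v : ι → ℤ) : Prop := ∀ (d : ℤ) (y : ι → ℤ), v = d • y → IsUnit d

/-- `v` belongs to the real plane spanned by the real and the imaginary part of `s` -/
def InP (s : ι → ℂ) (v : ι → ℤ) : Prop := ∃ z : ℂ, ∀ i, (z * s i).im = v i

/-- the orbit closure of `s` contains a period in the span of `u`, `w` -/
def Good (G : Matrix ι ι ℤ) (u w : Fin 3 → ι → ℤ) (s : ι → ℂ) : Prop :=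
  ∃ t ∈ Orb G s, Per G t ∧ InT u w t

/-- **(O)** -/
def StO : Prop :=
  ∀ (ι : Type) [Fintype ι] [DecidableEq ι] (G : Matrix ι ι ℤ) (u w : Fin 3 → ι → ℤ) (s : ι → ℂ),
    Lat G → Kum G u w → Per G s →
    (∃ x : ι → ℤ, x ≠ 0 ∧ bil G x x = 0 ∧ bil G s (ic x) = 0) ∨ Good G u w s ∨
      ∃ v, Prim v ∧ InP s v ∧ ∀ s₀ v₀, Per G s₀ → Prim v₀ → InP s₀ v₀ →
        bil G v₀ v₀ = bil G v v → s₀ ∈ Orb G s

/-- **(C)** -/
def StC : Prop :=
  ∀ (ι : Type) [Fintype ι] [DecidableEq ι] (G : Matrix ι ι ℤ) (u w : Fin 3 → ι → ℤ) (p : ι → ℂ),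
    Lat G → Kum G u w → Per G p →
    p ∈ closure {t | ∃ g q, Isom G g ∧ Per G q ∧ InT u w q ∧
      (∀ x : ι → ℤ, bil G q (ic x) = 0 → ∀ i, bil G x (u i) = 0 ∧ bil G x (w i) = 0) ∧
      t = act g q}

/-! ### tools -/

/-- the Eichler transvection: `e.e = 0`, `e.x = 0`, `x.x = 2 k` -/
def eich {R : Type} [CommRing R] (G : Matrix ι ι ℤ) (e x : ι → R) (k : R) (t : ι → R) : ι → R :=
  t - bil G t x • e + bil G t e • x - (k * bil G t e) • e

/-- the reflection in a vector of square `-2` -/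
def refl {R : Type} [CommRing R] (G : Matrix ι ι ℤ) (d t : ι → R) : ι → R := t + bil G t d • d

/-- the projection to the orthogonal complement of the planes `(e j, f j)`, `j ∈ J` -/
def prj {R : Type} [CommRing R] (G : Matrix ι ι ℤ) (e f : Fin 3 → ι → ℤ) (J : Finset (Fin 3))
    (t : ι → R) : ι → R :=
  t - ∑ j ∈ J, (bil G t (fun i => (f j i : R)) • (fun i => (e j i : R)) +
    bil G t (fun i => (e j i : R)) • fun i => (f j i : R))

/-- integral vectors which are orthogonal to the planes `(e j, f j)`, `j ∈ J` -/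
def Ort (G : Matrix ι ι ℤ) (e f : Fin 3 → ι → ℤ) (J : Finset (Fin 3)) (x : ι → ℤ) : Prop :=
  ∀ j ∈ J, bil G x (e j) = 0 ∧ bil G x (f j) = 0

/-- the subgroup generated by the three numbers is dense -/
def Dns (c : Fin 3 → ℂ) : Prop := DenseRange fun m : Fin 3 → ℤ => ∑ j, (m j : ℂ) * c j

/-- no nonzero vector of the plane of `s` is rational -/
def Irr (s : ι → ℂ) : Prop := ∀ v, InP s v → v = 0

/-- a frame which is as good as the frame of the Kummer lattice -/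
def Adm (G : Matrix ι ι ℤ) (u w e : Fin 3 → ι → ℤ) : Prop :=
  ∀ s, Per G s → Dns (fun j => bil G s (ic (e j))) → Good G u w s

/-- KR: Kronecker's theorem for three complex numbers, and the density of the dense triples -/
def StKr : Prop :=
  (∀ c : Fin 3 → ℂ, LinearIndependent ℚ c → Dns c ∨
    ∃ (z : ℂ) (k : Fin 3 → ℤ), z ≠ 0 ∧ ∀ j, (z * c j).im = k j) ∧ Dense {c | Dns c}

/-- EICH: Eichler's criterion -/
def StEich : Prop :=
  ∀ (ι : Type) [Fintype ι] [DecidableEq ι] (G : Matrix ι ι ℤ) (e f : Fin 3 → ι → ℤ),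
    Lat G → Frame G e f → ∀ (v : ι → ℤ) (d : ℤ), Prim v → bil G v v = 2 * d →
    ∃ g, Isom G g ∧ g *ᵥ v = d • e 2 + f 2

/-- FR: frames, and the orthogonal complement of a frame -/
def StFr : Prop :=
  ∀ (ι : Type) [Fintype ι] [DecidableEq ι] (G : Matrix ι ι ℤ), Lat G →
    (∀ u w, Kum G u w → ∃ f, Frame G u f) ∧ ∀ e f, Frame G e f →
      (∀ y : ι → ℝ, (∀ j, bil G y (ir (e j)) = 0) → bil G y y ≤ 0) ∧
      (∀ y v : ι → ℝ, (∀ j, j ≠ 2 → bil G y (ir (e j)) = 0 ∧ bil G v (ir (e j)) = 0) →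
        0 < bil G v v → bil G y v = 0 → bil G y y ≤ 0) ∧
      ∃ x₁ x₂, Ort G e f Finset.univ x₁ ∧ Ort G e f Finset.univ x₂ ∧ bil G x₁ x₂ = 0 ∧
        bil G x₁ x₁ ≠ 0 ∧ bil G x₂ x₂ ≠ 0

/-- U3: the unipotent group of the isotropic space of rank three -/
def StU3 : Prop :=
  ∀ (ι : Type) [Fintype ι] [DecidableEq ι] (G : Matrix ι ι ℤ) (e f : Fin 3 → ι → ℤ) (s n : ι → ℂ),
    Lat G → Frame G e f → Per G s →
    (∃ i j, (bil G s (ic (e i)) * star (bil G s (ic (e j)))).im ≠ 0) →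
    n ∈ closure {y | ∃ x : Fin 3 → ι → ℤ, (∀ j, Ort G e f Finset.univ (x j)) ∧
      y = prj G e f Finset.univ s + ∑ j, bil G s (ic (e j)) • ic (x j)} →
    ∃ t ∈ Orb G s, Per G t ∧ (∀ j, bil G t (ic (e j)) = bil G s (ic (e j))) ∧
      prj G e f Finset.univ t = n

/-- U2: the unipotent group of the isotropic plane spanned by `e 0`, `e 1`, with fixed imaginary
part; `Z` is any closed set of real parts which is stable under the integral transvections -/
def StU2 : Prop :=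
  ∀ (ι : Type) [Fintype ι] [DecidableEq ι] (G : Matrix ι ι ℤ) (e f : Fin 3 → ι → ℤ)
    (a b m : ι → ℝ) (Z : Set (ι → ℝ)), Lat G → Frame G e f → IsClosed Z → a ∈ Z →
    (∀ j, j ≠ 2 → ∀ (x : ι → ℤ) (k : ℤ), bil G x (e j) = 0 → bil G x x = 2 * k →
      bil G b (ir x) = 0 → ∀ t ∈ Z, eich G (ir (e j)) (ir x) k t ∈ Z) →
    (∀ j, j ≠ 2 → bil G b (ir (e j)) = 0) → (∃ j, j ≠ 2 ∧ bil G a (ir (e j)) ≠ 0) →
    m ∈ closure {y | ∃ x₀ x₁ : ι → ℤ, Ort G e f {0, 1} x₀ ∧ Ort G e f {0, 1} x₁ ∧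
      bil G b (ir x₀) = 0 ∧ bil G b (ir x₁) = 0 ∧
      y = prj G e f {0, 1} a + bil G a (ir (e 0)) • ir x₀ + bil G a (ir (e 1)) • ir x₁} →
    ∃ t ∈ Z, (∀ j, j ≠ 2 → bil G t (ir (e j)) = bil G a (ir (e j))) ∧ prj G e f {0, 1} t = m ∧
      bil G t t = bil G a a ∧ bil G t b = bil G a b

/-- BASE: the frame of the Kummer lattice -/
def StAdm : Prop :=
  ∀ (ι : Type) [Fintype ι] [DecidableEq ι] (G : Matrix ι ι ℤ) (u w : Fin 3 → ι → ℤ),
    Lat G → Kum G u w → Adm G u w u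

/-- IND: an admissible frame with independent coordinates -/
def StInd : Prop :=
  ∀ (ι : Type) [Fintype ι] [DecidableEq ι] (G : Matrix ι ι ℤ) (u w e f : Fin 3 → ι → ℤ)
    (s : ι → ℂ), Lat G → Frame G e f → Adm G u w e → Per G s → Irr s →
    Good G u w s ∨ ∃ (e' f' : Fin 3 → ι → ℤ) (z : ℂ), Frame G e' f' ∧ Adm G u w e' ∧ z ≠ 0 ∧
      (∀ j, j ≠ 2 → (z * bil G s (ic (e' j))).im = 0) ∧
      LinearIndependent ℚ fun j => bil G s (ic (e' j))

/-- SIT: the imaginary part is orthogonal to an isotropic plane -/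
def StSit : Prop :=
  ∀ (ι : Type) [Fintype ι] [DecidableEq ι] (G : Matrix ι ι ℤ) (u w e f : Fin 3 → ι → ℤ)
    (s : ι → ℂ), Lat G → Frame G e f → Adm G u w e → Per G s → Irr s →
    (∀ j, j ≠ 2 → (bil G s (ic (e j))).im = 0) →
    (∀ p q : ℤ, p * bil G s (ic (e 0)) + q * bil G s (ic (e 1)) = 0 → p = 0 ∧ q = 0) →
    Good G u w s

/-- HYP: density of an orbit in the hyperboloid of `v = d e 2 + f 2` -/
def StHyp : Prop :=
  ∀ (ι : Type) [Fintype ι] [DecidableEq ι] (G : Matrix ι ι ℤ) (e f : Fin 3 → ι → ℤ) (d : ℤ)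
    (a a₀ : ι → ℝ), Lat G → Frame G e f → 0 < d →
    bil G a (ir (d • e 2 + f 2)) = 0 → bil G a a = 2 * d →
    bil G a₀ (ir (d • e 2 + f 2)) = 0 → bil G a₀ a₀ = 2 * d →
    (∀ (r : ℝ) (x : ι → ℤ), r • a = ir x → r = 0) →
    rc a₀ + Complex.I • ic (d • e 2 + f 2) ∈ Orb G (rc a + Complex.I • ic (d • e 2 + f 2))

end Vale.Agent.P290Z.Orb
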