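import Vale.Agent.P290Z.Orb.Spec

/-!
# P290Z, blocks (U2) and (C): the projection and the transvections over a commutative ring
-/

set_option linter.all false

open Set Filter Topology Matrix

noncomputable section

namespace Vale.Agent.P290Z.Orb.UC

open Vale.Agent.P290.H726

variable {ι : Type} [Fintype ι] [DecidableEq ι] {R : Type} [CommRing R] {G : Matrix ι ι ℤ}
  {e f : Fin 3 → ι → ℤ} {J : Finset (Fin 3)}

/-- integral vectors over a ring -/
def cs (R : Type) [CommRing R] (x : ι → ℤ) : ι → R := fun i => (x i : R)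

theorem bil_cs (x y : ι → ℤ) : bil G (cs R x) (cs R y) = ((bil G x y : ℤ) : R) :=
  bil_map G (Int.castRingHom R) x y

theorem cs_int (x : ι → ℤ) : cs ℤ x = x := rfl

theorem cs_smul (n : ℤ) (x : ι → ℤ) : cs R (n • x) = (n : R) • cs R x := funext fun i => by
  simp [cs]

theorem cs_neg (x : ι → ℤ) : cs R (-x) = -cs R x := funext fun i => by simp [cs]

theorem bil_sum_left {κ : Type} (s : Finset κ) (x : κ → ι → R) (y : ι → R) :
    bil G (∑ k ∈ s, x k) y = ∑ k ∈ s, bil G (x k) y :=
  map_sum (AddMonoidHom.mk' (fun x => bil G x y) fun a b => bil_add_left G a b y) x s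

theorem bil_sum_right {κ : Type} (s : Finset κ) (x : κ → ι → R) (y : ι → R) :
    bil G y (∑ k ∈ s, x k) = ∑ k ∈ s, bil G y (x k) :=
  map_sum (AddMonoidHom.mk' (bil G y) (bil_add_right G y)) x s

theorem bil_eich (a x t y : ι → R) (k : R) : bil G (eich G a x k t) y =
    bil G t y - bil G t x * bil G a y + bil G t a * bil G x y - k * bil G t a * bil G a y := by
  simp only [eich, bil_add_left, bil_sub_left, bil_smul_left]

theorem bil_eich_eich (hs : ∀ i j, G i j = G j i) {a x : ι → R} {k : R} (h1 : bil G a a = 0)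
    (h2 : bil G x a = 0) (h3 : bil G x x = 2 * k) (s t : ι → R) :
    bil G (eich G a x k s) (eich G a x k t) = bil G s t := by
  rw [bil_eich]
  simp only [bil_symm G hs _ (eich G a x k t), bil_eich, h1, h2, h3, bil_symm G hs a x,
    bil_symm G hs a s, bil_symm G hs x s, bil_symm G hs t s]
  ring

theorem eich_neg (hs : ∀ i j, G i j = G j i) {a x : ι → R} {k : R} (h1 : bil G a a = 0)
    (h2 : bil G x a = 0) (h3 : bil G x x = 2 * k) (t : ι → R) :
    eich G a x k (eich G a (-x) k t) = t := by
  rw [eich, bil_eich, bil_eich]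
  simp only [eich, bil_neg_left, bil_neg_right, h1, h2, h3, bil_symm G hs a x]
  module

variable (G e f J) in
/-- the projection as a linear map -/
def prjL : (ι → R) →ₗ[R] ι → R where
  toFun := prj G e f J
  map_add' s t := by
    simp only [prj, bil_add_left, add_smul, Finset.sum_add_distrib]
    abel
  map_smul' c t := by
    simp only [prj, bil_smul_left, smul_sub, Finset.smul_sum, smul_add, smul_smul,
      RingHom.id_apply]

theorem prjL_apply (t : ι → R) : prjL G e f J t =
    t - ∑ j ∈ J, (bil G t (cs R (f j)) • cs R (e j) + bil G t (cs R (e j)) • cs R (f j)) := rfl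

theorem prj_eq (t : ι → R) : prj G e f J t = prjL G e f J t := rfl

theorem prj_of_ort {t : ι → R} (h : ∀ j ∈ J, bil G t (cs R (e j)) = 0 ∧ bil G t (cs R (f j)) = 0) :
    prjL G e f J t = t := by
  rw [prjL_apply, Finset.sum_eq_zero fun j hj => by simp [(h j hj).1, (h j hj).2], sub_zero]

theorem prj_ort {x : ι → ℤ} (h : Ort G e f J x) : prjL G e f J (cs R x) = cs R x :=
  prj_of_ort fun j hj => by simp [bil_cs, (h j hj).1, (h j hj).2]

theorem prj_cs (x : ι → ℤ) : prjL G e f J (cs R x) = cs R (prjL G e f J x) := by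
  rw [prjL_apply, prjL_apply]
  funext i
  simp only [bil_cs, cs_int]
  simp [cs, Finset.sum_apply]

variable (hs : ∀ i j, G i j = G j i) (h : Frame G e f)
include hs h

theorem fe (i j : Fin 3) : bil G (f i) (e j) = if i = j then 1 else 0 := by
  rw [bil_symm G hs, h.ef]
  simp only [eq_comm]

theorem prj_e {j : Fin 3} (hj : j ∈ J) : prjL G e f J (cs R (e j)) = 0 := by
  simp [prjL_apply, bil_cs, h.ee, h.ef, hj]

theorem prj_f {j : Fin 3} (hj : j ∈ J) : prjL G e f J (cs R (f j)) = 0 := by
  simp [prjL_apply, bil_cs, h.ff, fe hs h, hj]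

theorem bil_prj_e {j : Fin 3} (hj : j ∈ J) (t : ι → R) :
    bil G (prjL G e f J t) (cs R (e j)) = 0 := by
  simp [prjL_apply, bil_sub_left, bil_sum_left, bil_add_left, bil_smul_left, bil_cs, h.ee,
    fe hs h, hj]

theorem bil_prj_f {j : Fin 3} (hj : j ∈ J) (t : ι → R) :
    bil G (prjL G e f J t) (cs R (f j)) = 0 := by
  simp [prjL_apply, bil_sub_left, bil_sum_left, bil_add_left, bil_smul_left, bil_cs, h.ff,
    h.ef, hj]

theorem ort_prj (x : ι → ℤ) : Ort G e f J (prjL G e f J x) :=
  fun _ hj => ⟨bil_prj_e hs h hj x, bil_prj_f hs h hj x⟩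

theorem prj_prj (t : ι → R) : prjL G e f J (prjL G e f J t) = prjL G e f J t :=
  prj_of_ort fun _ hj => ⟨bil_prj_e hs h hj t, bil_prj_f hs h hj t⟩

theorem bil_prj_prj (t : ι → R) : bil G (prjL G e f J t) (prjL G e f J t) =
    bil G t t - 2 * ∑ j ∈ J, bil G t (cs R (f j)) * bil G t (cs R (e j)) := by
  have h1 : bil G (prjL G e f J t) (prjL G e f J t) = bil G (prjL G e f J t) t := by
    nth_rewrite 2 [prjL_apply]
    rw [bil_sub_right, bil_sum_right, Finset.sum_eq_zero fun j hj => by
      simp [bil_add_right, bil_smul_right, bil_prj_e hs h hj, bil_prj_f hs h hj], sub_zero]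
  rw [h1, bil_symm G hs, prjL_apply, bil_sub_right, bil_sum_right, Finset.mul_sum]
  congr 1
  exact Finset.sum_congr rfl fun j _ => by rw [bil_add_right, bil_smul_right, bil_smul_right]; ring

theorem prj_eich {j : Fin 3} (hj : j ∈ J) (x t : ι → R) (k : R) :
    prjL G e f J (eich G (cs R (e j)) x k t) =
      prjL G e f J t + bil G t (cs R (e j)) • prjL G e f J x := by
  simp only [eich, map_add, map_sub, map_smul, prj_e hs h hj, smul_zero, sub_zero]

omit hs h

section top

variable {T : Type} [TopologicalSpace T] [TopologicalSpace R] [IsTopologicalRing R]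

@[fun_prop]
theorem continuous_bil {s t : T → ι → R} (h1 : Continuous s) (h2 : Continuous t) :
    Continuous fun x => bil G (s x) (t x) := by
  unfold bil
  fun_prop

@[fun_prop]
theorem continuous_prj {s : T → ι → R} (h1 : Continuous s) :
    Continuous fun x => prjL G e f J (s x) := by
  simp only [prjL_apply]
  fun_prop

end top

end Vale.Agent.P290Z.Orb.UC
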